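import Vale.Agent.P188.H530.ModZ

/-! P188, block PSI: crossed homomorphisms from generator weights. -/

universe u v w w'

open Finset
open scoped commutatorElement

namespace Vale.Agent.P188.H530

open Vale.Agent.P188.H754 (GenWeight)

variable {G : Type u} [Group G] {k : ℕ}

theorem log_ρ_mul {N : Subgroup G} (w : GenWeight N) (x y : G) :
    Real.log ‖w.ρ (x * y)‖ = Real.log ‖w.ρ x‖ + Real.log ‖w.ρ y‖ := by
  rw [map_mul, norm_mul, Real.log_mul (norm_ne_zero_iff.mpr (w.ρ_ne x))
    (norm_ne_zero_iff.mpr (w.ρ_ne y))]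

/-- The logarithm of the modulus of a generator weight is a linear form of the height. -/
theorem exists_clm (η : G →* Multiplicative (Fin k → ℤ)) (hη : Function.Surjective η)
    (w : GenWeight η.ker) :
    ∃ b : (Fin k → ℝ) →L[ℝ] ℝ, ∀ g, b (hgt η g) = Real.log ‖w.ρ g‖ := by
  classical
  choose lift hlift using hη
  have hker : ∀ x y : G, η x = η y → Real.log ‖w.ρ x‖ = Real.log ‖w.ρ y‖ := by
    intro x y h
    have h1 : x⁻¹ * y ∈ η.ker := by
      rw [MonoidHom.mem_ker, map_mul, map_inv, h, inv_mul_cancel]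
    have h2 := log_ρ_mul w x (x⁻¹ * y)
    rw [mul_inv_cancel_left, w.ρ_of_mem h1, norm_one, Real.log_one, add_zero] at h2
    exact h2.symm
  let ψ : (Fin k → ℤ) →+ ℝ :=
    { toFun := fun q => Real.log ‖w.ρ (lift (Multiplicative.ofAdd q))‖
      map_zero' := by
        rw [hker (lift (Multiplicative.ofAdd 0)) 1 (by rw [hlift, map_one]; rfl), map_one,
          norm_one, Real.log_one]
      map_add' := by
        intro q q'
        rw [hker (lift (Multiplicative.ofAdd (q + q')))
          (lift (Multiplicative.ofAdd q) * lift (Multiplicative.ofAdd q')) (by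
            rw [map_mul, hlift, hlift, hlift]; rfl), log_ρ_mul] }
  have hψ : ∀ q : Fin k → ℤ, ψ q = ∑ i, (q i : ℝ) * ψ (Pi.single i 1) := by
    intro q
    have e : q = ∑ i, q i • (Pi.single i 1 : Fin k → ℤ) := by
      funext j
      simp [Finset.sum_apply, Pi.single_apply]
    conv_lhs => rw [e]
    rw [map_sum]
    refine Finset.sum_congr rfl fun i _ => ?_
    rw [map_zsmul, zsmul_eq_mul]
  refine ⟨∑ i, ψ (Pi.single i 1) • ContinuousLinearMap.proj i, fun g => ?_⟩
  have h1 : Real.log ‖w.ρ g‖ = ψ (Multiplicative.toAdd (η g)) := by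
    refine hker _ _ ?_
    rw [hlift]
    rfl
  rw [h1, hψ]
  simp only [ContinuousLinearMap.sum_apply, ContinuousLinearMap.smul_apply,
    ContinuousLinearMap.proj_apply, smul_eq_mul, hgt]
  exact Finset.sum_congr rfl fun i _ => mul_comm _ _

/-- The crossed homomorphism of a non-trivial generator weight. -/
theorem exists_crossed (η : G →* Multiplicative (Fin k → ℤ)) (w : GenWeight η.ker)
    {b : (Fin k → ℝ) →L[ℝ] ℝ} (hb : ∀ g, b (hgt η g) = Real.log ‖w.ρ g‖) (hb0 : b ≠ 0)
    (hη : Function.Surjective η) :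
    ∃ c : Crossed (hgt η) b, (∀ g, c.ρ g = w.ρ g) ∧ ∀ n ∈ η.ker, c.D n = w.φ n := by
  have hcomm : ∀ a b : G, ⁅a, b⁆ ∈ η.ker := by
    intro a b
    rw [MonoidHom.mem_ker, map_commutatorElement, commutatorElement_def]
    rw [mul_comm (η a) (η b)]; group
  have hw : ∃ g, w.ρ g ≠ 1 := by
    by_contra hcon
    push Not at hcon
    apply hb0
    -- `b` vanishes on integral vectors
    have h1 : ∀ g, b (hgt η g) = 0 := fun g => by rw [hb, hcon g, norm_one, Real.log_one]
    refine ContinuousLinearMap.ext fun x => ?_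
    have h2 : ∀ i : Fin k, b (Pi.single i 1) = 0 := by
      intro i
      obtain ⟨g, hg⟩ := hη (Multiplicative.ofAdd (Pi.single i 1))
      have h3 := h1 g
      have e : hgt η g = Pi.single i 1 := by
        funext j
        simp only [hgt, hg]
        by_cases hij : j = i
        · subst hij; simp
        · simp [Pi.single_apply, hij]
      rwa [e] at h3
    have e : x = ∑ i, x i • (Pi.single i 1 : Fin k → ℝ) := by
      funext j
      simp [Finset.sum_apply, Pi.single_apply]
    rw [e, map_sum]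
    simp [h2]
  obtain ⟨D, hD, hDn⟩ := w.exists_crossed hcomm hw
  obtain ⟨u, hu, hφu⟩ := w.φ_ne
  refine ⟨{
    D := D
    ρ := w.ρ
    D_mul := hD
    ρ_mul := fun x y => map_mul _ _ _
    norm_ρ := fun x => by
      rw [hb, Real.exp_log (norm_pos_iff.mpr (w.ρ_ne x))]
    ρ_ker := fun x hx => w.ρ_of_mem ((hgt_eq_zero_iff η x).mp hx)
    u := u
    θ_u := (hgt_eq_zero_iff η u).mpr hu
    D_u := by rw [hDn u hu]; exact hφu }, fun g => rfl, hDn⟩

end Vale.Agent.P188.H530
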