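import Vale.Agent.P188.H530.Refine
import Vale.Agent.P188.H754.Malcev11

/-! P188, block PSI: the standing data for an extension of `ℤ ^ k` by a group of polynomial
growth. -/

universe u v w w'

open Finset

namespace Vale.Agent.P188.H530

open Vale.Agent.P188.H789 (Bl PathTo Slab cz slab_count)

variable {G : Type u} [Group G] {k : ℕ}

/-- The height function with values in `ℝ ^ k`. -/
def hgt (η : G →* Multiplicative (Fin k → ℤ)) (g : G) : Fin k → ℝ :=
  fun i => ((Multiplicative.toAdd (η g) i : ℤ) : ℝ)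

theorem hgt_mul (η : G →* Multiplicative (Fin k → ℤ)) (x y : G) :
    hgt η (x * y) = hgt η x + hgt η y := by
  funext i
  simp [hgt, map_mul]

theorem hgt_eq_zero_iff (η : G →* Multiplicative (Fin k → ℤ)) (x : G) :
    hgt η x = 0 ↔ x ∈ η.ker := by
  rw [MonoidHom.mem_ker]
  constructor
  · intro h
    have h2 : Multiplicative.toAdd (η x) = 0 := by
      funext i
      have := congrFun h i
      simpa [hgt] using this
    exact h2
  · intro h
    funext i
    simp [hgt, h]

theorem mem_Slab_of_norm (η : G →* Multiplicative (Fin k → ℤ)) {R : ℕ} {g : G}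
    (h : ‖hgt η g‖ ≤ R) : g ∈ Slab η R := by
  intro i
  unfold cz
  split_ifs with hi
  · have h1 := (norm_le_pi_norm (hgt η g) ⟨i, hi⟩).trans h
    simp only [hgt, Real.norm_eq_abs] at h1
    rw [← Int.cast_abs, Int.abs_eq_natAbs] at h1
    exact_mod_cast h1
  · simp

/-- The standing data. -/
theorem exists_mod (η : G →* Multiplicative (Fin k → ℤ)) (hη : Function.Surjective η)
    {A₀ : Set G} (hA₀ : A₀.Finite) (hcl : Subgroup.closure A₀ = η.ker) {C D : ℕ}
    (hgr : ∀ n, (Bl A₀ n).ncard ≤ C * (n + 1) ^ D) (F : Finset G) :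
    ∃ A : Set G, (F : Set G) ⊆ A ∧ Nonempty (Mod (hgt η) A) := by
  classical
  choose lift hlift using hη
  let box : Finset (Fin k → ℤ) := Fintype.piFinset fun _ => Finset.Icc (-3) 3
  let B : Finset G := box.image fun q => lift (Multiplicative.ofAdd q)
  let A : Finset G := insert 1 (F ∪ B) ∪ (insert 1 (F ∪ B)).image fun x => x⁻¹
  have hAfin : (A : Set G).Finite := A.finite_toSet
  obtain ⟨C', hC', h1⟩ := slab_count η (fun y => ⟨lift y, hlift y⟩) hA₀ hcl hgr hAfin
  obtain ⟨ℓ, hℓ⟩ : ∃ ℓ : ℝ, ∀ a ∈ (A : Set G), ‖hgt η a‖ ≤ ℓ := by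
    obtain ⟨ℓ, hℓ⟩ := (hAfin.image fun a => ‖hgt η a‖).bddAbove
    exact ⟨ℓ, fun a ha => hℓ ⟨a, ha, rfl⟩⟩
  have h1A : (1 : G) ∈ A := Finset.mem_union_left _ (Finset.mem_insert_self _ _)
  have himg : ∀ R : ℕ, (hgt η '' {g | ‖hgt η g‖ ≤ R}).Finite ∧
      (hgt η '' {g | ‖hgt η g‖ ≤ R}).ncard ≤ (2 * R + 1) ^ k := by
    intro R
    let bx : Finset (Fin k → ℤ) := Fintype.piFinset fun _ => Finset.Icc (-(R : ℤ)) R
    have hsub : hgt η '' {g | ‖hgt η g‖ ≤ R} ⊆
        ((bx.image fun q => (fun i => ((q i : ℤ) : ℝ) : Fin k → ℝ)) : Set (Fin k → ℝ)) := by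
      rintro _ ⟨g, hg, rfl⟩
      rw [Finset.coe_image]
      refine ⟨Multiplicative.toAdd (η g), ?_, rfl⟩
      rw [Finset.mem_coe, Fintype.mem_piFinset]
      intro i
      have h2 := (norm_le_pi_norm (hgt η g) i).trans hg
      simp only [hgt, Real.norm_eq_abs] at h2
      rw [← Int.cast_abs] at h2
      have h3 : |Multiplicative.toAdd (η g) i| ≤ (R : ℤ) := by exact_mod_cast h2
      rw [Finset.mem_Icc]
      exact abs_le.mp h3
    refine ⟨(Finset.finite_toSet _).subset hsub, ?_⟩
    refine (Set.ncard_le_ncard hsub (Finset.finite_toSet _)).trans ?_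
    rw [Set.ncard_coe_finset]
    refine Finset.card_image_le.trans ?_
    rw [Fintype.card_piFinset]
    simp only [Int.card_Icc, Finset.prod_const, Finset.card_univ, Fintype.card_fin]
    refine Nat.pow_le_pow_left ?_ _
    omega
  refine ⟨A, ?_, ⟨{
    add := hgt_mul η
    fin := hAfin
    one := h1A
    inv := ?_
    ℓ := ℓ
    ℓ0 := (norm_nonneg _).trans (hℓ 1 h1A)
    hℓ := hℓ
    r₀ := 1
    hr₀ := zero_le_one
    seg := ?_
    Cs := max C' (2 ^ k)
    hCs := le_trans hC' (le_max_left _ _)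
    Ds := max D k
    slab := ?_
    img := ?_ }⟩⟩
  · intro x hx
    exact Finset.mem_coe.mpr (Finset.mem_union_left _ (Finset.mem_insert_of_mem
      (Finset.mem_union_left _ (Finset.mem_coe.mp hx))))
  · intro a ha
    rw [Finset.mem_coe] at ha ⊢
    rcases Finset.mem_union.mp ha with h | h
    · exact Finset.mem_union_right _ (Finset.mem_image_of_mem _ h)
    · obtain ⟨b, hb, rfl⟩ := Finset.mem_image.mp h
      rw [inv_inv]
      exact Finset.mem_union_left _ hb
  · intro v w g hvw hg
    let q : Fin k → ℤ := fun i => round (w i) - Multiplicative.toAdd (η g) i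
    have hq : ∀ i, |q i| ≤ 2 := by
      intro i
      have h2 : |w i - round (w i)| ≤ 1 / 2 := abs_sub_round (w i)
      have h3 : |(w - v) i| ≤ 1 := (norm_le_pi_norm (w - v) i).trans hvw
      have h4 : |(hgt η g - v) i| ≤ 1 := (norm_le_pi_norm (hgt η g - v) i).trans hg
      simp only [Pi.sub_apply] at h3 h4
      have h5 : |((q i : ℤ) : ℝ)| < 3 := by
        have e : ((q i : ℤ) : ℝ) = -(w i - round (w i)) + (w i - v i) - (hgt η g i - v i) := by
          simp only [q, hgt]
          push_cast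
          ring
        rw [e]
        have h6 := abs_sub (-(w i - round (w i)) + (w i - v i)) (hgt η g i - v i)
        have h7 := abs_add_le (-(w i - round (w i))) (w i - v i)
        rw [abs_neg] at h7
        linarith
      have h8 : |q i| < 3 := by
        rw [← Int.cast_abs] at h5
        exact_mod_cast h5
      omega
    refine ⟨lift (Multiplicative.ofAdd q), ?_, ?_⟩
    · rw [Finset.mem_coe]
      refine Finset.mem_union_left _ (Finset.mem_insert_of_mem (Finset.mem_union_right _
        (Finset.mem_image_of_mem _ ?_)))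
      rw [Fintype.mem_piFinset]
      intro i
      rw [Finset.mem_Icc]
      have := abs_le.mp (hq i)
      omega
    · rw [hgt_mul]
      refine (pi_norm_le_iff_of_nonneg zero_le_one).mpr fun i => ?_
      have e : (hgt η g + hgt η (lift (Multiplicative.ofAdd q)) - w) i = -(w i - round (w i)) := by
        simp only [Pi.sub_apply, Pi.add_apply, hgt, hlift, q]
        simp
      rw [e, norm_neg, Real.norm_eq_abs]
      have h2 : |w i - round (w i)| ≤ 1 / 2 := abs_sub_round (w i)
      linarith
  · intro R m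
    have hsub : {x | PathTo {g | ‖hgt η g‖ ≤ R} (A : Set G) m 1 x} ⊆
        {x | PathTo (Slab η R) (A : Set G) m 1 x} := fun x hx =>
      PathTo.mono (fun g hg => mem_Slab_of_norm η hg) subset_rfl hx
    refine ⟨(h1 R m).1.subset hsub, ?_⟩
    refine (Set.ncard_le_ncard hsub (h1 R m).1).trans ((h1 R m).2.trans ?_)
    refine Nat.mul_le_mul (Nat.pow_le_pow_left (le_max_left _ _) _)
      (Nat.pow_le_pow_right (Nat.succ_pos _) (le_max_left _ _))
  · intro R
    refine ⟨(himg R).1, (himg R).2.trans ?_⟩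
    calc (2 * R + 1) ^ k ≤ (2 * (R + 1)) ^ k := Nat.pow_le_pow_left (by omega) _
      _ = 2 ^ k * (R + 1) ^ k := mul_pow _ _ _
      _ ≤ _ := Nat.mul_le_mul (le_max_right _ _)
        (Nat.pow_le_pow_right (Nat.succ_pos _) (le_max_right _ _))

end Vale.Agent.P188.H530
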