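import Vale.Agent.P188.H530.Psi3

/-! P188, block COH: linear parts are injective (by counting). -/

universe u v w w'

open Finset Module

namespace Vale.Agent.P188.H530

open Vale.Agent.P188.H789 (Bl PathTo Bl_mono mul_mem_Bl mem_Bl_one one_mem_Bl)

variable {G : Type u} [Group G] {G' : Type v} [Group G']
  {E : Type w} [NormedAddCommGroup E] [NormedSpace ℝ E]
  {E' : Type w'} [NormedAddCommGroup E'] [NormedSpace ℝ E']

/-- Exponentially many end points in a direction where `b` grows. -/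
theorem ends_lower {θ : G → E} {A : Set G} (M : Mod θ A) {b : E →L[ℝ] ℝ} (c' : Crossed θ b)
    (hu : c'.u ∈ A) {β : ℝ} (hβ : 0 < β) {ε : ℝ} (hε : 0 < ε) :
    ∃ n₀ : ℕ, ∀ n : ℕ, n₀ ≤ n → ∀ w : E, ‖w‖ ≤ 1 → β ≤ b w →
      2 ^ (⌊β / (2 * (‖b‖ * M.ℓ + 2)) * n⌋₊ + 1) ≤
        M.Cs * (Ends θ A (8 * n) ((n : ℝ) • w) (ε * n)).ncard := by
  obtain ⟨D₁, hD₁⟩ : ∃ D₁ : ℝ, ∀ a ∈ A, ‖c'.D a‖ ≤ D₁ := by
    obtain ⟨D₁, hD₁⟩ := (M.fin.image fun a => ‖c'.D a‖).bddAbove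
    exact ⟨D₁, fun a ha => hD₁ ⟨a, ha, rfl⟩⟩
  have hD₁0 : 0 ≤ D₁ := (norm_nonneg _).trans (hD₁ 1 M.one)
  have hq : 0 < ‖b‖ * M.ℓ + 2 := by
    have := mul_nonneg (norm_nonneg b) M.ℓ0
    linarith
  have hDu : 0 < ‖c'.D c'.u‖ := norm_pos_iff.mpr c'.D_u
  set γ := β / (2 * (‖b‖ * M.ℓ + 2)) with hγ
  have hγ0 : 0 < γ := by positivity
  obtain ⟨n₂, hn₂⟩ := exists_exp_gt (8 * D₁ * Real.exp (‖b‖ * (2 * M.r₀)) / ‖c'.D c'.u‖) 1
    (s := β / 4) (by positivity)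
  obtain ⟨n₃, hn₃⟩ := exists_nat_ge (2 * M.r₀ / ε)
  obtain ⟨n₄, hn₄⟩ := exists_nat_ge (4 * (‖b‖ * M.r₀) / β)
  refine ⟨max n₂ (max (max n₃ n₄) 1), fun n hn w hw hbw => ?_⟩
  simp only [max_le_iff] at hn
  obtain ⟨hnn2, ⟨hnn3, hnn4⟩, hnn5⟩ := hn
  have hnpos : (1 : ℝ) ≤ n := by exact_mod_cast hnn5
  have hn0 : (0 : ℝ) < n := by linarith
  have hr₀n : 2 * M.r₀ ≤ ε * n := by
    have h3 : (n₃ : ℝ) ≤ n := by exact_mod_cast hnn3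
    have := hn₃.trans h3
    rw [div_le_iff₀ hε] at this
    linarith
  have hbr₀ : 4 * (‖b‖ * M.r₀) ≤ β * n := by
    have h3 : (n₄ : ℝ) ≤ n := by exact_mod_cast hnn4
    have := hn₄.trans h3
    rw [div_le_iff₀ hβ] at this
    linarith
  have hQ1 : (⌊γ * n⌋₊ : ℝ) ≤ γ * n := Nat.floor_le (by positivity)
  have hQ3 : (⌊γ * n⌋₊ : ℝ) * (‖b‖ * M.ℓ + 2) ≤ β * n / 2 := by
    calc (⌊γ * n⌋₊ : ℝ) * (‖b‖ * M.ℓ + 2) ≤ (γ * n) * (‖b‖ * M.ℓ + 2) := by gcongr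
      _ = _ := by rw [hγ]; field_simp
  have hbnw : β * n ≤ b ((n : ℝ) • w) := by
    rw [map_smul, smul_eq_mul, mul_comm]
    gcongr
  have hnw : ‖(n : ℝ) • w‖ ≤ n := by
    rw [norm_smul, Real.norm_of_nonneg hn0.le]
    calc (n : ℝ) * ‖w‖ ≤ n * 1 := by gcongr
      _ = n := mul_one _
  have h := growth c' M.add M.hr₀ M.seg M.one hu M.ℓ0 M.hℓ hD₁0 hD₁ (m := 0)
    (W := (n : ℝ) • w) (d := 0) (r := 0) le_rfl zero_le_one le_rfl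
    (by have : 0 ≤ β * n := by positivity
        linarith)
    (M := 2 * n) (by push_cast; linarith) (c₀ := β / 4 * n) (by positivity) (by
      have h6 := hn₂ n hnn2
      rw [pow_one, div_mul_eq_mul_div, div_lt_iff₀ hDu] at h6
      push_cast
      rw [zero_add, zero_add]
      have e1 : 4 * (2 * (n : ℝ)) * D₁ * Real.exp (‖b‖ * (2 * M.r₀)) ≤
          8 * D₁ * Real.exp (‖b‖ * (2 * M.r₀)) * (n + 1) := by
        have : 0 ≤ 8 * D₁ * Real.exp (‖b‖ * (2 * M.r₀)) := by positivity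
        nlinarith
      linarith)
    (Q := ⌊γ * n⌋₊) (by
      rw [sub_zero, one_mul]
      linarith)
    (M.Ends_finite _ _ _) (M.Ends_finite _ _ _) (P := M.Cs * (0 + 1) ^ M.Ds)
    (M.image_ncard_le (by simp))
  have h1 : 1 ≤ (Ends θ A 0 ((0 : ℝ) • ((n : ℝ) • w)) 0).ncard := M.ncard_pos _ _ le_rfl
  have h2 : (Ends θ A (0 + 2 * n + 2 * (2 * n + 1)) ((n : ℝ) • w) (0 + 2 * M.r₀)).ncard ≤
      (Ends θ A (8 * n) ((n : ℝ) • w) (ε * n)).ncard :=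
    M.ncard_mono (by omega) (Near_mono (by linarith))
  rw [zero_add, one_pow, mul_one] at h
  calc 2 ^ (⌊γ * n⌋₊ + 1) = 1 * 2 ^ (⌊γ * n⌋₊ + 1) := (one_mul _).symm
    _ ≤ _ := Nat.mul_le_mul_right _ h1
    _ ≤ _ := h
    _ ≤ _ := Nat.mul_le_mul_left _ h2

/-- Linear parts are bounded below in the directions where there is growth. -/
theorem inj_lower {θ : G → E} {A : Set G} (M : Mod θ A) {b : E →L[ℝ] ℝ} (c' : Crossed θ b)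
    (hu : c'.u ∈ A) {θ' : G' → E'} {A' : Set G'} (M' : Mod θ' A') (c K : ℕ) {C W : ℝ}
    (hC : 0 ≤ C) (hW : 1 ≤ W) {β : ℝ} (hβ : 0 < β) :
    ∃ c₁ ε₀ : ℝ, 0 < c₁ ∧ 0 < ε₀ ∧ ∀ ε : ℝ, 0 < ε → ε ≤ ε₀ → ∃ n₀ : ℕ, ∀ n : ℕ, n₀ ≤ n →
      ∀ T : E →L[ℝ] E', Tr θ A θ' A' c K C W ε n (8 * n) (ε * n) T →
        ∀ w : E, ‖w‖ ≤ 1 → β ≤ b w → c₁ ≤ ‖T w‖ := by
  have hq : 0 < ‖b‖ * M.ℓ + 2 := by
    have := mul_nonneg (norm_nonneg b) M.ℓ0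
    linarith
  set γ := β / (2 * (‖b‖ * M.ℓ + 2)) with hγ
  have hγ0 : 0 < γ := by positivity
  have hlog2 : 0 < Real.log 2 := Real.log_pos (by norm_num)
  have hCs' : (1 : ℝ) ≤ M'.Cs := by exact_mod_cast M'.hCs
  have hlogC : 0 ≤ Real.log M'.Cs := Real.log_nonneg hCs'
  set c₁ := γ * Real.log 2 / (4 * (Real.log M'.Cs + 1)) with hc₁
  have hc₁0 : 0 < c₁ := by positivity
  have hc₁' : 2 * c₁ * Real.log M'.Cs ≤ γ * Real.log 2 / 2 := by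
    have : c₁ * (4 * (Real.log M'.Cs + 1)) = γ * Real.log 2 := by
      rw [hc₁]; field_simp
    nlinarith
  refine ⟨c₁, c₁ / (2 * (C + 1)), hc₁0, by positivity, fun ε hε hεε => ?_⟩
  have hCε : 2 * C * ε ≤ c₁ := by
    rw [le_div_iff₀ (by positivity)] at hεε
    nlinarith
  obtain ⟨n₀, hn₀⟩ := ends_lower M c' hu hβ hε
  obtain ⟨n₁, hn₁⟩ := exists_exp_gt ((M.Cs : ℝ) * c * M'.Cs ^ 2 * ((8 * K : ℝ) + 1) ^ M'.Ds)
    M'.Ds (s := γ * Real.log 2 / 2) (by positivity)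
  refine ⟨max n₀ (max n₁ 1), fun n hn T hT w hw hbw => ?_⟩
  simp only [max_le_iff] at hn
  obtain ⟨hnn0, hnn1, hnn2⟩ := hn
  have hnpos : (1 : ℝ) ≤ n := by exact_mod_cast hnn2
  have hn0 : (0 : ℝ) < n := by linarith
  by_contra hcon
  push Not at hcon
  have h1 := hn₀ n hnn0 w hw hbw
  have h2 := hT ((n : ℝ) • w) (by
    rw [norm_smul, Real.norm_of_nonneg hn0.le, mul_comm]
    gcongr
    linarith)
  set R := ⌈(n : ℝ) * (‖T w‖ + 2 * C * ε)⌉₊ with hR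
  have hTw := norm_nonneg (T w)
  have hR1 : (R : ℝ) ≤ n * (‖T w‖ + 2 * C * ε) + 1 := by
    have : 0 ≤ (n : ℝ) * (‖T w‖ + 2 * C * ε) := by positivity
    exact (Nat.ceil_lt_add_one this).le
  have h3 := M'.Ends_ncard_le (m := K * (8 * n)) (w := T ((n : ℝ) • w)) (r := C * (ε * n + ε * n))
    (R := R) (by
      refine le_trans (le_of_eq ?_) (Nat.le_ceil _)
      rw [map_smul, norm_smul, Real.norm_of_nonneg hn0.le]
      ring)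
  have h4 : 2 ^ (⌊γ * n⌋₊ + 1) ≤ M.Cs * (c * (M'.Cs ^ (R + 1) * (K * (8 * n) + 1) ^ M'.Ds)) :=
    h1.trans (Nat.mul_le_mul_left _ (h2.trans (Nat.mul_le_mul_left _ h3)))
  have h5 : ((2 ^ (⌊γ * n⌋₊ + 1) : ℕ) : ℝ) ≤
      ((M.Cs * (c * (M'.Cs ^ (R + 1) * (K * (8 * n) + 1) ^ M'.Ds)) : ℕ) : ℝ) := by
    exact_mod_cast h4
  have hlow : Real.exp (γ * Real.log 2 * n) ≤ ((2 ^ (⌊γ * n⌋₊ + 1) : ℕ) : ℝ) := by
    have e2 : ((2 ^ (⌊γ * n⌋₊ + 1) : ℕ) : ℝ) =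
        Real.exp (Real.log 2 * ((⌊γ * n⌋₊ + 1 : ℕ) : ℝ)) := by
      rw [Real.exp_mul, Real.exp_log (by norm_num), Real.rpow_natCast]
      push_cast
      rfl
    rw [e2]
    refine Real.exp_le_exp.mpr ?_
    have h7 : γ * n ≤ ((⌊γ * n⌋₊ + 1 : ℕ) : ℝ) := by
      push_cast
      exact (Nat.lt_floor_add_one _).le
    calc γ * Real.log 2 * n = Real.log 2 * (γ * n) := by ring
      _ ≤ _ := by gcongr
  have hup1 : ((M'.Cs : ℝ)) ^ (R + 1) ≤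
      M'.Cs ^ 2 * Real.exp (γ * Real.log 2 / 2 * n) := by
    have e3 : ((M'.Cs : ℝ)) ^ (R + 1) = Real.exp (Real.log M'.Cs * ((R + 1 : ℕ) : ℝ)) := by
      rw [Real.exp_mul, Real.exp_log (by linarith), Real.rpow_natCast]
    have e4 : ((M'.Cs : ℝ)) ^ 2 = Real.exp (Real.log M'.Cs * 2) := by
      rw [Real.exp_mul, Real.exp_log (by linarith)]
      norm_cast
    rw [e3, e4, ← Real.exp_add]
    refine Real.exp_le_exp.mpr ?_
    push_cast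
    have h8 : (R : ℝ) + 1 ≤ 2 * c₁ * n + 2 := by
      have : (n : ℝ) * (‖T w‖ + 2 * C * ε) ≤ n * (c₁ + c₁) := by gcongr
      linarith
    calc Real.log M'.Cs * ((R : ℝ) + 1) ≤ Real.log M'.Cs * (2 * c₁ * n + 2) := by gcongr
      _ = Real.log M'.Cs * 2 + (2 * c₁ * Real.log M'.Cs) * n := by ring
      _ ≤ _ := by gcongr
  have hup2 : ((K : ℝ) * (8 * n) + 1) ^ M'.Ds ≤
      ((8 * K : ℝ) + 1) ^ M'.Ds * ((n : ℝ) + 1) ^ M'.Ds := by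
    rw [← mul_pow]
    gcongr
    have : (0 : ℝ) ≤ K := Nat.cast_nonneg _
    nlinarith
  have h9 := hn₁ n hnn1
  have h10 : Real.exp (γ * Real.log 2 * n) =
      Real.exp (γ * Real.log 2 / 2 * n) * Real.exp (γ * Real.log 2 / 2 * n) := by
    rw [← Real.exp_add]; ring_nf
  have h11 : Real.exp (γ * Real.log 2 * n) ≤
      (M.Cs : ℝ) * c * M'.Cs ^ 2 * ((8 * K : ℝ) + 1) ^ M'.Ds * ((n : ℝ) + 1) ^ M'.Ds *
        Real.exp (γ * Real.log 2 / 2 * n) := by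
    refine hlow.trans (h5.trans ?_)
    push_cast
    calc (M.Cs : ℝ) * (c * ((M'.Cs : ℝ) ^ (R + 1) * ((K : ℝ) * (8 * n) + 1) ^ M'.Ds))
        ≤ (M.Cs : ℝ) * (c * ((M'.Cs ^ 2 * Real.exp (γ * Real.log 2 / 2 * n)) *
          (((8 * K : ℝ) + 1) ^ M'.Ds * ((n : ℝ) + 1) ^ M'.Ds))) := by gcongr
      _ = _ := by ring
  rw [h10] at h11
  have h12 := lt_of_mul_lt_mul_right (lt_of_le_of_lt h11 (mul_lt_mul_of_pos_right h9
    (Real.exp_pos (γ * Real.log 2 / 2 * n)))) (Real.exp_pos _).le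
  exact lt_irrefl _ h12

end Vale.Agent.P188.H530
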