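import Mathlib

/-! P188, block COH: generic integral directions detect rays. -/

open Set

namespace Vale.Agent.P188.H530

variable {k : ℕ}

/-- an integral vector -/
def iv (v : Fin k → ℤ) : Fin k → ℝ := fun i => (v i : ℝ)

/-- If `ψ` is nonnegative where `b` is positive then `ψ` is a nonnegative multiple of `b`. -/
theorem eq_smul_of_nonneg {E : Type*} [NormedAddCommGroup E] [NormedSpace ℝ E]
    {b ψ : E →L[ℝ] ℝ} (hb : b ≠ 0) (h : ∀ u, 0 < b u → 0 ≤ ψ u) :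
    ∃ t : ℝ, 0 ≤ t ∧ ψ = t • b := by
  obtain ⟨w, hw⟩ : ∃ w, b w ≠ 0 := by
    by_contra hcon
    push Not at hcon
    exact hb (ContinuousLinearMap.ext hcon)
  obtain ⟨w, hw⟩ : ∃ w, 0 < b w := by
    rcases lt_or_gt_of_ne hw with h1 | h1
    · exact ⟨-w, by rw [map_neg]; linarith⟩
    · exact ⟨w, h1⟩
  have hker : ∀ u, b u = 0 → ψ u = 0 := by
    intro u hu
    by_contra hne
    have h1 := h (w + (-(ψ w + 1) / ψ u) • u) (by
      rw [map_add, map_smul, hu, smul_zero, add_zero]; exact hw)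
    rw [map_add, map_smul, smul_eq_mul, div_mul_cancel₀ _ hne] at h1
    linarith
  refine ⟨ψ w / b w, div_nonneg (h w hw) hw.le, ContinuousLinearMap.ext fun u => ?_⟩
  have h2 := hker (u - (b u / b w) • w) (by
    rw [map_sub, map_smul, smul_eq_mul, div_mul_cancel₀ _ hw.ne', sub_self])
  rw [map_sub, map_smul, smul_eq_mul, sub_eq_zero] at h2
  rw [h2, ContinuousLinearMap.smul_apply, smul_eq_mul]
  field_simp

theorem dense_ne_zero {E : Type*} [NormedAddCommGroup E] [NormedSpace ℝ E]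
    [FiniteDimensional ℝ E] {b : E →L[ℝ] ℝ} (hb : b ≠ 0) : Dense {u | b u ≠ 0} := by
  have hsurj : Function.Surjective b := by
    intro y
    obtain ⟨w, hw⟩ : ∃ w, b w ≠ 0 := by
      by_contra hcon
      push Not at hcon
      exact hb (ContinuousLinearMap.ext hcon)
    exact ⟨(y / b w) • w, by rw [map_smul, smul_eq_mul, div_mul_cancel₀ _ hw]⟩
  have h1 : IsOpenMap b := by
    have := LinearMap.isOpenMap_of_finiteDimensional (f := b.toLinearMap) hsurj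
    exact this
  exact (dense_compl_singleton (0 : ℝ)).preimage h1

theorem dense_generic {E : Type*} [NormedAddCommGroup E] [NormedSpace ℝ E]
    [FiniteDimensional ℝ E] (B : Finset (E →L[ℝ] ℝ)) :
    Dense {u | ∀ b ∈ B, b ≠ 0 → b u ≠ 0} ∧ IsOpen {u | ∀ b ∈ B, b ≠ 0 → b u ≠ 0} := by
  classical
  induction B using Finset.induction_on with
  | empty => simp
  | insert b B _ ih =>
    have e : {u | ∀ c ∈ insert b B, c ≠ 0 → c u ≠ 0} =
        {u | b ≠ 0 → b u ≠ 0} ∩ {u | ∀ c ∈ B, c ≠ 0 → c u ≠ 0} := by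
      ext u
      simp
    have ho : IsOpen {u | b ≠ 0 → b u ≠ 0} := by
      by_cases hb : b = 0
      · simp [hb]
      · simpa [hb] using isOpen_ne_fun b.continuous continuous_const
    have hd : Dense {u | b ≠ 0 → b u ≠ 0} := by
      by_cases hb : b = 0
      · simp [hb]
      · simpa [hb] using dense_ne_zero hb
    rw [e]
    exact ⟨hd.inter_of_isOpen_left ih.1 ho, ho.inter ih.2⟩

theorem denseRange_rat : DenseRange (fun q : Fin k → ℚ => fun i => (q i : ℝ)) := by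
  have h := DenseRange.piMap (fun _ : Fin k => Rat.denseRange_cast (𝕜 := ℝ))
  exact h

/-- An open cone contains a generic integral vector. -/
theorem exists_generic_int (B : Finset ((Fin k → ℝ) →L[ℝ] ℝ)) {U : Set (Fin k → ℝ)}
    (hU : IsOpen U) (hne : U.Nonempty) (hcone : ∀ u ∈ U, ∀ t : ℝ, 0 < t → t • u ∈ U) :
    ∃ v : Fin k → ℤ, iv v ∈ U ∧ ∀ b ∈ B, b ≠ 0 → b (iv v) ≠ 0 := by
  obtain ⟨hd, ho⟩ := dense_generic B
  obtain ⟨u, hu⟩ := (hd.inter_open_nonempty U hU hne)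
  obtain ⟨q, hq⟩ := denseRange_rat.exists_mem_open (hU.inter ho) ⟨u, hu⟩
  obtain ⟨N, hN0, hN⟩ : ∃ N : ℕ, 0 < N ∧ ∀ i, ∃ z : ℤ, (N : ℚ) * q i = z := by
    refine ⟨∏ i, (q i).den, Finset.prod_pos fun i _ => (q i).den_pos, fun i => ?_⟩
    refine ⟨(∏ j ∈ Finset.univ.erase i, ((q j).den : ℤ)) * (q i).num, ?_⟩
    rw [← Finset.mul_prod_erase Finset.univ _ (Finset.mem_univ i)]
    push_cast
    have h1 : (q i) * ((q i).den : ℚ) = (q i).num := Rat.mul_den_eq_num (q i)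
    calc ((q i).den : ℚ) * (∏ j ∈ Finset.univ.erase i, ((q j).den : ℚ)) * q i
        = (∏ j ∈ Finset.univ.erase i, ((q j).den : ℚ)) * (q i * ((q i).den : ℚ)) := by ring
      _ = _ := by rw [h1]
  choose z hz using hN
  have hzr : iv z = (N : ℝ) • (fun i => (q i : ℝ)) := by
    ext i
    have := congrArg (fun x : ℚ => (x : ℝ)) (hz i)
    simp only [iv, Pi.smul_apply, smul_eq_mul]
    push_cast at this
    exact this.symm
  have hN0' : (0 : ℝ) < N := by exact_mod_cast hN0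
  refine ⟨z, ?_, fun b hb hb0 => ?_⟩
  · rw [hzr]
    exact hcone _ hq.1 _ hN0'
  · rw [hzr, map_smul, smul_eq_mul]
    exact mul_ne_zero hN0'.ne' (hq.2 b hb hb0)

/-- A finite set of generic integral directions which detects the ray of `b` up to `ε`. -/
theorem exists_net_ray (B : Finset ((Fin k → ℝ) →L[ℝ] ℝ)) {b : (Fin k → ℝ) →L[ℝ] ℝ}
    (hb : b ≠ 0) (L : ℝ) {ε : ℝ} (hε : 0 < ε) :
    ∃ V₀ : Finset (Fin k → ℤ), (∀ v ∈ V₀, ∀ c ∈ B, c ≠ 0 → c (iv v) ≠ 0) ∧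
      ∀ ψ : (Fin k → ℝ) →L[ℝ] ℝ, ‖ψ‖ ≤ L → (∀ v ∈ V₀, 0 < b (iv v) → 0 ≤ ψ (iv v)) →
        ∃ t : ℝ, 0 ≤ t ∧ ‖ψ - t • b‖ ≤ ε := by
  classical
  have : ProperSpace ((Fin k → ℝ) →L[ℝ] ℝ) := FiniteDimensional.proper ℝ _
  set 𝒦 : Set ((Fin k → ℝ) →L[ℝ] ℝ) :=
    Metric.closedBall 0 L ∩ {ψ | ∀ t : ℝ, 0 ≤ t → ε ≤ ‖ψ - t • b‖} with h𝒦
  have hcl : IsClosed {ψ : (Fin k → ℝ) →L[ℝ] ℝ | ∀ t : ℝ, 0 ≤ t → ε ≤ ‖ψ - t • b‖} := by
    have e : {ψ : (Fin k → ℝ) →L[ℝ] ℝ | ∀ t : ℝ, 0 ≤ t → ε ≤ ‖ψ - t • b‖} =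
        ⋂ t : ℝ, ⋂ _ : 0 ≤ t, {ψ | ε ≤ ‖ψ - t • b‖} := by
      ext ψ; simp
    rw [e]
    exact isClosed_iInter fun t => isClosed_iInter fun _ =>
      isClosed_le continuous_const (continuous_norm.comp (continuous_id.sub continuous_const))
  have hcomp : IsCompact 𝒦 := (isCompact_closedBall _ _).inter_right hcl
  let I := {v : Fin k → ℤ // 0 < b (iv v) ∧ ∀ c ∈ B, c ≠ 0 → c (iv v) ≠ 0}
  let U : I → Set ((Fin k → ℝ) →L[ℝ] ℝ) := fun v => {ψ | ψ (iv v.1) < 0}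
  have hUo : ∀ v, IsOpen (U v) := fun v =>
    isOpen_lt (ContinuousLinearMap.apply ℝ ℝ (iv v.1)).continuous continuous_const
  have hcov : 𝒦 ⊆ ⋃ v, U v := by
    intro ψ hψ
    have hnot : ¬ ∃ t : ℝ, 0 ≤ t ∧ ψ = t • b := by
      rintro ⟨t, ht, rfl⟩
      have := hψ.2 t ht
      rw [sub_self, norm_zero] at this
      linarith
    have hex : ∃ u, 0 < b u ∧ ψ u < 0 := by
      by_contra hcon
      push Not at hcon
      exact hnot (eq_smul_of_nonneg hb hcon)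
    obtain ⟨v, hv, hvg⟩ := exists_generic_int B (U := {u | 0 < b u ∧ ψ u < 0})
      ((isOpen_lt continuous_const b.continuous).inter (isOpen_lt ψ.continuous continuous_const))
      hex (by
        rintro u ⟨h1, h2⟩ t ht
        refine ⟨?_, ?_⟩
        · rw [map_smul, smul_eq_mul]; positivity
        · rw [map_smul, smul_eq_mul]; exact mul_neg_of_pos_of_neg ht h2)
    exact mem_iUnion.mpr ⟨⟨v, hv.1, hvg⟩, hv.2⟩
  obtain ⟨t, ht⟩ := hcomp.elim_finite_subcover U hUo hcov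
  refine ⟨t.image Subtype.val, ?_, fun ψ hψ hpos => ?_⟩
  · intro v hv
    rw [Finset.mem_image] at hv
    obtain ⟨w, -, rfl⟩ := hv
    exact w.2.2
  · by_contra hcon
    push Not at hcon
    have hmem : ψ ∈ 𝒦 := ⟨by simpa using hψ, fun t ht => (hcon t ht).le⟩
    have := ht hmem
    rw [mem_iUnion₂] at this
    obtain ⟨v, hv, hvψ⟩ := this
    have h1 := hpos v.1 (Finset.mem_image_of_mem _ hv) v.2.1
    exact absurd hvψ (not_lt.mpr h1)

/-- The same for a finite set of functionals. -/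
theorem exists_net_rays (B Φ : Finset ((Fin k → ℝ) →L[ℝ] ℝ)) (hΦ : ∀ b ∈ Φ, b ≠ 0)
    (L : ℝ) {ε : ℝ} (hε : 0 < ε) :
    ∃ V₀ : Finset (Fin k → ℤ), (∀ v ∈ V₀, ∀ c ∈ B, c ≠ 0 → c (iv v) ≠ 0) ∧
      ∀ b ∈ Φ, ∀ ψ : (Fin k → ℝ) →L[ℝ] ℝ, ‖ψ‖ ≤ L →
        (∀ v ∈ V₀, 0 < b (iv v) → 0 ≤ ψ (iv v)) → ∃ t : ℝ, 0 ≤ t ∧ ‖ψ - t • b‖ ≤ ε := by
  classical
  have h : ∀ b : {b // b ∈ Φ}, ∃ V₀ : Finset (Fin k → ℤ),
      (∀ v ∈ V₀, ∀ c ∈ B, c ≠ 0 → c (iv v) ≠ 0) ∧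
      ∀ ψ : (Fin k → ℝ) →L[ℝ] ℝ, ‖ψ‖ ≤ L → (∀ v ∈ V₀, 0 < b.1 (iv v) → 0 ≤ ψ (iv v)) →
        ∃ t : ℝ, 0 ≤ t ∧ ‖ψ - t • b.1‖ ≤ ε := fun b => exists_net_ray B (hΦ b.1 b.2) L hε
  choose V hV1 hV2 using h
  refine ⟨Φ.attach.biUnion V, ?_, fun b hb ψ hψ hpos => ?_⟩
  · intro v hv
    rw [Finset.mem_biUnion] at hv
    obtain ⟨b, -, hb⟩ := hv
    exact hV1 b v hb
  · refine hV2 ⟨b, hb⟩ ψ hψ fun v hv hbv => hpos v ?_ hbv
    rw [Finset.mem_biUnion]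
    exact ⟨⟨b, hb⟩, Finset.mem_attach _ _, hv⟩

end Vale.Agent.P188.H530
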