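import Vale.Agent.P188.H530.CohB

/-! P188, block COH: ray maps of linear parts. -/

open Set Module

namespace Vale.Agent.P188.H530

variable {E : Type*} [NormedAddCommGroup E] [NormedSpace ℝ E]

/-- Inverse of an endomorphism which is bounded below. -/
theorem exists_inverse [FiniteDimensional ℝ E] {T : E →L[ℝ] E} {c₁ : ℝ} (hc₁ : 0 < c₁)
    (h : ∀ w, c₁ * ‖w‖ ≤ ‖T w‖) :
    ∃ T' : E →L[ℝ] E, (∀ x, T' (T x) = x) ∧ (∀ y, T (T' y) = y) ∧ ‖T'‖ ≤ c₁⁻¹ := by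
  have hinj : Function.Injective T.toLinearMap := by
    intro x y hxy
    have h1 := h (x - y)
    have h2 : T (x - y) = 0 := by
      rw [map_sub, sub_eq_zero]; exact hxy
    rw [h2, norm_zero] at h1
    have h3 : ‖x - y‖ ≤ 0 := by
      by_contra hcon
      push Not at hcon
      have := mul_pos hc₁ hcon
      linarith
    exact sub_eq_zero.mp (norm_le_zero_iff.mp h3)
  let e := LinearEquiv.ofInjectiveEndo T.toLinearMap hinj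
  let e' := e.symm.toContinuousLinearEquiv
  have h1 : ∀ x, e' (T x) = x := fun x => e.symm_apply_apply x
  have h2 : ∀ y, T (e' y) = y := fun y => e.apply_symm_apply y
  refine ⟨(e' : E →L[ℝ] E), h1, h2, ?_⟩
  refine ContinuousLinearMap.opNorm_le_bound _ (by positivity) fun y => ?_
  have h3 := h (e' y)
  rw [h2 y] at h3
  rw [inv_mul_eq_div, le_div_iff₀ hc₁, mul_comm]
  exact h3

/-- Different rays of a finite set are separated. -/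
theorem exists_ray_sep (Φ₁ : Finset (E →L[ℝ] ℝ)) (h0 : ∀ b ∈ Φ₁, b ≠ 0)
    (h : ∀ b ∈ Φ₁, ∀ b' ∈ Φ₁, ∀ t : ℝ, 0 < t → b = t • b' → b = b') :
    ∃ δ : ℝ, 0 < δ ∧ ∀ b ∈ Φ₁, ∀ b' ∈ Φ₁, b ≠ b' → ∀ t : ℝ, 0 ≤ t → δ ≤ ‖b - t • b'‖ := by
  classical
  -- one pair
  have h1 : ∀ b ∈ Φ₁, ∀ b' ∈ Φ₁, b ≠ b' → ∃ δ : ℝ, 0 < δ ∧ ∀ t : ℝ, 0 ≤ t → δ ≤ ‖b - t • b'‖ := by
    intro b hb b' hb' hne
    have hb0 := h0 b hb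
    have hb0' := h0 b' hb'
    have hnb : 0 < ‖b‖ := norm_pos_iff.mpr hb0
    have hnb' : 0 < ‖b'‖ := norm_pos_iff.mpr hb0'
    set T := 2 * ‖b‖ / ‖b'‖ with hT
    have hT0 : 0 ≤ T := by positivity
    obtain ⟨t₀, ht₀, hmin⟩ := isCompact_Icc.exists_isMinOn (s := Icc (0:ℝ) T) (nonempty_Icc.mpr hT0)
      (f := fun t : ℝ => ‖b - t • b'‖) (by fun_prop)
    have hpos : 0 < ‖b - t₀ • b'‖ := by
      rw [norm_pos_iff, sub_ne_zero]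
      intro heq
      rcases ht₀.1.eq_or_lt with h2 | h2
      · rw [← h2, zero_smul] at heq
        exact hb0 heq
      · exact hne (h b hb b' hb' t₀ h2 heq)
    refine ⟨min ‖b - t₀ • b'‖ ‖b‖, lt_min hpos hnb, fun t ht => ?_⟩
    by_cases htT : t ≤ T
    · exact (min_le_left _ _).trans (hmin ⟨ht, htT⟩)
    · push Not at htT
      refine (min_le_right _ _).trans ?_
      have h3 : ‖t • b'‖ - ‖b‖ ≤ ‖b - t • b'‖ := by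
        rw [norm_sub_rev]; exact norm_sub_norm_le _ _
      have h4 : 2 * ‖b‖ ≤ ‖t • b'‖ := by
        rw [norm_smul, Real.norm_of_nonneg ht]
        rw [hT, div_lt_iff₀ hnb'] at htT
        exact htT.le
      linarith
  have h2 : ∀ p : {p : (E →L[ℝ] ℝ) × (E →L[ℝ] ℝ) // p ∈ (Φ₁ ×ˢ Φ₁)}, ∃ δ : ℝ, 0 < δ ∧
      (p.1.1 ≠ p.1.2 → ∀ t : ℝ, 0 ≤ t → δ ≤ ‖p.1.1 - t • p.1.2‖) := by
    rintro ⟨⟨b, b'⟩, hp⟩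
    rw [Finset.mem_product] at hp
    by_cases hne : b = b'
    · exact ⟨1, one_pos, fun h => absurd hne h⟩
    · obtain ⟨δ, hδ, hδ'⟩ := h1 b hp.1 b' hp.2 hne
      exact ⟨δ, hδ, fun _ => hδ'⟩
  choose δ hδ hδ' using h2
  obtain ⟨δ₀, hδ₀, hδ₀'⟩ : ∃ δ₀ : ℝ, 0 < δ₀ ∧ ∀ p, δ₀ ≤ δ p := by
    rcases isEmpty_or_nonempty {p : (E →L[ℝ] ℝ) × (E →L[ℝ] ℝ) // p ∈ (Φ₁ ×ˢ Φ₁)} with hι | hι
    · exact ⟨1, one_pos, fun i => isEmptyElim i⟩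
    · refine ⟨Finset.univ.inf' Finset.univ_nonempty δ, ?_, fun i => Finset.inf'_le _ (by simp)⟩
      rw [Finset.lt_inf'_iff]
      exact fun i _ => hδ i
  refine ⟨δ₀, hδ₀, fun b hb b' hb' hne t ht => ?_⟩
  have hp : (b, b') ∈ Φ₁ ×ˢ Φ₁ := Finset.mem_product.mpr ⟨hb, hb'⟩
  exact (hδ₀' ⟨(b, b'), hp⟩).trans (hδ' ⟨(b, b'), hp⟩ hne t ht)

/-- `T` maps the rays of `Φ₁` to rays, up to `δ`: `b ∘ T ≈ t b • β b`. -/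
structure RayLin (Φ₁ : Finset (E →L[ℝ] ℝ)) (T : E →L[ℝ] E) (β : (E →L[ℝ] ℝ) → (E →L[ℝ] ℝ))
    (t : (E →L[ℝ] ℝ) → ℝ) (t₀ t₁ δ : ℝ) : Prop where
  maps : ∀ b ∈ Φ₁, β b ∈ Φ₁
  inj : ∀ b ∈ Φ₁, ∀ b' ∈ Φ₁, β b = β b' → b = b'
  lo : ∀ b ∈ Φ₁, t₀ ≤ t b
  hi : ∀ b ∈ Φ₁, t b ≤ t₁
  close : ∀ b ∈ Φ₁, ‖b.comp T - t b • β b‖ ≤ δ

theorem comp_norm_ge {T T' : E →L[ℝ] E} (h : ∀ y, T (T' y) = y) {c₁ : ℝ} (hc₁ : 0 < c₁)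
    (hT' : ‖T'‖ ≤ c₁⁻¹) (b : E →L[ℝ] ℝ) : c₁ * ‖b‖ ≤ ‖b.comp T‖ := by
  have e : b = (b.comp T).comp T' := by
    ext y; simp [h y]
  have h1 : ‖b‖ ≤ ‖b.comp T‖ * c₁⁻¹ := by
    conv_lhs => rw [e]
    refine (ContinuousLinearMap.opNorm_comp_le _ _).trans ?_
    gcongr
  rw [← div_eq_mul_inv, le_div_iff₀ hc₁] at h1
  linarith

theorem rayLin_lo {T T' : E →L[ℝ] E} (h : ∀ y, T (T' y) = y) {c₁ : ℝ} (hc₁ : 0 < c₁)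
    (hT' : ‖T'‖ ≤ c₁⁻¹) {b b' : E →L[ℝ] ℝ} {t δ m B : ℝ} (ht : 0 ≤ t) (hm : m ≤ ‖b‖) (hB0 : 0 < B)
    (hB : ‖b'‖ ≤ B) (hδ : δ ≤ c₁ * m / 2) (hcl : ‖b.comp T - t • b'‖ ≤ δ) :
    c₁ * m / (2 * B) ≤ t := by
  have h1 := comp_norm_ge h hc₁ hT' b
  have h3 : ‖b.comp T‖ ≤ t * ‖b'‖ + δ := by
    have := norm_sub_norm_le (b.comp T) (t • b')
    rw [norm_smul, Real.norm_of_nonneg ht] at this
    linarith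
  have h4 : t * ‖b'‖ ≤ t * B := mul_le_mul_of_nonneg_left hB ht
  have h5 : c₁ * m ≤ c₁ * ‖b‖ := mul_le_mul_of_nonneg_left hm hc₁.le
  rw [div_le_iff₀ (by positivity)]
  linarith

theorem rayLin_hi {T : E →L[ℝ] E} {b b' : E →L[ℝ] ℝ} {t δ m B L : ℝ} (ht : 0 ≤ t) (hm0 : 0 < m)
    (hm : m ≤ ‖b'‖) (hB0 : 0 < B) (hT : ‖T‖ ≤ L)
    (hB : ‖b‖ ≤ B) (hδ : δ ≤ 1) (hcl : ‖b.comp T - t • b'‖ ≤ δ) :
    t ≤ (L * B + 1) / m := by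
  have h1 : ‖b.comp T‖ ≤ B * L :=
    (ContinuousLinearMap.opNorm_comp_le _ _).trans (mul_le_mul hB hT (norm_nonneg _) hB0.le)
  have h3 : t * ‖b'‖ ≤ ‖b.comp T‖ + δ := by
    have := norm_sub_norm_le (t • b') (b.comp T)
    rw [norm_sub_rev, norm_smul, Real.norm_of_nonneg ht] at this
    linarith
  have h4 : t * m ≤ t * ‖b'‖ := mul_le_mul_of_nonneg_left hm ht
  rw [le_div_iff₀ hm0]
  linarith

theorem rayLin_inj {T T' : E →L[ℝ] E} (h : ∀ y, T (T' y) = y) {c₁ : ℝ} (hc₁ : 0 < c₁)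
    (hT' : ‖T'‖ ≤ c₁⁻¹) {b b' c : E →L[ℝ] ℝ} {t t' δ δs t₀ t₁ : ℝ} (ht₀0 : 0 < t₀)
    (ht : t₀ ≤ t) (ht1 : t ≤ t₁) (ht' : t₀ ≤ t') (hδs : 0 < δs)
    (hsep : ∀ s : ℝ, 0 ≤ s → δs ≤ ‖b - s • b'‖)
    (hδ3 : δ ≤ δs * c₁ / (2 * (1 + t₁ / t₀)))
    (h1 : ‖b.comp T - t • c‖ ≤ δ) (h2 : ‖b'.comp T - t' • c‖ ≤ δ) : False := by
  have htb' : 0 < t' := lt_of_lt_of_le ht₀0 ht'
  have htb : 0 < t := lt_of_lt_of_le ht₀0 ht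
  have ht₁0 : 0 < t₁ := lt_of_lt_of_le htb ht1
  obtain ⟨s, hs⟩ : ∃ s, s = t / t' := ⟨_, rfl⟩
  have hs0 : 0 ≤ s := by rw [hs]; positivity
  have hs1 : s ≤ t₁ / t₀ := by
    rw [hs]
    exact div_le_div₀ ht₁0.le ht1 ht₀0 ht'
  have h3 : ‖(b - s • b').comp T‖ ≤ δ * (1 + t₁ / t₀) := by
    have e : (b - s • b').comp T = (b.comp T - t • c) - s • (b'.comp T - t' • c) := by
      have e1 : s • t' • c = t • c := by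
        rw [smul_smul, hs, div_mul_cancel₀ _ htb'.ne']
      rw [smul_sub, e1, ContinuousLinearMap.sub_comp, ContinuousLinearMap.smul_comp]
      abel
    rw [e]
    refine (norm_sub_le _ _).trans ?_
    rw [norm_smul, Real.norm_of_nonneg hs0]
    have hδ0 : 0 ≤ δ := (norm_nonneg _).trans h1
    have : s * ‖b'.comp T - t' • c‖ ≤ (t₁ / t₀) * δ := by gcongr
    linarith
  have h4 := comp_norm_ge h hc₁ hT' (b - s • b')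
  have h5 := hsep s hs0
  have h6 : c₁ * δs ≤ δ * (1 + t₁ / t₀) := by
    calc c₁ * δs ≤ c₁ * ‖b - s • b'‖ := by gcongr
      _ ≤ _ := h4.trans h3
  have h7 : δ * (1 + t₁ / t₀) ≤ δs * c₁ / 2 := by
    rw [le_div_iff₀ (by positivity)] at hδ3
    linarith
  have : 0 < c₁ * δs := by positivity
  linarith

theorem exists_min_norm (Φ₁ : Finset (E →L[ℝ] ℝ)) (h0 : ∀ b ∈ Φ₁, b ≠ 0) :
    ∃ m : ℝ, 0 < m ∧ ∀ b ∈ Φ₁, m ≤ ‖b‖ := by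
  rcases Φ₁.eq_empty_or_nonempty with he | hne
  · exact ⟨1, one_pos, fun b hb => by simp [he] at hb⟩
  · refine ⟨Φ₁.inf' hne fun b => ‖b‖, ?_, fun b hb => Finset.inf'_le _ hb⟩
    rw [Finset.lt_inf'_iff]
    exact fun b hb => norm_pos_iff.mpr (h0 b hb)

theorem exists_max_norm (Φ₁ : Finset (E →L[ℝ] ℝ)) :
    ∃ B : ℝ, 0 < B ∧ ∀ b ∈ Φ₁, ‖b‖ ≤ B := by
  rcases Φ₁.eq_empty_or_nonempty with he | hne
  · exact ⟨1, one_pos, fun b hb => by simp [he] at hb⟩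
  · refine ⟨max 1 (Φ₁.sup' hne fun b => ‖b‖), lt_of_lt_of_le one_pos (le_max_left _ _),
      fun b hb => (Finset.le_sup' (fun b : E →L[ℝ] ℝ => ‖b‖) hb).trans (le_max_right _ _)⟩

open Classical in
/-- If each `b ∘ T` is close to a nonnegative multiple of an element of `Φ`, then the choice
functions. -/
theorem exists_choice {Φ Φ₁ : Finset (E →L[ℝ] ℝ)}
    (hrep : ∀ b ∈ Φ, ∃ b₁ ∈ Φ₁, ∃ t : ℝ, 0 < t ∧ b = t • b₁) {δ : ℝ} {T : E →L[ℝ] E}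
    (hray : ∀ b ∈ Φ₁, ∃ b' ∈ Φ, ∃ t : ℝ, 0 ≤ t ∧ ‖b.comp T - t • b'‖ ≤ δ) :
    ∃ (β : (E →L[ℝ] ℝ) → (E →L[ℝ] ℝ)) (t : (E →L[ℝ] ℝ) → ℝ), (∀ b ∈ Φ₁, β b ∈ Φ₁) ∧
      (∀ b ∈ Φ₁, 0 ≤ t b) ∧ ∀ b ∈ Φ₁, ‖b.comp T - t b • β b‖ ≤ δ := by
  have hray' : ∀ b : E →L[ℝ] ℝ, ∃ (b' : E →L[ℝ] ℝ) (t : ℝ),
      b ∈ Φ₁ → (b' ∈ Φ₁ ∧ 0 ≤ t ∧ ‖b.comp T - t • b'‖ ≤ δ) := by
    intro b
    by_cases hb : b ∈ Φ₁
    · obtain ⟨b', hb', t, ht, h⟩ := hray b hb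
      obtain ⟨b₁, hb₁, s, hs, rfl⟩ := hrep b' hb'
      exact ⟨b₁, t * s, fun _ => ⟨hb₁, by positivity, by rwa [mul_smul]⟩⟩
    · exact ⟨b, 0, fun h => absurd h hb⟩
  choose β t h using hray'
  exact ⟨β, t, fun b hb => (h b hb).1, fun b hb => (h b hb).2.1, fun b hb => (h b hb).2.2⟩

/-- If each `b ∘ T` is close to a nonnegative multiple of an element of `Φ`, then `T` is
`RayLin`. -/
theorem exists_rayLin [FiniteDimensional ℝ E] (Φ Φ₁ : Finset (E →L[ℝ] ℝ)) (h0 : ∀ b ∈ Φ, b ≠ 0)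
    (hsub : Φ₁ ⊆ Φ) (hrep : ∀ b ∈ Φ, ∃ b₁ ∈ Φ₁, ∃ t : ℝ, 0 < t ∧ b = t • b₁)
    (huniq : ∀ b ∈ Φ₁, ∀ b' ∈ Φ₁, ∀ t : ℝ, 0 < t → b = t • b' → b = b') {L c₁ : ℝ}
    (hL : 0 ≤ L) (hc₁ : 0 < c₁) :
    ∃ t₀ t₁ δ₀ : ℝ, 0 < t₀ ∧ 0 < t₁ ∧ 0 < δ₀ ∧ ∀ δ : ℝ, δ ≤ δ₀ → ∀ T : E →L[ℝ] E, ‖T‖ ≤ L →
      (∀ w, c₁ * ‖w‖ ≤ ‖T w‖) →
      (∀ b ∈ Φ₁, ∃ b' ∈ Φ, ∃ t : ℝ, 0 ≤ t ∧ ‖b.comp T - t • b'‖ ≤ δ) →
      ∃ β t, RayLin Φ₁ T β t t₀ t₁ δ := by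
  obtain ⟨δs, hδs, hsep⟩ := exists_ray_sep Φ₁ (fun b hb => h0 b (hsub hb)) huniq
  obtain ⟨m, hm, hm'⟩ := exists_min_norm Φ₁ fun b hb => h0 b (hsub hb)
  obtain ⟨B, hB, hB'⟩ := exists_max_norm Φ₁
  obtain ⟨t₀, ht₀⟩ : ∃ t₀, t₀ = c₁ * m / (2 * B) := ⟨_, rfl⟩
  have ht₀0 : 0 < t₀ := by rw [ht₀]; positivity
  obtain ⟨t₁, ht₁⟩ : ∃ t₁, t₁ = (L * B + 1) / m := ⟨_, rfl⟩
  have ht₁0 : 0 < t₁ := by rw [ht₁]; positivity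
  refine ⟨t₀, t₁, min (min 1 (c₁ * m / 2)) (δs * c₁ / (2 * (1 + t₁ / t₀))), ht₀0, ht₁0,
    lt_min (lt_min one_pos (by positivity)) (by positivity), fun δ hδ T hT hTlow hray => ?_⟩
  obtain ⟨T', -, hT'2, hT'n⟩ := exists_inverse hc₁ hTlow
  obtain ⟨β, t, hβ, ht0, hcl⟩ := exists_choice hrep hray
  have hδ1 : δ ≤ 1 := hδ.trans ((min_le_left _ _).trans (min_le_left _ _))
  have hδ2 : δ ≤ c₁ * m / 2 := hδ.trans ((min_le_left _ _).trans (min_le_right _ _))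
  have hδ3 : δ ≤ δs * c₁ / (2 * (1 + t₁ / t₀)) := hδ.trans (min_le_right _ _)
  have hlo : ∀ b ∈ Φ₁, t₀ ≤ t b := by
    intro b hb
    rw [ht₀]
    exact rayLin_lo hT'2 hc₁ hT'n (ht0 b hb) (hm' b hb) hB (hB' _ (hβ b hb)) hδ2 (hcl b hb)
  have hhi : ∀ b ∈ Φ₁, t b ≤ t₁ := by
    intro b hb
    rw [ht₁]
    exact rayLin_hi (ht0 b hb) hm (hm' _ (hβ b hb)) hB hT (hB' b hb) hδ1 (hcl b hb)
  refine ⟨β, t, hβ, ?_, hlo, hhi, hcl⟩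
  intro b hb b' hb' heq
  by_contra hne
  have h2 := hcl b' hb'
  rw [← heq] at h2
  exact rayLin_inj hT'2 hc₁ hT'n ht₀0 (hlo b hb) (hhi b hb) (hlo b' hb') hδs
    (hsep b hb b' hb' hne) hδ3 (hcl b hb) h2

end Vale.Agent.P188.H530
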