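import Vale.Agent.P188.H530.CohC

/-! P188, block COH: ray maps, sign patterns, dual bases. -/

open Set Module

namespace Vale.Agent.P188.H530

variable {E : Type*} [NormedAddCommGroup E] [NormedSpace ℝ E]

theorem RayLin.surj {Φ₁ : Finset (E →L[ℝ] ℝ)} {T : E →L[ℝ] E}
    {β : (E →L[ℝ] ℝ) → (E →L[ℝ] ℝ)} {t : (E →L[ℝ] ℝ) → ℝ} {t₀ t₁ δ : ℝ}
    (h : RayLin Φ₁ T β t t₀ t₁ δ) : ∀ c ∈ Φ₁, ∃ b ∈ Φ₁, β b = c := by
  intro c hc
  have h1 := Finset.surj_on_of_inj_on_of_card_le (s := Φ₁) (t := Φ₁) (fun b _ => β b)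
    (fun b hb => h.maps b hb) (fun b b' hb hb' heq => h.inj b hb b' hb' heq) le_rfl c hc
  obtain ⟨b, hb, h2⟩ := h1
  exact ⟨b, hb, h2.symm⟩

/-- Two linear parts with the same ray map: `T₁⁻¹ T₂` preserves the rays. -/
theorem rayLin_same {Φ₁ : Finset (E →L[ℝ] ℝ)} {T₁ T₂ T₁' : E →L[ℝ] E}
    {β β₂ : (E →L[ℝ] ℝ) → (E →L[ℝ] ℝ)} {t s : (E →L[ℝ] ℝ) → ℝ} {t₀ t₁ δ L L' B : ℝ}
    (ht₀ : 0 < t₀) (hT₂ : ‖T₂‖ ≤ L) (hB : ∀ b ∈ Φ₁, ‖b‖ ≤ B)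
    (hinv : ∀ y, ‖T₁ (T₁' y) - y‖ ≤ δ * ‖y‖) (hT₁' : ‖T₁'‖ ≤ L')
    (h1 : RayLin Φ₁ T₁ β t t₀ t₁ δ) (h2 : RayLin Φ₁ T₂ β₂ s t₀ t₁ δ)
    (hβ : ∀ b ∈ Φ₁, β b = β₂ b) :
    ∀ c ∈ Φ₁, ∃ d : ℝ, 0 ≤ d ∧
      ‖c.comp (T₁'.comp T₂) - d • c‖ ≤ (1 + L' * L + B * L) / t₀ * δ := by
  intro c hc
  obtain ⟨b, hb, rfl⟩ := h1.surj c hc
  have htb : 0 < t b := lt_of_lt_of_le ht₀ (h1.lo b hb)
  have hsb : 0 < s b := lt_of_lt_of_le ht₀ (h2.lo b hb)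
  have k1 := h1.close b hb
  have k2 := h2.close b hb
  rw [← hβ b hb] at k2
  have hδ : 0 ≤ δ := (norm_nonneg _).trans k1
  have hL : 0 ≤ L := (norm_nonneg _).trans hT₂
  have hL' : 0 ≤ L' := (norm_nonneg _).trans hT₁'
  have hB0 : 0 ≤ B := (norm_nonneg _).trans (hB b hb)
  refine ⟨s b / t b, by positivity, ?_⟩
  have e : (β b).comp (T₁'.comp T₂) - (s b / t b) • β b =
      (t b)⁻¹ • ((b.comp T₂ - s b • β b) - ((b.comp T₁ - t b • β b).comp T₁').comp T₂ +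
        (b.comp (T₁.comp T₁' - ContinuousLinearMap.id ℝ E)).comp T₂) := by
    ext x
    simp only [ContinuousLinearMap.sub_apply, ContinuousLinearMap.comp_apply,
      ContinuousLinearMap.smul_apply, smul_eq_mul, ContinuousLinearMap.add_apply, map_sub,
      ContinuousLinearMap.id_apply]
    field_simp
    ring
  rw [e, norm_smul, norm_inv, Real.norm_of_nonneg htb.le]
  have n1 : ‖((b.comp T₁ - t b • β b).comp T₁').comp T₂‖ ≤ δ * L' * L := by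
    refine (ContinuousLinearMap.opNorm_comp_le _ _).trans ?_
    have : ‖(b.comp T₁ - t b • β b).comp T₁'‖ ≤ δ * L' :=
      (ContinuousLinearMap.opNorm_comp_le _ _).trans (by gcongr)
    gcongr
  have n3 : ‖(b.comp (T₁.comp T₁' - ContinuousLinearMap.id ℝ E)).comp T₂‖ ≤ B * δ * L := by
    refine (ContinuousLinearMap.opNorm_comp_le _ _).trans ?_
    have h3 : ‖T₁.comp T₁' - ContinuousLinearMap.id ℝ E‖ ≤ δ :=
      ContinuousLinearMap.opNorm_le_bound _ hδ fun y => by simpa using hinv y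
    have : ‖b.comp (T₁.comp T₁' - ContinuousLinearMap.id ℝ E)‖ ≤ B * δ := by
      refine (ContinuousLinearMap.opNorm_comp_le _ _).trans ?_
      have := hB b hb
      gcongr
    gcongr
  have n2 : ‖(b.comp T₂ - s b • β b) - ((b.comp T₁ - t b • β b).comp T₁').comp T₂ +
        (b.comp (T₁.comp T₁' - ContinuousLinearMap.id ℝ E)).comp T₂‖ ≤
      (δ + δ * L' * L) + B * δ * L :=
    (norm_add_le _ _).trans (add_le_add ((norm_sub_le _ _).trans (add_le_add k2 n1)) n3)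
  calc (t b)⁻¹ * _ ≤ t₀⁻¹ * ((δ + δ * L' * L) + B * δ * L) := by
        gcongr
        exact h1.lo b hb
    _ = _ := by ring

/-- A dual basis with functionals in a spanning finite set. -/
theorem exists_dual_basis [FiniteDimensional ℝ E] (Φ₁ : Finset (E →L[ℝ] ℝ))
    (hsp : ∀ w, (∀ b ∈ Φ₁, b w = 0) → w = 0) :
    ∃ (v : Basis (Fin (finrank ℝ (Dual ℝ E))) ℝ E)
      (b : Fin (finrank ℝ (Dual ℝ E)) → E →L[ℝ] ℝ),
      (∀ i, b i ∈ Φ₁) ∧ ∀ i j, b j (v i) = if i = j then 1 else 0 := by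
  classical
  set s : Set (Dual ℝ E) := (fun b : E →L[ℝ] ℝ => (b : E →ₗ[ℝ] ℝ)) '' (Φ₁ : Set (E →L[ℝ] ℝ))
    with hs
  have hco : (Submodule.span ℝ s).dualCoannihilator = ⊥ := by
    rw [eq_bot_iff]
    intro w hw
    rw [Submodule.mem_dualCoannihilator] at hw
    rw [Submodule.mem_bot]
    exact hsp w fun b hb => hw _ (Submodule.subset_span ⟨b, hb, rfl⟩)
  have hspan : ⊤ ≤ Submodule.span ℝ s := by
    have h1 := Subspace.dualCoannihilator_dualAnnihilator_eq (W := Submodule.span ℝ s)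
    rw [hco, Submodule.dualAnnihilator_bot] at h1
    exact h1.le
  let B₀ := Basis.ofSpan hspan
  have hfin : Finite ((linearIndepOn_empty ℝ id).extend (empty_subset s)) :=
    Module.Finite.finite_basis B₀
  let _ : Fintype ((linearIndepOn_empty ℝ id).extend (empty_subset s)) := Fintype.ofFinite _
  let B : Basis (Fin (finrank ℝ (Dual ℝ E))) ℝ (Dual ℝ E) :=
    B₀.reindex (Fintype.equivFinOfCardEq (Module.finrank_eq_card_basis B₀).symm)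
  have hB : ∀ i, ∃ b ∈ Φ₁, (b : E →ₗ[ℝ] ℝ) = B i := by
    intro i
    have h2 : B i ∈ s := by
      have h3 : B i ∈ range B₀ := by
        rw [Basis.reindex_apply]
        exact mem_range_self _
      exact Basis.ofSpan_subset hspan h3
    obtain ⟨b, hb, h⟩ := h2
    exact ⟨b, hb, h⟩
  choose b hb hbB using hB
  refine ⟨B.dualBasis.map (Module.evalEquiv ℝ E).symm, b, hb, fun i j => ?_⟩
  have h4 : b j ((B.dualBasis.map (Module.evalEquiv ℝ E).symm) i) =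
      (B j) ((Module.evalEquiv ℝ E).symm (B.dualBasis i)) := by
    rw [Basis.map_apply, ← hbB j]
    rfl
  rw [h4]
  have h5 : (B j) ((Module.evalEquiv ℝ E).symm (B.dualBasis i)) = B.dualBasis i (B j) := by
    have := Module.evalEquiv_apply (R := ℝ) (M := E)
      ((Module.evalEquiv ℝ E).symm (B.dualBasis i)) 
    conv_rhs => rw [← LinearEquiv.apply_symm_apply (Module.evalEquiv ℝ E) (B.dualBasis i)]
    rfl
  rw [h5, Basis.dualBasis_apply_self]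
  simp [eq_comm]

/-- Almost eigenfunctionals give almost eigenvectors. -/
theorem eigen_of_dual {ι : Type*} [Fintype ι] [DecidableEq ι] (v : Basis ι ℝ E)
    (b : ι → E →L[ℝ] ℝ) (hb : ∀ i j, b j (v i) = if i = j then 1 else 0) {V : ℝ}
    (hV : ∀ i, ‖v i‖ ≤ V) {A : E →L[ℝ] E} {η : ℝ} (hη : 0 ≤ η)
    (h : ∀ i, ∃ d : ℝ, 0 ≤ d ∧ ‖(b i).comp A - d • b i‖ ≤ η) (i : ι) :
    ∃ d : ℝ, 0 ≤ d ∧ ‖A (v i) - d • v i‖ ≤ Fintype.card ι * (V * V) * η := by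
  have hV0 : 0 ≤ V := (norm_nonneg _).trans (hV i)
  have hrep : ∀ x : E, x = ∑ j, b j x • v j := by
    intro x
    have h1 : ∀ j, v.repr x j = b j x := by
      intro j
      conv_rhs => rw [← v.sum_repr x]
      rw [map_sum]
      simp [hb]
    conv_lhs => rw [← v.sum_repr x]
    simp [h1]
  choose d hd0 hd using h
  refine ⟨d i, hd0 i, ?_⟩
  rw [hrep (A (v i) - d i • v i)]
  refine (norm_sum_le _ _).trans ?_
  have h2 : ∀ j, ‖b j (A (v i) - d i • v i) • v j‖ ≤ (V * V) * η := by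
    intro j
    rw [norm_smul]
    have h3 : ‖b j (A (v i) - d i • v i)‖ ≤ η * V := by
      have e : b j (A (v i) - d i • v i) = ((b j).comp A - d j • b j) (v i) := by
        simp only [map_sub, map_smul, ContinuousLinearMap.sub_apply,
          ContinuousLinearMap.comp_apply, ContinuousLinearMap.smul_apply, smul_eq_mul, hb]
        by_cases hij : i = j
        · rw [hij]
        · simp [hij]
      rw [e]
      refine (ContinuousLinearMap.le_opNorm _ _).trans ?_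
      have := hd j
      have := hV i
      gcongr
    calc ‖b j (A (v i) - d i • v i)‖ * ‖v j‖ ≤ (η * V) * V := by
          have := hV j
          gcongr
      _ = _ := by ring
  refine (Finset.sum_le_sum fun j _ => h2 j).trans ?_
  rw [Finset.sum_const, Finset.card_univ, nsmul_eq_mul]
  exact le_of_eq (by ring)

/-- The sign of `b (T v)` is the sign of `β b v`. -/
theorem RayLin.sign {Φ₁ : Finset (E →L[ℝ] ℝ)} {T : E →L[ℝ] E}
    {β : (E →L[ℝ] ℝ) → (E →L[ℝ] ℝ)} {t : (E →L[ℝ] ℝ) → ℝ} {t₀ t₁ δ : ℝ}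
    (h : RayLin Φ₁ T β t t₀ t₁ δ) {v : E} {δ₁ c₀ : ℝ} (hδ₁ : 0 ≤ δ₁) (ht₀ : 0 ≤ t₀)
    (hv : ∀ b ∈ Φ₁, δ₁ ≤ |b v|) (hne : ∀ b ∈ Φ₁, b v ≠ 0) (hc : c₀ + δ * ‖v‖ ≤ t₀ * δ₁) :
    ∀ b ∈ Φ₁, (0 < β b v ∧ c₀ ≤ b (T v)) ∨ (β b v < 0 ∧ b (T v) ≤ -c₀) := by
  intro b hb
  have h1 : ‖(b.comp T - t b • β b) v‖ ≤ δ * ‖v‖ :=
    (ContinuousLinearMap.le_opNorm _ _).trans (by have := h.close b hb; gcongr)
  have h2 : |b (T v) - t b * β b v| ≤ δ * ‖v‖ := by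
    have e : (b.comp T - t b • β b) v = b (T v) - t b * β b v := by simp
    rw [e, Real.norm_eq_abs] at h1
    exact h1
  rw [abs_le] at h2
  have h3 := hv _ (h.maps b hb)
  have h4 := h.lo b hb
  have htb : 0 ≤ t b := ht₀.trans h4
  rcases lt_or_gt_of_ne (hne _ (h.maps b hb)) with h5 | h5
  · right
    refine ⟨h5, ?_⟩
    rw [abs_of_neg h5] at h3
    have : t₀ * δ₁ ≤ t b * (-(β b v)) := by gcongr
    linarith [h2.2]
  · left
    refine ⟨h5, ?_⟩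
    rw [abs_of_pos h5] at h3
    have : t₀ * δ₁ ≤ t b * (β b v) := by gcongr
    linarith [h2.1]

/-- The number of rays growing in direction `v` is preserved. -/
theorem RayLin.ncard {Φ₁ : Finset (E →L[ℝ] ℝ)} {T : E →L[ℝ] E}
    {β : (E →L[ℝ] ℝ) → (E →L[ℝ] ℝ)} {t : (E →L[ℝ] ℝ) → ℝ} {t₀ t₁ δ : ℝ}
    (h : RayLin Φ₁ T β t t₀ t₁ δ) {v : E} {c₀ : ℝ} (hc₀ : 0 < c₀)
    (hs : ∀ b ∈ Φ₁, (0 < β b v ∧ c₀ ≤ b (T v)) ∨ (β b v < 0 ∧ b (T v) ≤ -c₀)) :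
    {b | b ∈ Φ₁ ∧ 0 < b (T v)}.ncard = {b | b ∈ Φ₁ ∧ 0 < b v}.ncard := by
  have e : {b | b ∈ Φ₁ ∧ 0 < b v} = β '' {b | b ∈ Φ₁ ∧ 0 < b (T v)} := by
    ext c
    constructor
    · rintro ⟨hc, hcv⟩
      obtain ⟨b, hb, rfl⟩ := h.surj c hc
      refine ⟨b, ⟨hb, ?_⟩, rfl⟩
      rcases hs b hb with h1 | h1
      · linarith [h1.2]
      · linarith [h1.1]
    · rintro ⟨b, ⟨hb, hbv⟩, rfl⟩
      refine ⟨h.maps b hb, ?_⟩
      rcases hs b hb with h1 | h1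
      · exact h1.1
      · linarith [h1.2]
  rw [e, Set.InjOn.ncard_image]
  intro b hb b' hb' heq
  exact h.inj b hb.1 b' hb'.1 heq

/-- The pattern determines the ray map. -/
theorem rayMap_eq_of_pat {Φ₁ : Finset (E →L[ℝ] ℝ)} {T₁ T₂ : E →L[ℝ] E}
    {β β₂ : (E →L[ℝ] ℝ) → (E →L[ℝ] ℝ)} {t s : (E →L[ℝ] ℝ) → ℝ} {t₀ t₁ δ : ℝ}
    (h1 : RayLin Φ₁ T₁ β t t₀ t₁ δ) (h2 : RayLin Φ₁ T₂ β₂ s t₀ t₁ δ) {c₀ : ℝ} (hc₀ : 0 < c₀)
    {V₁ : Set E}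
    (hsep : ∀ b ∈ Φ₁, ∀ b' ∈ Φ₁, (∀ v ∈ V₁, 0 < b v → 0 < b' v) → b = b')
    (hs1 : ∀ v ∈ V₁, ∀ b ∈ Φ₁, (0 < β b v ∧ c₀ ≤ b (T₁ v)) ∨ (β b v < 0 ∧ b (T₁ v) ≤ -c₀))
    (hs2 : ∀ v ∈ V₁, ∀ b ∈ Φ₁, (0 < β₂ b v ∧ c₀ ≤ b (T₂ v)) ∨ (β₂ b v < 0 ∧ b (T₂ v) ≤ -c₀))
    (hpat : ∀ v ∈ V₁, ∀ b ∈ Φ₁, 0 < b (T₁ v) → 0 < b (T₂ v)) :
    ∀ b ∈ Φ₁, β b = β₂ b := by
  intro b hb
  refine hsep _ (h1.maps b hb) _ (h2.maps b hb) fun v hv hbv => ?_
  have k1 : 0 < b (T₁ v) := by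
    rcases hs1 v hv b hb with h | h
    · linarith [h.2]
    · linarith [h.1]
  have k2 := hpat v hv b hb k1
  rcases hs2 v hv b hb with h | h
  · exact h.1
  · linarith [h.2]

end Vale.Agent.P188.H530
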