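import Vale.Agent.P188.H530.CohA
import Vale.Agent.P188.H530.CohD

/-! P188, block COH: linear parts with the same ray map are close. -/

universe u v w w'

open Set Module

namespace Vale.Agent.P188.H530

open Vale.Agent.P188.H789 (Bl PathTo)

variable {G : Type u} [Group G] {E : Type w} [NormedAddCommGroup E] [NormedSpace ℝ E]
  [FiniteDimensional ℝ E]

/-- Linear parts with the same ray map are close. -/
theorem psi_pat {θ : G → E} {A : Set G} (M : Mod θ A) (Φ₁ : Finset (E →L[ℝ] ℝ))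
    (hsp : ∀ w, (∀ b ∈ Φ₁, b w = 0) → w = 0)
    (hcr : ∀ b ∈ Φ₁, ∃ c : Crossed θ b, c.u ∈ A) (c K : ℕ) {C L t₀ : ℝ} (t₁ : ℝ) (hK1 : 1 ≤ K)
    (hC : 1 ≤ C) (hL : 1 ≤ L) (ht₀ : 0 < t₀) {κ : ℝ} (hκ : 0 < κ) :
    ∃ (P : Finset (ℕ × ℝ)) (W ε δ : ℝ) (n₀ : ℕ), 0 < ε ∧ 0 < δ ∧
      (∀ p ∈ P, 1 ≤ p.1 ∧ 1 ≤ p.2) ∧ ∀ δ' ≤ δ, ∀ n : ℕ, n₀ ≤ n →
      ∀ (T₁ T₂ T₁' T₂' : E →L[ℝ] E) (β β₂ : (E →L[ℝ] ℝ) → (E →L[ℝ] ℝ))
        (t s : (E →L[ℝ] ℝ) → ℝ),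
        ‖T₁‖ ≤ L → ‖T₂‖ ≤ L → ‖T₁'‖ ≤ L → ‖T₂'‖ ≤ L →
        TrP θ A θ A c K C W ε n P T₁ → TrP θ A θ A c K C W ε n P T₂ →
        TrP θ A θ A c K C W ε n P T₁' → TrP θ A θ A c K C W ε n P T₂' →
        (∀ y, ‖T₁ (T₁' y) - y‖ ≤ δ' * ‖y‖) → (∀ x, ‖T₂' (T₂ x) - x‖ ≤ δ' * ‖x‖) →
        RayLin Φ₁ T₁ β t t₀ t₁ δ' → RayLin Φ₁ T₂ β₂ s t₀ t₁ δ' → (∀ b ∈ Φ₁, β b = β₂ b) →
        ‖T₂ - T₁‖ ≤ κ := by
  classical
  obtain ⟨v, b, hb, hvb⟩ := exists_dual_basis Φ₁ hsp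
  obtain ⟨V, hV0, hV⟩ : ∃ V : ℝ, 0 ≤ V ∧ ∀ i, ‖v i‖ ≤ V := by
    obtain ⟨V, hV⟩ := (Set.finite_range fun i => ‖v i‖).bddAbove
    exact ⟨max V 0, le_max_right _ _, fun i => (hV ⟨i, rfl⟩).trans (le_max_left _ _)⟩
  obtain ⟨B, hB0, hB⟩ := exists_max_norm Φ₁
  choose cr hcru using fun i => hcr (b i) (hb i)
  have hW : ∀ i, L * ‖v i‖ ≤ L * V := fun i => by
    have := hV i
    gcongr
  obtain ⟨P, ε₀, hε₀, hP, H⟩ := psi_final M v b (fun i => by rw [hvb i i]; simp) cr hcru M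
    (c := c) (K := K) hK1 hC hL hW hκ
  obtain ⟨n₀, hn₀⟩ := H ε₀ hε₀ le_rfl
  obtain ⟨Q, hQ⟩ : ∃ Q : ℝ, Q = (Fintype.card (Fin (finrank ℝ (Dual ℝ E))) : ℝ) * (V * V) *
    ((1 + L * L + B * L) / t₀) := ⟨_, rfl⟩
  have hQ0 : 0 ≤ Q := by rw [hQ]; positivity
  refine ⟨P, L * V, ε₀, min ε₀ (ε₀ / (Q + 1)), n₀, hε₀, lt_min hε₀ (by positivity), hP,
    fun δ hδ n hn T₁ T₂ T₁' T₂' β β₂ t s b1 b2 b1' b2' t1 t2 t1' t2' i1 i2 r1 r2 hβ => ?_⟩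
  have hδ1 : δ ≤ ε₀ := hδ.trans (min_le_left _ _)
  have hδ2 : δ ≤ ε₀ / (Q + 1) := hδ.trans (min_le_right _ _)
  refine hn₀ n hn T₁ T₂ T₁' T₂' b1 b2 b1' b2' t1 t2 t1' t2'
    (fun y => (i1 y).trans (by gcongr)) (fun x => (i2 x).trans (by gcongr)) fun i => ?_
  have hδ0 : 0 ≤ δ := (norm_nonneg _).trans (r1.close _ (hb i))
  have h1 := rayLin_same ht₀ b2 hB i1 b1' r1 r2 hβ
  obtain ⟨d, hd0, hd⟩ := eigen_of_dual v b hvb hV (A := T₁'.comp T₂)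
    (η := (1 + L * L + B * L) / t₀ * δ) (by positivity) (fun i => h1 (b i) (hb i)) i
  refine ⟨d, hd0, hd.trans ?_⟩
  have e : (Fintype.card (Fin (finrank ℝ (Dual ℝ E))) : ℝ) * (V * V) *
      ((1 + L * L + B * L) / t₀ * δ) = Q * δ := by rw [hQ]; ring
  rw [e]
  rw [le_div_iff₀ (by positivity)] at hδ2
  nlinarith

/-- Linear parts which transfer end points are injective. -/
theorem inj_all {θ : G → E} {A : Set G} (M : Mod θ A) (Φ₁ : Finset (E →L[ℝ] ℝ))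
    (hsp : ∀ w, (∀ b ∈ Φ₁, b w = 0) → w = 0)
    (hcr : ∀ b ∈ Φ₁, ∃ c : Crossed θ b, c.u ∈ A) (c K : ℕ) {C : ℝ} (hC : 0 ≤ C) :
    ∃ (c₁ ε : ℝ) (n₀ : ℕ), 0 < c₁ ∧ 0 < ε ∧ ∀ n : ℕ, n₀ ≤ n → ∀ T : E →L[ℝ] E,
      TrP θ A θ A c K C 1 ε n {(8, 1)} T → ∀ w, c₁ * ‖w‖ ≤ ‖T w‖ := by
  classical
  have : ProperSpace E := FiniteDimensional.proper ℝ E
  -- the lower bound on the sphere
  obtain ⟨β, hβ, hβ'⟩ : ∃ β : ℝ, 0 < β ∧ ∀ w : E, ‖w‖ = 1 → ∃ b ∈ Φ₁, β ≤ |b w| := by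
    have hcomp : IsCompact (Metric.sphere (0 : E) 1) := isCompact_sphere _ _
    rcases (Metric.sphere (0 : E) 1).eq_empty_or_nonempty with he | hne
    · refine ⟨1, one_pos, fun w hw => ?_⟩
      have : w ∈ Metric.sphere (0 : E) 1 := by simpa using hw
      rw [he] at this
      exact absurd this (Set.notMem_empty _)
    · have hcont : Continuous fun w : E => ∑ b ∈ Φ₁, |b w| := by fun_prop
      obtain ⟨w₀, hw₀, hmin⟩ := hcomp.exists_isMinOn hne hcont.continuousOn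
      have hpos : 0 < ∑ b ∈ Φ₁, |b w₀| := by
        by_contra hcon
        push Not at hcon
        have h0 : ∑ b ∈ Φ₁, |b w₀| = 0 := le_antisymm hcon (Finset.sum_nonneg fun b _ => abs_nonneg _)
        rw [Finset.sum_eq_zero_iff_of_nonneg fun b _ => abs_nonneg _] at h0
        have h1 : w₀ = 0 := hsp w₀ fun b hb => abs_eq_zero.mp (h0 b hb)
        rw [h1] at hw₀
        simp at hw₀
      refine ⟨(∑ b ∈ Φ₁, |b w₀|) / (Φ₁.card + 1), by positivity, fun w hw => ?_⟩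
      by_contra hcon
      push Not at hcon
      have h2 : ∑ b ∈ Φ₁, |b w₀| ≤ ∑ b ∈ Φ₁, |b w| := hmin (by simpa using hw)
      have h3 : ∑ b ∈ Φ₁, |b w| ≤ ∑ _b ∈ Φ₁, (∑ b ∈ Φ₁, |b w₀|) / (Φ₁.card + 1) :=
        Finset.sum_le_sum fun b hb => (hcon b hb).le
      rw [Finset.sum_const, nsmul_eq_mul] at h3
      have h4 : (Φ₁.card : ℝ) * ((∑ b ∈ Φ₁, |b w₀|) / (Φ₁.card + 1)) < ∑ b ∈ Φ₁, |b w₀| := by
        rw [mul_div_assoc', div_lt_iff₀ (by positivity)]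
        nlinarith
      linarith
  have H : ∀ b : {b // b ∈ Φ₁}, ∃ c₁ ε₀ : ℝ, 0 < c₁ ∧ 0 < ε₀ ∧ ∀ ε : ℝ, 0 < ε → ε ≤ ε₀ →
      ∃ n₀ : ℕ, ∀ n : ℕ, n₀ ≤ n → ∀ T : E →L[ℝ] E,
      Tr θ A θ A c K C 1 ε n (8 * n) (ε * n) T → ∀ w : E, ‖w‖ ≤ 1 → β ≤ b.1 w → c₁ ≤ ‖T w‖ := by
    intro b
    obtain ⟨cr, hcru⟩ := hcr b.1 b.2
    exact inj_lower M cr hcru M c K hC le_rfl hβ
  choose c₁ ε₀ hc₁ hε₀ H' using H
  have hmin : ∀ f : {b // b ∈ Φ₁} → ℝ, (∀ b, 0 < f b) → ∃ x : ℝ, 0 < x ∧ ∀ b, x ≤ f b := by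
    intro f hf
    rcases isEmpty_or_nonempty {b // b ∈ Φ₁} with hι | hι
    · exact ⟨1, one_pos, fun i => isEmptyElim i⟩
    · refine ⟨Finset.univ.inf' Finset.univ_nonempty f, ?_, fun i => Finset.inf'_le _ (by simp)⟩
      rw [Finset.lt_inf'_iff]
      exact fun i _ => hf i
  obtain ⟨cm, hcm, hcm'⟩ := hmin c₁ hc₁
  obtain ⟨em, hem, hem'⟩ := hmin ε₀ hε₀
  choose n₀ hn₀ using fun b => H' b em hem (hem' b)
  obtain ⟨n₁, hn₁⟩ := (Set.finite_range n₀).bddAbove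
  refine ⟨cm, em, n₁, hcm, hem, fun n hn T hT w => ?_⟩
  have hTr : Tr θ A θ A c K C 1 em n (8 * n) (em * n) T := by
    have := hT (8, 1) (Finset.mem_singleton_self _)
    simpa using this
  have key : ∀ w : E, ‖w‖ = 1 → cm ≤ ‖T w‖ := by
    intro w hw
    obtain ⟨b, hb, hbw⟩ := hβ' w hw
    have hnb : n₀ ⟨b, hb⟩ ≤ n := (hn₁ ⟨⟨b, hb⟩, rfl⟩).trans hn
    rcases le_abs.mp hbw with h | h
    · exact (hcm' ⟨b, hb⟩).trans (hn₀ ⟨b, hb⟩ n hnb T hTr w hw.le h)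
    · have h1 := (hcm' ⟨b, hb⟩).trans (hn₀ ⟨b, hb⟩ n hnb T hTr (-w) (by rw [norm_neg]; exact hw.le)
        (by rw [map_neg]; exact h))
      rwa [map_neg, norm_neg] at h1
  rcases eq_or_ne w 0 with rfl | hw0
  · simp
  · have hn : ‖w‖ ≠ 0 := norm_ne_zero_iff.mpr hw0
    have hn0 : 0 < ‖w‖ := norm_pos_iff.mpr hw0
    have h2 := key (‖w‖⁻¹ • w) (by
      rw [norm_smul, norm_inv, norm_norm, inv_mul_cancel₀ hn])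
    rw [map_smul, norm_smul, norm_inv, norm_norm, inv_mul_eq_div, le_div_iff₀ hn0] at h2
    exact h2

end Vale.Agent.P188.H530
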