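import Vale.Agent.P188.H530.Growth

/-! P188, block PSI: the digit construction. -/

universe u v w

open Finset

namespace Vale.Agent.P188.H530

open Vale.Agent.P188.H789 (Bl PathTo Bl_mono mul_mem_Bl mem_Bl_one one_mem_Bl)

variable {G : Type u} [Group G] {E : Type v} [NormedAddCommGroup E] [NormedSpace ℝ E]
  {θ : G → E} {b : E →L[ℝ] ℝ}

/-- The path `h` with the element `u` inserted at the times of `J`. -/
def ins (u : G) (h : ℕ → G) (J : Finset ℕ) : ℕ → G
  | 0 => 1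
  | j + 1 => ins u h J j * (if j ∈ J then u else 1) * ((h j)⁻¹ * h (j + 1))

theorem θ_ins (hθ : ∀ x y, θ (x * y) = θ x + θ y) {u : G} (hu : θ u = 0) {h : ℕ → G}
    (h0 : h 0 = 1) (J : Finset ℕ) (j : ℕ) : θ (ins u h J j) = θ (h j) := by
  induction j with
  | zero => rw [h0]; rfl
  | succ j ih =>
    rw [ins, hθ, hθ, ih, hθ, add_inv hθ]
    have : θ (if j ∈ J then u else 1) = 0 := by
      split_ifs
      exacts [hu, add_one hθ]
    rw [this]
    abel

theorem D_ins (c : Crossed θ b) (hθ : ∀ x y, θ (x * y) = θ x + θ y) {h : ℕ → G}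
    (h0 : h 0 = 1) (J : Finset ℕ) (j : ℕ) :
    c.D (ins c.u h J j) = c.D (h j) + c.D c.u * ∑ i ∈ (range j).filter (· ∈ J), c.ρ (h i) := by
  induction j with
  | zero => simp [ins, h0, c.D_one]
  | succ j ih =>
    have h1 : c.ρ (ins c.u h J j) = c.ρ (h j) := c.ρ_eq hθ (θ_ins hθ c.θ_u h0 J j)
    have h2 : c.D (h (j + 1)) = c.D (h j) + c.ρ (h j) * c.D ((h j)⁻¹ * h (j + 1)) := by
      rw [← c.D_mul, mul_inv_cancel_left]
    rw [ins, c.D_mul, c.D_mul, c.ρ_mul, h1, ih, h2, Finset.range_add_one, Finset.filter_insert]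
    by_cases hj : j ∈ J
    · rw [if_pos hj, if_pos hj, Finset.sum_insert (by simp), c.ρ_ker _ c.θ_u]
      ring
    · rw [if_neg hj, if_neg hj, c.D_one, c.ρ_one]
      ring

theorem path_ins {P B : Set G} (c : Crossed θ b) (hθ : ∀ x y, θ (x * y) = θ x + θ y)
    {h : ℕ → G} (h0 : h 0 = 1) (hB : ∀ i, (h i)⁻¹ * h (i + 1) ∈ B) (hu : c.u ∈ B)
    (h1 : (1 : G) ∈ B) {z : G} (J : Finset ℕ)
    (hP : ∀ (y : G) (j : ℕ), θ y = θ z + θ (h j) → y ∈ P) (j : ℕ) :
    PathTo P B (2 * j) z (z * ins c.u h J j) := by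
  induction j with
  | zero =>
    rw [ins, mul_one]
    refine PathTo.refl (hP z 0 ?_)
    rw [h0, add_one hθ, add_zero]
  | succ j ih =>
    have e : 2 * (j + 1) = 2 * j + (1 + 1) := by ring
    rw [e]
    refine ih.trans (PathTo.trans (y := z * (ins c.u h J j * (if j ∈ J then c.u else 1))) ?_ ?_)
    · refine PathTo.step (hP _ j ?_) (hP _ j ?_) ?_
      · rw [hθ, θ_ins hθ c.θ_u h0]
      · rw [hθ, hθ, θ_ins hθ c.θ_u h0]
        have : θ (if j ∈ J then c.u else 1) = 0 := by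
          split_ifs
          exacts [c.θ_u, add_one hθ]
        rw [this, add_zero]
      · have e : (z * ins c.u h J j)⁻¹ * (z * (ins c.u h J j * (if j ∈ J then c.u else 1))) =
            (if j ∈ J then c.u else 1) := by group
        rw [e]
        split_ifs
        exacts [hu, h1]
    · refine PathTo.step (hP _ j ?_) (hP _ (j + 1) ?_) ?_
      · rw [hθ, hθ, θ_ins hθ c.θ_u h0]
        have : θ (if j ∈ J then c.u else 1) = 0 := by
          split_ifs
          exacts [c.θ_u, add_one hθ]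
        rw [this, add_zero]
      · rw [hθ, θ_ins hθ c.θ_u h0]
      · rw [ins]
        have e : (z * (ins c.u h J j * (if j ∈ J then c.u else 1)))⁻¹ *
            (z * (ins c.u h J j * (if j ∈ J then c.u else 1) * ((h j)⁻¹ * h (j + 1)))) =
            (h j)⁻¹ * h (j + 1) := by group
        rw [e]
        exact hB j

/-- Times at which a slowly varying function passes given levels. -/
theorem exists_levels {a : ℕ → ℝ} {s c₀ q₀ : ℝ} (ha0 : a 0 = 0) (hs : ∀ i, a (i + 1) ≤ a i + s)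
    (hc₀ : 0 < c₀) (hq₀ : s < q₀) (hs0 : 0 ≤ s) {M Q : ℕ} (hQ : c₀ + Q * q₀ ≤ a M) :
    ∃ j : ℕ → ℕ, (∀ i ≤ Q, j i ≤ M) ∧ (∀ i ≤ Q, c₀ + i * q₀ ≤ a (j i) ∧ a (j i) ≤ c₀ + i * q₀ + s) ∧
      ∀ i < Q, j i < j (i + 1) := by
  classical
  have hex : ∀ i : ℕ, i ≤ Q → ∃ n, c₀ + i * q₀ ≤ a n := by
    intro i hi
    refine ⟨M, le_trans ?_ hQ⟩
    have : (i : ℝ) ≤ Q := by exact_mod_cast hi
    have hq : 0 ≤ q₀ := by linarith
    nlinarith
  have hex' : ∀ i : ℕ, ∃ n, i ≤ Q → (c₀ + i * q₀ ≤ a n ∧ ∀ m < n, ¬ c₀ + i * q₀ ≤ a m) := by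
    intro i
    by_cases hi : i ≤ Q
    · exact ⟨Nat.find (hex i hi), fun _ => ⟨Nat.find_spec (hex i hi), fun m hm =>
        Nat.find_min (hex i hi) hm⟩⟩
    · exact ⟨0, fun h => absurd h hi⟩
  choose j hj using hex'
  have hup : ∀ i ≤ Q, a (j i) ≤ c₀ + i * q₀ + s := by
    intro i hi
    obtain ⟨h1, h2⟩ := hj i hi
    have hpos : 0 < j i := by
      by_contra h
      have h0 : j i = 0 := by omega
      rw [h0, ha0] at h1
      have : (0 : ℝ) ≤ i * q₀ := mul_nonneg (Nat.cast_nonneg _) (by linarith)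
      linarith
    have h3 := h2 (j i - 1) (by omega)
    have h4 := hs (j i - 1)
    rw [Nat.sub_add_cancel hpos] at h4
    push Not at h3
    linarith
  refine ⟨j, fun i hi => ?_, fun i hi => ⟨(hj i hi).1, hup i hi⟩, fun i hi => ?_⟩
  · by_contra h
    push Not at h
    refine (hj i hi).2 M h (le_trans ?_ hQ)
    have : (i : ℝ) ≤ Q := by exact_mod_cast hi
    nlinarith
  · by_contra h
    push Not at h
    have h1 := (hj (i + 1) (by omega)).1
    have h2 := hup i (by omega)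
    push_cast at h1
    rcases Nat.lt_or_eq_of_le h with h3 | h3
    · refine (hj i (by omega)).2 _ h3 ?_
      nlinarith
    · rw [h3] at h1
      nlinarith

end Vale.Agent.P188.H530
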