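import Vale.Agent.P188.H789.SlabG2
import Mathlib

/-! P188, block PSI: end points of paths staying near a segment, transfer by a map which is
affine on most points. -/

universe u v w

open Finset

namespace Vale.Agent.P188.H530

open Vale.Agent.P188.H789 (Bl PathTo)

section Defs

variable {G : Type u} [Group G] {E : Type v} [NormedAddCommGroup E] [NormedSpace ℝ E]

/-- Elements whose height is within `r` of the segment `[0, w]`. -/
def Near (θ : G → E) (w : E) (r : ℝ) : Set G :=
  {g | ∃ s : ℝ, 0 ≤ s ∧ s ≤ 1 ∧ ‖θ g - s • w‖ ≤ r}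

/-- End points of paths of `m` steps near the segment `[0, w]`. -/
def Ends (θ : G → E) (B : Set G) (m : ℕ) (w : E) (r : ℝ) : Set G :=
  {x | PathTo (Near θ w r) B m 1 x}

theorem Near_mono {θ : G → E} {w : E} {r r' : ℝ} (h : r ≤ r') : Near θ w r ⊆ Near θ w r' := by
  rintro g ⟨s, h0, h1, h2⟩
  exact ⟨s, h0, h1, h2.trans h⟩

theorem Near_change {θ : G → E} {w w' : E} {r δ : ℝ} (h : ‖w - w'‖ ≤ δ) :
    Near θ w r ⊆ Near θ w' (r + δ) := by
  rintro g ⟨s, h0, h1, h2⟩
  refine ⟨s, h0, h1, ?_⟩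
  have e : θ g - s • w' = (θ g - s • w) + s • (w - w') := by
    rw [smul_sub]; abel
  rw [e]
  refine (norm_add_le _ _).trans (add_le_add h2 ?_)
  rw [norm_smul, Real.norm_of_nonneg h0]
  calc s * ‖w - w'‖ ≤ 1 * ‖w - w'‖ := by gcongr
    _ ≤ δ := by rwa [one_mul]

theorem Near_smul {θ : G → E} {w : E} {r d : ℝ} (h0 : 0 ≤ d) (h1 : d ≤ 1) :
    Near θ (d • w) r ⊆ Near θ w r := by
  rintro g ⟨s, hs0, hs1, h2⟩
  refine ⟨s * d, mul_nonneg hs0 h0, ?_, by rwa [← smul_smul]⟩
  nlinarith

theorem norm_of_Near {θ : G → E} {w : E} {r : ℝ} {g : G} (h : g ∈ Near θ w r) :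
    ‖θ g‖ ≤ ‖w‖ + r := by
  obtain ⟨s, h0, h1, h2⟩ := h
  have e : θ g = s • w + (θ g - s • w) := by abel
  rw [e]
  refine (norm_add_le _ _).trans (add_le_add ?_ h2)
  rw [norm_smul, Real.norm_of_nonneg h0]
  calc s * ‖w‖ ≤ 1 * ‖w‖ := by gcongr
    _ = ‖w‖ := one_mul _

theorem Ends_mono {θ : G → E} {B B' : Set G} {m : ℕ} {w w' : E} {r r' : ℝ} (hB : B ⊆ B')
    (h : Near θ w r ⊆ Near θ w' r') : Ends θ B m w r ⊆ Ends θ B' m w' r' :=
  fun _ hx => PathTo.mono h hB hx

theorem Ends_mono_m {θ : G → E} {B : Set G} (hB : (1 : G) ∈ B) {m m' : ℕ} (h : m ≤ m') {w : E}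
    {r : ℝ} : Ends θ B m w r ⊆ Ends θ B m' w r :=
  fun _ hx => PathTo.extend hB hx h

theorem Ends_near {θ : G → E} {B : Set G} {m : ℕ} {w : E} {r : ℝ} {x : G}
    (hx : x ∈ Ends θ B m w r) : x ∈ Near θ w r := by
  obtain ⟨p, -, h1, h2, -⟩ := hx
  rw [← h1]
  exact h2 m le_rfl

/-- Additivity of the height. -/
theorem add_one {θ : G → E} (hθ : ∀ x y, θ (x * y) = θ x + θ y) : θ 1 = 0 := by
  have := hθ 1 1
  rw [mul_one] at this
  simpa using this

theorem add_inv {θ : G → E} (hθ : ∀ x y, θ (x * y) = θ x + θ y) (x : G) : θ x⁻¹ = - θ x := by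
  have := hθ x x⁻¹
  rw [mul_inv_cancel, add_one hθ] at this
  exact (neg_eq_of_add_eq_zero_right this.symm).symm

theorem norm_add_Bl {θ : G → E} (hθ : ∀ x y, θ (x * y) = θ x + θ y) {A : Set G} {ℓ : ℝ}
    (hℓ0 : 0 ≤ ℓ) (hℓ : ∀ a ∈ A, ‖θ a‖ ≤ ℓ) {n : ℕ} {x : G} (hx : x ∈ Bl A n) :
    ‖θ x‖ ≤ n * ℓ := by
  obtain ⟨l, h1, h2, rfl⟩ := hx
  have key : ∀ l : List G, (∀ a ∈ l, a ∈ A ∨ a⁻¹ ∈ A) → ‖θ l.prod‖ ≤ l.length * ℓ := by
    intro l
    induction l with
    | nil => intro _; simp [add_one hθ]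
    | cons a l ih =>
      intro h
      have h3 := ih fun b hb => h b (List.mem_cons_of_mem _ hb)
      have h4 : ‖θ a‖ ≤ ℓ := by
        rcases h a List.mem_cons_self with h | h
        · exact hℓ a h
        · have := hℓ _ h
          rwa [add_inv hθ, norm_neg] at this
      rw [List.prod_cons, hθ, List.length_cons]
      push_cast
      calc ‖θ a + θ l.prod‖ ≤ ‖θ a‖ + ‖θ l.prod‖ := norm_add_le _ _
        _ ≤ (l.length + 1) * ℓ := by linarith
  refine (key l h2).trans ?_
  gcongr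

/-- Steps of a path between two times. -/
theorem norm_path_le {θ : G → E} (hθ : ∀ x y, θ (x * y) = θ x + θ y) {B : Set G} {ℓ : ℝ}
    (hℓ : ∀ a ∈ B, ‖θ a‖ ≤ ℓ) {p : ℕ → G} {m : ℕ}
    (hp : ∀ i < m, (p i)⁻¹ * p (i + 1) ∈ B) {i j : ℕ} (hij : i ≤ j) (hj : j ≤ m) :
    ‖θ (p j) - θ (p i)‖ ≤ (j - i : ℕ) * ℓ := by
  obtain ⟨d, rfl⟩ := Nat.exists_eq_add_of_le hij
  rw [Nat.add_sub_cancel_left]
  clear hij
  induction d with
  | zero => simp
  | succ d ih =>
    have h1 := ih (by omega)
    have h2 := hℓ _ (hp (i + d) (by omega))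
    rw [hθ, add_inv hθ] at h2
    push_cast
    have e : θ (p (i + (d + 1))) - θ (p i) =
        (-θ (p (i + d)) + θ (p (i + d + 1))) + (θ (p (i + d)) - θ (p i)) := by
      rw [← add_assoc]; abel
    rw [e]
    refine (norm_add_le _ _).trans ?_
    linarith

end Defs

/-- If at most `q ≤ m` of the indices `0..m` are bad, every index is within `q` of a good one. -/
theorem exists_good {m q : ℕ} (bad : ℕ → Prop) [DecidablePred bad] (hq : q ≤ m)
    (hc : ((range (m + 1)).filter bad).card ≤ q) (j : ℕ) (hj : j ≤ m) :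
    ∃ i ≤ m, ¬ bad i ∧ i ≤ j + q ∧ j ≤ i + q := by
  by_contra hcon
  push Not at hcon
  have hsub : Icc (j - q) (j - q + q) ⊆ (range (m + 1)).filter bad := by
    intro i hi
    rw [Finset.mem_Icc] at hi
    rw [Finset.mem_filter, Finset.mem_range]
    have him : i ≤ m := by omega
    refine ⟨by omega, ?_⟩
    by_contra hb
    have := hcon i him hb (by omega)
    omega
  have := Finset.card_le_card hsub
  rw [Nat.card_Icc] at this
  omega

section Average

variable {G : Type u} [Group G]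

open Classical in
/-- The number of bad times, summed over the end points. -/
noncomputable def badSum (D₀ : Finset G) (π : G → ℕ → G) (U : Finset G) (m : ℕ) (x : G) : ℕ :=
  ∑ u ∈ U, ((range (m + 1)).filter fun i => x * π u i ∉ D₀).card

open Classical in
/-- Most points are good. -/
theorem card_bad_le (D D₀ : Finset G) (hD₀ : D₀ ⊆ D) (π : G → ℕ → G) (U : Finset G) (m q : ℕ)
    {ε : ℝ} (h1 : ((D \ D₀).card : ℝ) ≤ ε * D.card)
    (h2 : ∀ u ∈ U, ∀ i ≤ m, ((D.filter fun x => x * π u i ∉ D).card : ℝ) ≤ ε * D.card)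
    (hU : U.Nonempty) :
    ((D.filter fun x => (q + 1) * U.card < 2 * badSum D₀ π U m x).card : ℝ) ≤
      4 * ε * (m + 1) / (q + 1) * D.card := by
  have hU' : (0 : ℝ) < U.card := by exact_mod_cast hU.card_pos
  -- one pair
  have hpair : ∀ u ∈ U, ∀ i ≤ m, ((D.filter fun x => x * π u i ∉ D₀).card : ℝ) ≤
      2 * ε * D.card := by
    intro u hu i hi
    have hsub : (D.filter fun x => x * π u i ∉ D₀) ⊆
        (D.filter fun x => x * π u i ∉ D) ∪ (D.filter fun x => x * π u i ∈ D \ D₀) := by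
      intro x hx
      rw [Finset.mem_filter] at hx
      rw [Finset.mem_union, Finset.mem_filter, Finset.mem_filter, Finset.mem_sdiff]
      by_cases hxD : x * π u i ∈ D
      · exact Or.inr ⟨hx.1, hxD, hx.2⟩
      · exact Or.inl ⟨hx.1, hxD⟩
    have h3 : (D.filter fun x => x * π u i ∈ D \ D₀).card ≤ (D \ D₀).card := by
      refine Finset.card_le_card_of_injOn (fun x => x * π u i) ?_ ?_
      · intro x hx
        exact (Finset.mem_filter.mp hx).2
      · intro x _ y _ hxy
        exact mul_right_cancel hxy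
    have h4 := (Finset.card_le_card hsub).trans (Finset.card_union_le _ _)
    have h5 : ((D.filter fun x => x * π u i ∉ D₀).card : ℝ) ≤
        (D.filter fun x => x * π u i ∉ D).card + (D \ D₀).card := by
      exact_mod_cast h4.trans (by omega)
    have := h2 u hu i hi
    linarith
  have hsum : (∑ x ∈ D, (badSum D₀ π U m x : ℝ)) ≤ U.card * ((m + 1) * (2 * ε * D.card)) := by
    have e : (∑ x ∈ D, (badSum D₀ π U m x : ℝ)) =
        ∑ u ∈ U, ∑ i ∈ range (m + 1), ((D.filter fun x => x * π u i ∉ D₀).card : ℝ) := by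
      unfold badSum
      push_cast
      simp only [Finset.card_filter, Nat.cast_sum]
      rw [Finset.sum_comm]
      refine Finset.sum_congr rfl fun u _ => ?_
      rw [Finset.sum_comm]
    rw [e]
    calc ∑ u ∈ U, ∑ i ∈ range (m + 1), ((D.filter fun x => x * π u i ∉ D₀).card : ℝ)
        ≤ ∑ u ∈ U, ∑ i ∈ range (m + 1), 2 * ε * D.card := by
          refine Finset.sum_le_sum fun u hu => Finset.sum_le_sum fun i hi => ?_
          exact hpair u hu i (by rw [Finset.mem_range] at hi; omega)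
      _ = U.card * ((m + 1) * (2 * ε * D.card)) := by
          simp only [Finset.sum_const, Finset.card_range, nsmul_eq_mul]
          push_cast
          ring
  set Z := D.filter fun x => (q + 1) * U.card < 2 * badSum D₀ π U m x with hZ
  have h6 : (Z.card : ℝ) * ((q + 1) * U.card) ≤ 2 * ∑ x ∈ D, (badSum D₀ π U m x : ℝ) := by
    calc (Z.card : ℝ) * ((q + 1) * U.card) = ∑ _x ∈ Z, ((q + 1) * U.card : ℝ) := by
          rw [Finset.sum_const, nsmul_eq_mul]
      _ ≤ ∑ x ∈ Z, 2 * (badSum D₀ π U m x : ℝ) := by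
          refine Finset.sum_le_sum fun x hx => ?_
          have := (Finset.mem_filter.mp hx).2
          exact_mod_cast this.le
      _ ≤ ∑ x ∈ D, 2 * (badSum D₀ π U m x : ℝ) := by
          refine Finset.sum_le_sum_of_subset_of_nonneg (Finset.filter_subset _ _) ?_
          intro x _ _
          positivity
      _ = _ := by rw [Finset.mul_sum]
  have h7 : (Z.card : ℝ) * ((q + 1) * U.card) ≤ 2 * (U.card * ((m + 1) * (2 * ε * D.card))) :=
    h6.trans (by linarith)
  have hq : (0 : ℝ) < q + 1 := by positivity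
  rw [div_mul_eq_mul_div, le_div_iff₀ hq]
  have h8 : ((Z.card : ℝ) * (q + 1)) * U.card ≤ (4 * ε * (m + 1) * D.card) * U.card := by
    linarith
  exact le_of_mul_le_mul_right h8 hU'

open Classical in
/-- At a good point, half of the end points have few bad times. -/
theorem card_good_ends (D₀ : Finset G) (π : G → ℕ → G) (U : Finset G) (m q : ℕ) (x : G)
    (h : 2 * badSum D₀ π U m x ≤ (q + 1) * U.card) :
    U.card ≤ 2 * (U.filter fun u =>
      ((range (m + 1)).filter fun i => x * π u i ∉ D₀).card ≤ q).card := by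
  set W := U.filter fun u => ((range (m + 1)).filter fun i => x * π u i ∉ D₀).card ≤ q with hW
  set V := U.filter fun u => ¬ ((range (m + 1)).filter fun i => x * π u i ∉ D₀).card ≤ q with hV
  have h1 : W.card + V.card = U.card := Finset.card_filter_add_card_filter_not _
  have h2 : V.card * (q + 1) ≤ badSum D₀ π U m x := by
    unfold badSum
    calc V.card * (q + 1) = ∑ _u ∈ V, (q + 1) := by rw [Finset.sum_const, smul_eq_mul]
      _ ≤ ∑ u ∈ V, ((range (m + 1)).filter fun i => x * π u i ∉ D₀).card := by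
          refine Finset.sum_le_sum fun u hu => ?_
          have := (Finset.mem_filter.mp hu).2
          omega
      _ ≤ _ := Finset.sum_le_sum_of_subset (Finset.filter_subset _ _)
  have h3 : 2 * V.card * (q + 1) ≤ U.card * (q + 1) := by
    calc 2 * V.card * (q + 1) = 2 * (V.card * (q + 1)) := by ring
      _ ≤ 2 * badSum D₀ π U m x := Nat.mul_le_mul_left _ h2
      _ ≤ (q + 1) * U.card := h
      _ = _ := mul_comm _ _
  have h4 : 2 * V.card ≤ U.card := Nat.le_of_mul_le_mul_right h3 (Nat.succ_pos q)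
  omega

end Average

end Vale.Agent.P188.H530
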