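import Vale.Agent.P188.H530.Digits

/-! P188, block PSI: growth of the number of end points with the length of the segment. -/

universe u v w

open Finset

namespace Vale.Agent.P188.H530

open Vale.Agent.P188.H789 (Bl PathTo Bl_mono mul_mem_Bl mem_Bl_one one_mem_Bl)

variable {G : Type u} [Group G] {E : Type v} [NormedAddCommGroup E] [NormedSpace ℝ E]
  {θ : G → E} {b : E →L[ℝ] ℝ}

theorem growth_fiber (c : Crossed θ b) (hθ : ∀ x y, θ (x * y) = θ x + θ y) {B : Set G}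
    {r₀ ℓ D₁ : ℝ} (hr₀ : 0 ≤ r₀) (hB : SegStep θ B r₀) (h1 : (1 : G) ∈ B) (hu : c.u ∈ B)
    (hℓ0 : 0 ≤ ℓ) (hℓ : ∀ a ∈ B, ‖θ a‖ ≤ ℓ) (hD₁0 : 0 ≤ D₁) (hD₁ : ∀ a ∈ B, ‖c.D a‖ ≤ D₁)
    {m : ℕ} {W : E} {d r : ℝ} (hd0 : 0 ≤ d) (hd1 : d ≤ 1) (hr : 0 ≤ r) (hbW : 0 ≤ b W)
    {M : ℕ} (hM : 2 * ‖W‖ + r ≤ M) {c₀ : ℝ} (hc₀ : 0 < c₀)
    (hK : 4 * ((m + M : ℕ) : ℝ) * D₁ * Real.exp (‖b‖ * (r + 2 * r₀)) < ‖c.D c.u‖ * Real.exp c₀)
    {Q : ℕ} (hQ : c₀ + Q * (‖b‖ * ℓ + 2) ≤ (1 - d) * b W - ‖b‖ * r₀)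
    (hfin : (Ends θ B (m + M + 2 * (M + 1)) W (r + 2 * r₀)).Finite) (p₀ : E) :
    {x | x ∈ Ends θ B m (d • W) r ∧ θ x = p₀}.ncard * 2 ^ (Q + 1) ≤
      (Ends θ B (m + M + 2 * (M + 1)) W (r + 2 * r₀)).ncard := by
  classical
  set X := {x | x ∈ Ends θ B m (d • W) r ∧ θ x = p₀} with hX
  rcases Set.eq_empty_or_nonempty X with hempty | ⟨x₁, hx₁⟩
  · rw [hempty, Set.ncard_empty, Nat.zero_mul]
    exact Nat.zero_le _
  have hp₀ : p₀ ∈ {v : E | ∃ s : ℝ, 0 ≤ s ∧ s ≤ 1 ∧ ‖v - s • (d • W)‖ ≤ r} := by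
    have := Ends_near hx₁.1
    rw [← hx₁.2]
    exact this
  obtain ⟨s, hs0, hs1, hs⟩ := hp₀
  have hnp : ‖p₀‖ ≤ ‖W‖ + r := by
    have h2 := norm_of_Near (Ends_near hx₁.1)
    rw [hx₁.2, norm_smul, Real.norm_of_nonneg hd0] at h2
    have : d * ‖W‖ ≤ 1 * ‖W‖ := by gcongr
    linarith
  have hnW : ‖d • W‖ ≤ ‖W‖ := by
    rw [norm_smul, Real.norm_of_nonneg hd0]
    calc d * ‖W‖ ≤ 1 * ‖W‖ := by gcongr
      _ = _ := one_mul _
  have hY : ‖d • W - p₀‖ ≤ M := by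
    refine (norm_sub_le _ _).trans ?_
    linarith
  have hY2 : ‖(1 - d) • W‖ ≤ M := by
    rw [norm_smul, Real.norm_of_nonneg (by linarith)]
    have : (1 - d) * ‖W‖ ≤ 1 * ‖W‖ := by gcongr; linarith
    have := norm_nonneg W
    linarith
  obtain ⟨τ, τ0, τB, τn⟩ := exists_segment hr₀ (add_one hθ) hB (d • W - p₀) hY
  obtain ⟨h, h0, hhB, hn⟩ := exists_segment hr₀ (add_one hθ) hB ((1 - d) • W) hY2
  -- the heights along `h`
  set a : ℕ → ℝ := fun i => b (θ (h i)) with ha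
  have ha0 : a 0 = 0 := by simp only [ha, h0, add_one hθ, map_zero]
  have hbℓ : 0 ≤ ‖b‖ * ℓ := mul_nonneg (norm_nonneg _) hℓ0
  have hs' : ∀ i, a (i + 1) ≤ a i + ‖b‖ * ℓ := by
    intro i
    have h2 := hℓ _ (hhB i)
    have e : θ (h (i + 1)) = θ (h i) + θ ((h i)⁻¹ * h (i + 1)) := by
      rw [← hθ, mul_inv_cancel_left]
    simp only [ha]
    rw [e, map_add]
    have h3 : b (θ ((h i)⁻¹ * h (i + 1))) ≤ ‖b‖ * ℓ :=
      (le_abs_self _).trans ((b.le_opNorm _).trans (by gcongr))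
    linarith
  have haM : (1 - d) * b W - ‖b‖ * r₀ ≤ a M := by
    obtain ⟨t, ht0, ht1, ht2, ht3⟩ := hn M
    rw [ht3 le_rfl] at ht2
    have h3 : |b (θ (h M) - (1 - d) • W)| ≤ ‖b‖ * r₀ := (b.le_opNorm _).trans (by gcongr)
    rw [map_sub, map_smul, smul_eq_mul, abs_le] at h3
    simp only [ha]
    linarith [h3.1]
  obtain ⟨j, hjM, hjlev, hjlt⟩ := exists_levels ha0 hs' hc₀ (q₀ := ‖b‖ * ℓ + 2) (by linarith) hbℓ
    (hQ.trans haM)
  have hjmono : ∀ k i, i + k ≤ Q → 0 < k → j i < j (i + k) := by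
    intro k
    induction k with
    | zero => intro i _ h; omega
    | succ k ih =>
      intro i hi _
      rcases Nat.eq_zero_or_pos k with rfl | hk
      · exact hjlt i (by omega)
      · exact (ih i (by omega) hk).trans (hjlt (i + k) (by omega))
  have hjinj : Set.InjOn j (range (Q + 1) : Set ℕ) := by
    intro i hi i' hi' hii
    rw [Finset.mem_coe, Finset.mem_range] at hi hi'
    rcases Nat.lt_trichotomy i i' with hlt | heq | hlt
    · have := hjmono (i' - i) i (by omega) (by omega)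
      rw [Nat.add_sub_cancel' hlt.le, hii] at this
      exact absurd this (lt_irrefl _)
    · exact heq
    · have := hjmono (i - i') i' (by omega) (by omega)
      rw [Nat.add_sub_cancel' hlt.le, hii] at this
      exact absurd this (lt_irrefl _)
  -- the lacunary sequence
  set ζ : ℕ → ℂ := fun i => c.ρ (h (j i)) with hζ
  have hζn : ∀ i, ‖ζ i‖ = Real.exp (a (j i)) := fun i => c.norm_ρ _
  have hlac : ∀ i, i + 1 < Q + 1 → 3 * ‖ζ i‖ ≤ ‖ζ (i + 1)‖ := by
    intro i hi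
    rw [hζn, hζn]
    have h2 := (hjlev i (by omega)).2
    have h3 := (hjlev (i + 1) (by omega)).1
    push_cast at h3
    have h4 : a (j i) + 2 ≤ a (j (i + 1)) := by nlinarith
    calc 3 * Real.exp (a (j i)) ≤ Real.exp 2 * Real.exp (a (j i)) := by
          gcongr
          have := Real.add_one_le_exp (2 : ℝ)
          linarith
      _ = Real.exp (a (j i) + 2) := by rw [← Real.exp_add]; ring_nf
      _ ≤ _ := Real.exp_le_exp.mpr h4
  have hζ0 : Real.exp c₀ ≤ ‖ζ 0‖ := by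
    rw [hζn]
    have := (hjlev 0 (Nat.zero_le _)).1
    rw [Nat.cast_zero, zero_mul, add_zero] at this
    exact Real.exp_le_exp.mpr this
  have hsumJ : ∀ S ⊆ range (Q + 1),
      ∑ i ∈ (range (M + 1)).filter (· ∈ S.image j), c.ρ (h i) = ∑ i ∈ S, ζ i := by
    intro S hS
    have e : (range (M + 1)).filter (· ∈ S.image j) = S.image j := by
      ext i
      rw [Finset.mem_filter, Finset.mem_range]
      refine ⟨fun h => h.2, fun hi => ⟨?_, hi⟩⟩
      obtain ⟨k, hk, rfl⟩ := Finset.mem_image.mp hi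
      have := hjM k (by have := hS hk; rw [Finset.mem_range] at this; omega)
      omega
    rw [e, Finset.sum_image]
    intro k hk k' hk' hkk
    exact hjinj (hS hk) (hS hk') hkk
  -- the two paths
  have hpath1 : ∀ x ∈ X, PathTo (Near θ (d • W) (r + r₀)) B (m + M) 1 (x * τ M) := by
    intro x hx
    refine PathTo.trans (y := x) (hx.1.mono (Near_mono (by linarith)) subset_rfl) ?_
    refine ⟨fun i => x * τ i, by simp [τ0], rfl, fun i _ => ?_, fun i _ => ?_⟩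
    · obtain ⟨t, ht0, ht1, ht2, -⟩ := τn i
      refine ⟨(1 - t) * s + t, by nlinarith, by nlinarith, ?_⟩
      simp only
      rw [hθ, hx.2]
      have e : p₀ + θ (τ i) - ((1 - t) * s + t) • d • W =
          (1 - t) • (p₀ - s • d • W) + (θ (τ i) - t • (d • W - p₀)) := by
        module
      rw [e]
      refine (norm_add_le _ _).trans (add_le_add ?_ ht2)
      rw [norm_smul, Real.norm_of_nonneg (by linarith)]
      have := norm_nonneg (p₀ - s • d • W)
      nlinarith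
    · have e : (x * τ i)⁻¹ * (x * τ (i + 1)) = (τ i)⁻¹ * τ (i + 1) := by group
      simp only
      rw [e]
      exact τB i
  have hθz : ∀ x ∈ X, ‖θ (x * τ M) - d • W‖ ≤ r₀ := by
    intro x hx
    obtain ⟨t, ht0, ht1, ht2, ht3⟩ := τn M
    rw [ht3 le_rfl] at ht2
    rw [hθ, hx.2]
    have e : p₀ + θ (τ M) - d • W = θ (τ M) - (d • W - p₀) := by abel
    rwa [e]
  have hpath2 : ∀ x ∈ X, ∀ J : Finset ℕ,
      x * τ M * ins c.u h J (M + 1) ∈ Ends θ B (m + M + 2 * (M + 1)) W (r + 2 * r₀) := by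
    intro x hx J
    refine PathTo.trans (y := x * τ M) ?_ ?_
    · refine (hpath1 x hx).mono ?_ subset_rfl
      exact (Near_smul hd0 hd1).trans (Near_mono (by linarith))
    · refine path_ins c hθ h0 hhB hu h1 J (fun y i hy => ?_) (M + 1)
      obtain ⟨t, ht0, ht1, ht2, -⟩ := hn i
      refine ⟨d + t * (1 - d), by nlinarith, by nlinarith, ?_⟩
      rw [hy]
      have e : θ (x * τ M) + θ (h i) - (d + t * (1 - d)) • W =
          (θ (x * τ M) - d • W) + (θ (h i) - t • (1 - d) • W) := by module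
      rw [e]
      refine (norm_add_le _ _).trans ?_
      have := hθz x hx
      linarith
  -- the multiplier on the first part
  have hKρ : ∀ x ∈ Near θ (d • W) (r + r₀),
      ‖c.ρ x‖ ≤ Real.exp (d * b W + ‖b‖ * (r + r₀)) := by
    rintro x ⟨t, ht0, ht1, ht2⟩
    rw [c.norm_ρ]
    refine Real.exp_le_exp.mpr ?_
    have h3 : |b (θ x - t • d • W)| ≤ ‖b‖ * (r + r₀) := (b.le_opNorm _).trans (by gcongr)
    rw [map_sub, map_smul, map_smul, smul_eq_mul, smul_eq_mul, abs_le] at h3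
    have h4 : t * (d * b W) ≤ 1 * (d * b W) := by gcongr
    linarith [h3.2]
  have hDz : ∀ x ∈ X, ‖c.D (x * τ M)‖ ≤
      ((m + M : ℕ) : ℝ) * (D₁ * Real.exp (d * b W + ‖b‖ * (r + r₀))) := fun x hx =>
    c.norm_D_path hD₁0 hD₁ (Real.exp_pos _).le hKρ (hpath1 x hx)
  have hρz : ∀ x ∈ X, Real.exp (d * b W - ‖b‖ * r₀) ≤ ‖c.ρ (x * τ M)‖ := by
    intro x hx
    rw [c.norm_ρ]
    refine Real.exp_le_exp.mpr ?_
    have h3 : |b (θ (x * τ M) - d • W)| ≤ ‖b‖ * r₀ :=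
      (b.le_opNorm _).trans (by have := hθz x hx; gcongr)
    rw [map_sub, map_smul, smul_eq_mul, abs_le] at h3
    linarith [h3.1]
  -- injectivity
  have hXfin : X.Finite := by
    have hsub : (fun x => x * τ M * ins c.u h ∅ (M + 1)) '' X ⊆
        Ends θ B (m + M + 2 * (M + 1)) W (r + 2 * r₀) := by
      rintro _ ⟨x, hx, rfl⟩
      exact hpath2 x hx ∅
    refine Set.Finite.of_finite_image (hfin.subset hsub) ?_
    intro x _ y _ hxy
    simpa using hxy
  have hinj : Set.InjOn (fun q : G × Finset ℕ => q.1 * τ M * ins c.u h (q.2.image j) (M + 1))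
      ((hXfin.toFinset ×ˢ (range (Q + 1)).powerset : Finset (G × Finset ℕ)) :
        Set (G × Finset ℕ)) := by
    rintro ⟨x, S⟩ hxS ⟨x', S'⟩ hxS' heq
    rw [Finset.mem_coe, Finset.mem_product, Set.Finite.mem_toFinset, Finset.mem_powerset]
      at hxS hxS'
    obtain ⟨hx, hS⟩ := hxS
    obtain ⟨hx', hS'⟩ := hxS'
    simp only at hx hS hx' hS' heq
    have hSS : S = S' := by
      by_contra hne
      have hl := lacunary hlac hS hS' hne
      have hρeq : c.ρ (x * τ M) = c.ρ (x' * τ M) := by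
        refine c.ρ_eq hθ ?_
        rw [hθ, hθ, hx.2, hx'.2]
      have h5 := congrArg c.D heq
      rw [c.D_mul (x * τ M), c.D_mul (x' * τ M), D_ins c hθ h0, D_ins c hθ h0, hsumJ S hS,
        hsumJ S' hS', ← hρeq] at h5
      have h6 : c.ρ (x * τ M) * (c.D c.u * ((∑ i ∈ S, ζ i) - ∑ i ∈ S', ζ i)) =
          c.D (x' * τ M) - c.D (x * τ M) := by linear_combination h5
      have h7 := congrArg norm h6
      rw [norm_mul, norm_mul] at h7
      have h8 : ‖c.D (x' * τ M) - c.D (x * τ M)‖ ≤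
          2 * (((m + M : ℕ) : ℝ) * (D₁ * Real.exp (d * b W + ‖b‖ * (r + r₀)))) := by
        refine (norm_sub_le _ _).trans ?_
        have := hDz x hx
        have := hDz x' hx'
        linarith
      have h9 : Real.exp (d * b W - ‖b‖ * r₀) * (‖c.D c.u‖ * (Real.exp c₀ / 2)) ≤
          ‖c.ρ (x * τ M)‖ * (‖c.D c.u‖ * ‖(∑ i ∈ S, ζ i) - ∑ i ∈ S', ζ i‖) := by
        have := hρz x hx
        have : Real.exp c₀ / 2 ≤ ‖(∑ i ∈ S, ζ i) - ∑ i ∈ S', ζ i‖ := by linarith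
        gcongr
      rw [h7] at h9
      have h10 := h9.trans h8
      have e1 : Real.exp (d * b W + ‖b‖ * (r + r₀)) =
          Real.exp (d * b W - ‖b‖ * r₀) * Real.exp (‖b‖ * (r + 2 * r₀)) := by
        rw [← Real.exp_add]; ring_nf
      rw [e1] at h10
      have hpos : 0 < Real.exp (d * b W - ‖b‖ * r₀) := Real.exp_pos _
      have h11 : Real.exp (d * b W - ‖b‖ * r₀) * (‖c.D c.u‖ * (Real.exp c₀ / 2)) ≤
          Real.exp (d * b W - ‖b‖ * r₀) *
            (2 * (((m + M : ℕ) : ℝ) * D₁ * Real.exp (‖b‖ * (r + 2 * r₀)))) := by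
        refine h10.trans (le_of_eq ?_)
        ring
      have h12 := le_of_mul_le_mul_left h11 hpos
      linarith
    subst hSS
    have : x = x' := by
      have h5 := mul_right_cancel heq
      exact mul_right_cancel h5
    rw [this]
  have hcard := Finset.card_le_card_of_injOn
    (s := hXfin.toFinset ×ˢ (range (Q + 1)).powerset) (t := hfin.toFinset)
    (fun q : G × Finset ℕ => q.1 * τ M * ins c.u h (q.2.image j) (M + 1)) (by
      rintro ⟨x, S⟩ hxS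
      rw [Finset.mem_coe, Finset.mem_product, Set.Finite.mem_toFinset] at hxS
      rw [Finset.mem_coe, Set.Finite.mem_toFinset]
      exact hpath2 x hxS.1 _) hinj
  rw [Finset.card_product, Finset.card_powerset, Finset.card_range] at hcard
  rwa [Set.ncard_eq_toFinset_card _ hXfin, Set.ncard_eq_toFinset_card _ hfin]

/-- Growth of the number of end points with the length of the segment. -/
theorem growth (c : Crossed θ b) (hθ : ∀ x y, θ (x * y) = θ x + θ y) {B : Set G}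
    {r₀ ℓ D₁ : ℝ} (hr₀ : 0 ≤ r₀) (hB : SegStep θ B r₀) (h1 : (1 : G) ∈ B) (hu : c.u ∈ B)
    (hℓ0 : 0 ≤ ℓ) (hℓ : ∀ a ∈ B, ‖θ a‖ ≤ ℓ) (hD₁0 : 0 ≤ D₁) (hD₁ : ∀ a ∈ B, ‖c.D a‖ ≤ D₁)
    {m : ℕ} {W : E} {d r : ℝ} (hd0 : 0 ≤ d) (hd1 : d ≤ 1) (hr : 0 ≤ r) (hbW : 0 ≤ b W)
    {M : ℕ} (hM : 2 * ‖W‖ + r ≤ M) {c₀ : ℝ} (hc₀ : 0 < c₀)
    (hK : 4 * ((m + M : ℕ) : ℝ) * D₁ * Real.exp (‖b‖ * (r + 2 * r₀)) < ‖c.D c.u‖ * Real.exp c₀)
    {Q : ℕ} (hQ : c₀ + Q * (‖b‖ * ℓ + 2) ≤ (1 - d) * b W - ‖b‖ * r₀)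
    (hfin : (Ends θ B (m + M + 2 * (M + 1)) W (r + 2 * r₀)).Finite)
    (hfin1 : (Ends θ B m (d • W) r).Finite) {P : ℕ}
    (hP : (θ '' Ends θ B m (d • W) r).ncard ≤ P) :
    (Ends θ B m (d • W) r).ncard * 2 ^ (Q + 1) ≤
      P * (Ends θ B (m + M + 2 * (M + 1)) W (r + 2 * r₀)).ncard := by
  classical
  set N' := (Ends θ B (m + M + 2 * (M + 1)) W (r + 2 * r₀)).ncard with hN'
  have hfib := growth_fiber c hθ hr₀ hB h1 hu hℓ0 hℓ hD₁0 hD₁ hd0 hd1 hr hbW hM hc₀ hK hQ hfin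
  have h2 := Finset.card_le_mul_card_image (f := θ) hfin1.toFinset (N' / 2 ^ (Q + 1)) (by
    intro p _
    rw [Nat.le_div_iff_mul_le (by positivity)]
    have e : (hfin1.toFinset.filter fun x => θ x = p).card =
        {x | x ∈ Ends θ B m (d • W) r ∧ θ x = p}.ncard := by
      rw [← Set.ncard_coe_finset]
      congr 1
      ext x
      simp
    rw [e]
    exact hfib p)
  have h3 : (hfin1.toFinset.image θ).card ≤ P := by
    rw [← Set.ncard_coe_finset, Finset.coe_image, Set.Finite.coe_toFinset]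
    exact hP
  rw [Set.ncard_eq_toFinset_card _ hfin1]
  calc hfin1.toFinset.card * 2 ^ (Q + 1)
      ≤ (N' / 2 ^ (Q + 1) * (hfin1.toFinset.image θ).card) * 2 ^ (Q + 1) :=
        Nat.mul_le_mul_right _ h2
    _ = (hfin1.toFinset.image θ).card * (N' / 2 ^ (Q + 1) * 2 ^ (Q + 1)) := by ring
    _ ≤ P * N' := Nat.mul_le_mul h3 (Nat.div_mul_le_self _ _)

end Vale.Agent.P188.H530
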