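import Vale.Agent.P188.H530.Ends

/-! P188, block PSI: digits. Following a longer segment in a direction in which a crossed
homomorphism expands multiplies the number of end points by an exponential factor. -/

universe u v w

open Finset

namespace Vale.Agent.P188.H530

open Vale.Agent.P188.H789 (Bl PathTo Bl_mono mul_mem_Bl mem_Bl_one one_mem_Bl)

/-- Sums of a lacunary sequence over different index sets are far apart. -/
theorem lacunary {z : ℕ → ℂ} {Q : ℕ} (h : ∀ i, i + 1 < Q → 3 * ‖z i‖ ≤ ‖z (i + 1)‖)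
    {S S' : Finset ℕ} (hS : S ⊆ range Q) (hS' : S' ⊆ range Q) (hne : S ≠ S') :
    ‖z 0‖ / 2 ≤ ‖(∑ i ∈ S, z i) - ∑ i ∈ S', z i‖ := by
  classical
  have hmono : ∀ i, i < Q → ‖z 0‖ ≤ ‖z i‖ := by
    intro i
    induction i with
    | zero => intro _; exact le_rfl
    | succ i ih =>
      intro hi
      have h1 := ih (by omega)
      have h2 := h i hi
      have := norm_nonneg (z i)
      linarith
  have hsum : ∀ t, t < Q → ∑ i ∈ range t, ‖z i‖ ≤ ‖z t‖ / 2 := by
    intro t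
    induction t with
    | zero => intro _; rw [Finset.range_zero, Finset.sum_empty]; positivity
    | succ t ih =>
      intro ht
      rw [Finset.sum_range_succ]
      have h1 := ih (by omega)
      have h2 := h t ht
      linarith
  have hΔ : (symmDiff S S').Nonempty := by
    rw [Finset.nonempty_iff_ne_empty]
    intro h0
    exact hne (Finset.symmDiff_eq_empty.mp h0)
  obtain ⟨t, ht, htmax⟩ := Finset.exists_max_image (symmDiff S S') (fun i => i) hΔ
  have htQ : t < Q := by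
    rw [Finset.mem_symmDiff] at ht
    rcases ht with ht | ht
    · exact Finset.mem_range.mp (hS ht.1)
    · exact Finset.mem_range.mp (hS' ht.1)
  -- the coefficient function
  let f : ℕ → ℂ := fun i => (if i ∈ S then z i else 0) - (if i ∈ S' then z i else 0)
  have hf : (∑ i ∈ S, z i) - ∑ i ∈ S', z i = ∑ i ∈ range Q, f i := by
    simp only [f, Finset.sum_sub_distrib, Finset.sum_ite_mem]
    rw [Finset.inter_eq_right.mpr hS, Finset.inter_eq_right.mpr hS']
  have hf0 : ∀ i, t < i → f i = 0 := by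
    intro i hi
    have hni : i ∉ symmDiff S S' := fun hm => absurd (htmax i hm) (by simpa using hi)
    rw [Finset.mem_symmDiff] at hni
    simp only [f]
    by_cases h1 : i ∈ S <;> by_cases h2 : i ∈ S' <;> simp_all
  have hft : ‖f t‖ = ‖z t‖ := by
    rw [Finset.mem_symmDiff] at ht
    simp only [f]
    rcases ht with ht | ht
    · rw [if_pos ht.1, if_neg ht.2, sub_zero]
    · rw [if_neg ht.2, if_pos ht.1, zero_sub, norm_neg]
  have hfi : ∀ i, ‖f i‖ ≤ ‖z i‖ := by
    intro i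
    simp only [f]
    split_ifs <;> simp
  have hsplit : ∑ i ∈ range Q, f i = ∑ i ∈ range (t + 1), f i := by
    symm
    refine Finset.sum_subset (Finset.range_mono (by omega)) fun i _ hi => ?_
    exact hf0 i (by simpa using hi)
  rw [hf, hsplit, Finset.sum_range_succ]
  have h1 : ‖∑ i ∈ range t, f i‖ ≤ ‖z t‖ / 2 :=
    (norm_sum_le _ _).trans ((Finset.sum_le_sum fun i _ => hfi i).trans (hsum t htQ))
  have h2 : ‖f t‖ ≤ ‖∑ i ∈ range t, f i + f t‖ + ‖∑ i ∈ range t, f i‖ := by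
    have := norm_sub_le (∑ i ∈ range t, f i + f t) (∑ i ∈ range t, f i)
    rwa [add_sub_cancel_left] at this
  have h3 := hmono t htQ
  rw [hft] at h2
  linarith

section

variable {G : Type u} [Group G] {E : Type v} [NormedAddCommGroup E] [NormedSpace ℝ E]

/-- From every element near `v` one can step near every close point `w`. -/
def SegStep (θ : G → E) (B : Set G) (r₀ : ℝ) : Prop :=
  ∀ (v w : E) (g : G), ‖w - v‖ ≤ 1 → ‖θ g - v‖ ≤ r₀ → ∃ b ∈ B, ‖θ (g * b) - w‖ ≤ r₀

theorem exists_follow {θ : G → E} {B : Set G} {r₀ : ℝ} (hB : SegStep θ B r₀) (V : ℕ → E)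
    (hV : ∀ i, ‖V (i + 1) - V i‖ ≤ 1) (g : G) (hg : ‖θ g - V 0‖ ≤ r₀) :
    ∃ p : ℕ → G, p 0 = g ∧ (∀ i, (p i)⁻¹ * p (i + 1) ∈ B) ∧ ∀ i, ‖θ (p i) - V i‖ ≤ r₀ := by
  have step : ∀ (i : ℕ) (x : G), ∃ y : G, ‖θ x - V i‖ ≤ r₀ →
      (x⁻¹ * y ∈ B ∧ ‖θ y - V (i + 1)‖ ≤ r₀) := by
    intro i x
    by_cases hx : ‖θ x - V i‖ ≤ r₀
    · obtain ⟨b, hb, hb'⟩ := hB (V i) (V (i + 1)) x (hV i) hx
      exact ⟨x * b, fun _ => ⟨by rwa [inv_mul_cancel_left], hb'⟩⟩
    · exact ⟨x, fun h => absurd h hx⟩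
  choose f hf using step
  let p : ℕ → G := fun i => Nat.rec g (fun i x => f i x) i
  have hp0 : p 0 = g := rfl
  have hps : ∀ i, p (i + 1) = f i (p i) := fun i => rfl
  have hnear : ∀ i, ‖θ (p i) - V i‖ ≤ r₀ := by
    intro i
    induction i with
    | zero => rw [hp0]; exact hg
    | succ i ih => rw [hps]; exact (hf i (p i) ih).2
  exact ⟨p, hp0, fun i => by rw [hps]; exact (hf i (p i) (hnear i)).1, hnear⟩

/-- Following the segment `[0, Y]` in `M ≥ ‖Y‖` steps. -/
theorem exists_segment {θ : G → E} {B : Set G} {r₀ : ℝ} (hr₀ : 0 ≤ r₀) (hθ1 : θ 1 = 0)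
    (hB : SegStep θ B r₀) (Y : E) {M : ℕ} (hM : ‖Y‖ ≤ M) :
    ∃ p : ℕ → G, p 0 = 1 ∧ (∀ i, (p i)⁻¹ * p (i + 1) ∈ B) ∧
      ∀ i, ∃ t : ℝ, 0 ≤ t ∧ t ≤ 1 ∧ ‖θ (p i) - t • Y‖ ≤ r₀ ∧ (M ≤ i → t • Y = Y) := by
  have hV : ∀ i : ℕ, ‖((min (i + 1) M : ℕ) / (M : ℝ)) • Y - ((min i M : ℕ) / (M : ℝ)) • Y‖ ≤ 1 := by
    intro i
    rw [← sub_smul, norm_smul]
    rcases Nat.eq_zero_or_pos M with rfl | hMpos
    · simp
    · have hM' : (0 : ℝ) < M := by exact_mod_cast hMpos
      rw [← sub_div, norm_div, Real.norm_of_nonneg hM'.le]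
      have h1 : ‖((min (i + 1) M : ℕ) : ℝ) - ((min i M : ℕ) : ℝ)‖ ≤ 1 := by
        rw [Real.norm_eq_abs, abs_le]
        rcases le_total (i + 1) M with h | h
        · rw [min_eq_left h, min_eq_left (by omega)]
          push_cast
          constructor <;> linarith
        · rcases le_total i M with h' | h'
          · rw [min_eq_right h, min_eq_left h']
            have a1 : (M : ℝ) ≤ i + 1 := by exact_mod_cast h
            have a2 : (i : ℝ) ≤ M := by exact_mod_cast h'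
            constructor <;> linarith
          · rw [min_eq_right h, min_eq_right h']
            constructor <;> linarith
      rw [div_mul_eq_mul_div, div_le_one hM']
      calc ‖((min (i + 1) M : ℕ) : ℝ) - ((min i M : ℕ) : ℝ)‖ * ‖Y‖ ≤ 1 * M := by gcongr
        _ = M := one_mul _
  obtain ⟨p, h0, h1, h2⟩ := exists_follow hB (fun i => ((min i M : ℕ) / (M : ℝ)) • Y) hV 1 (by
    simp [hθ1, hr₀])
  refine ⟨p, h0, h1, fun i => ⟨(min i M : ℕ) / (M : ℝ), by positivity, ?_, h2 i, ?_⟩⟩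
  · rcases Nat.eq_zero_or_pos M with rfl | hMpos
    · simp
    · have hM' : (0 : ℝ) < M := by exact_mod_cast hMpos
      rw [div_le_one hM']
      exact_mod_cast min_le_right _ _
  · intro hi
    rw [min_eq_right hi]
    rcases Nat.eq_zero_or_pos M with rfl | hMpos
    · have : Y = 0 := by
        rw [Nat.cast_zero] at hM
        exact norm_le_zero_iff.mp hM
      simp [this]
    · have hM' : (M : ℝ) ≠ 0 := by exact_mod_cast hMpos.ne'
      rw [div_self hM', one_smul]

end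

/-- A crossed homomorphism with values in `ℂ` whose multiplier has modulus `exp (b (θ g))`. -/
structure Crossed {G : Type u} [Group G] {E : Type v} [NormedAddCommGroup E] [NormedSpace ℝ E]
    (θ : G → E) (b : E →L[ℝ] ℝ) where
  /-- the crossed homomorphism -/
  D : G → ℂ
  /-- the multiplier -/
  ρ : G → ℂ
  D_mul : ∀ x y, D (x * y) = D x + ρ x * D y
  ρ_mul : ∀ x y, ρ (x * y) = ρ x * ρ y
  norm_ρ : ∀ x, ‖ρ x‖ = Real.exp (b (θ x))
  ρ_ker : ∀ x, θ x = 0 → ρ x = 1
  /-- an element of the kernel -/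
  u : G
  θ_u : θ u = 0
  D_u : D u ≠ 0

namespace Crossed

variable {G : Type u} [Group G] {E : Type v} [NormedAddCommGroup E] [NormedSpace ℝ E]
  {θ : G → E} {b : E →L[ℝ] ℝ}

theorem ρ_ne (c : Crossed θ b) (x : G) : c.ρ x ≠ 0 := by
  intro h
  have := c.norm_ρ x
  rw [h, norm_zero] at this
  exact (Real.exp_pos _).ne this

theorem ρ_one (c : Crossed θ b) : c.ρ 1 = 1 := by
  have := c.ρ_mul 1 1
  rw [mul_one] at this
  have h2 := c.ρ_ne 1
  field_simp at this
  exact this.symm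

theorem D_one (c : Crossed θ b) : c.D 1 = 0 := by
  have := c.D_mul 1 1
  rw [mul_one, c.ρ_one, one_mul] at this
  simpa using this

theorem ρ_eq (c : Crossed θ b) (hθ : ∀ x y, θ (x * y) = θ x + θ y) {x y : G}
    (h : θ x = θ y) : c.ρ x = c.ρ y := by
  have h1 : θ (x⁻¹ * y) = 0 := by rw [hθ, add_inv hθ, h]; simp
  have h2 := c.ρ_mul x (x⁻¹ * y)
  rw [mul_inv_cancel_left, c.ρ_ker _ h1, mul_one] at h2
  exact h2.symm

/-- The crossed homomorphism along a path. -/
theorem norm_D_path (c : Crossed θ b) {P B : Set G} {D₁ K : ℝ} (hD₁ : 0 ≤ D₁)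
    (hB : ∀ x ∈ B, ‖c.D x‖ ≤ D₁) (hK : 0 ≤ K) (hP : ∀ x ∈ P, ‖c.ρ x‖ ≤ K) {m : ℕ} {x : G}
    (hx : PathTo P B m 1 x) : ‖c.D x‖ ≤ m * (D₁ * K) := by
  obtain ⟨p, h0, h1, h2, h3⟩ := hx
  have key : ∀ i ≤ m, ‖c.D (p i)‖ ≤ i * (D₁ * K) := by
    intro i
    induction i with
    | zero => intro _; rw [h0, c.D_one]; simp
    | succ i ih =>
      intro hi
      have h4 := ih (by omega)
      have h5 := c.D_mul (p i) ((p i)⁻¹ * p (i + 1))
      rw [mul_inv_cancel_left] at h5
      rw [h5]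
      refine (norm_add_le _ _).trans ?_
      rw [norm_mul]
      have h6 := hP _ (h2 i (by omega))
      have h7 := hB _ (h3 i (by omega))
      have h8 : ‖c.ρ (p i)‖ * ‖c.D ((p i)⁻¹ * p (i + 1))‖ ≤ K * D₁ := by gcongr
      push_cast
      nlinarith
  have := key m le_rfl
  rwa [h1] at this

end Crossed

end Vale.Agent.P188.H530
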