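import Vale.Agent.P188.H530.Occ2

/-! P188, block PSI: the linear parts of a map and of its coarse inverse are inverse to each
other. -/

universe u v w w' x

open Finset MeasureTheory Module
open scoped ENNReal

namespace Vale.Agent.P188.H530

section Det

variable {E : Type w} [NormedAddCommGroup E] [NormedSpace ℝ E]
  {E' : Type w'} [NormedAddCommGroup E'] [NormedSpace ℝ E']

/-- One vector: if increments `a` and `a'` are related by `T` and by `T'`, then `T' T a` is close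
to `a`. -/
theorem inv_vec {T : E →L[ℝ] E'} {T' : E' →L[ℝ] E} {a a₁ : E} {a' : E'} {L δ C₁ : ℝ}
    (hT' : ‖T'‖ ≤ L) (h1 : ‖a' - T a‖ ≤ δ) (h2 : ‖a₁ - T' a'‖ ≤ δ) (h3 : ‖a₁ - a‖ ≤ C₁) :
    ‖T' (T a) - a‖ ≤ L * δ + δ + C₁ := by
  have e : T' (T a) - a = -(T' (a' - T a)) - (a₁ - T' a') + (a₁ - a) := by
    rw [map_sub]; abel
  rw [e]
  have hL : 0 ≤ L := (norm_nonneg _).trans hT'
  refine (norm_add_le _ _).trans (add_le_add ((norm_sub_le _ _).trans (add_le_add ?_ h2)) h3)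
  rw [norm_neg]
  exact (T'.le_opNorm _).trans (by gcongr)

/-- Right inverse from left inverse in finite dimension. -/
theorem right_inv_of_left [FiniteDimensional ℝ E] [FiniteDimensional ℝ E']
    (hdim : finrank ℝ E = finrank ℝ E') {T : E →L[ℝ] E'} {T' : E' →L[ℝ] E} {L ε : ℝ}
    (hT : ‖T‖ ≤ L) (hT' : ‖T'‖ ≤ L) (hε : ε ≤ 1 / 2) (hε0 : 0 ≤ ε)
    (h : ∀ x, ‖T' (T x) - x‖ ≤ ε * ‖x‖) (y : E') : ‖T (T' y) - y‖ ≤ 2 * L * L * ε * ‖y‖ := by
  have hL : 0 ≤ L := (norm_nonneg _).trans hT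
  have hinj : Function.Injective T := by
    intro x x' hx
    have h1 := h (x - x')
    rw [map_sub, hx, sub_self, map_zero, zero_sub, norm_neg] at h1
    have h2 := norm_nonneg (x - x')
    have h3 : ‖x - x'‖ = 0 := by nlinarith
    exact sub_eq_zero.mp (norm_eq_zero.mp h3)
  have hsurj : Function.Surjective T :=
    (LinearMap.injective_iff_surjective_of_finrank_eq_finrank (f := T.toLinearMap) hdim).mp hinj
  obtain ⟨x, rfl⟩ := hsurj y
  have h1 := h x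
  have hx : ‖x‖ ≤ 2 * (L * ‖T x‖) := by
    have h2 : ‖x‖ ≤ ‖T' (T x)‖ + ‖T' (T x) - x‖ := by
      have := norm_sub_le (T' (T x)) (T' (T x) - x)
      rwa [sub_sub_cancel] at this
    have h3 : ‖T' (T x)‖ ≤ L * ‖T x‖ := (T'.le_opNorm _).trans (by gcongr)
    have h4 : ε * ‖x‖ ≤ 1 / 2 * ‖x‖ := by gcongr
    linarith
  have e : T (T' (T x)) - T x = T (T' (T x) - x) := by rw [map_sub]
  rw [e]
  calc ‖T (T' (T x) - x)‖ ≤ ‖T‖ * ‖T' (T x) - x‖ := T.le_opNorm _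
    _ ≤ L * (ε * ‖x‖) := by gcongr
    _ ≤ L * (ε * (2 * (L * ‖T x‖))) := by gcongr
    _ = _ := by ring

/-- A basis is robust: if `T' T` nearly fixes vectors `a i` close to `R • v i`, then it is close
to the identity. -/
theorem exists_basis_const {ι : Type*} [Finite ι] (v : Basis ι ℝ E) :
    ∃ Cv : ℝ, 0 < Cv ∧ ∀ (S : E →L[ℝ] E) (a : ι → E) (R τ δ L₂ : ℝ), 0 < R → 0 ≤ δ → 0 ≤ τ →
      ‖S‖ ≤ L₂ → (∀ i, ‖a i - R • v i‖ ≤ τ * R) → (∀ i, ‖S (a i) - a i‖ ≤ δ * R) →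
      ∀ x, ‖S x - x‖ ≤ Cv * (δ + (L₂ + 1) * τ) * ‖x‖ := by
  obtain ⟨Cv, hCv, hCv'⟩ := v.exists_opNorm_le (F := E)
  refine ⟨Cv, hCv, fun S a R τ δ L₂ hR hδ hτ hS ha hSa x => ?_⟩
  have hL₂ : 0 ≤ L₂ := (norm_nonneg _).trans hS
  have hn : ‖S - ContinuousLinearMap.id ℝ E‖ ≤ Cv * (δ + (L₂ + 1) * τ) := by
    refine hCv' (by positivity) fun i => ?_
    have e : R • ((S - ContinuousLinearMap.id ℝ E) (v i)) =
        (S (a i) - a i) - (S (a i - R • v i) - (a i - R • v i)) := by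
      simp only [ContinuousLinearMap.sub_apply, ContinuousLinearMap.id_apply, map_sub, map_smul,
        smul_sub]
      abel
    have h1 : ‖R • ((S - ContinuousLinearMap.id ℝ E) (v i))‖ ≤ (δ + (L₂ + 1) * τ) * R := by
      rw [e]
      refine (norm_sub_le _ _).trans ?_
      have h2 : ‖S (a i - R • v i) - (a i - R • v i)‖ ≤ L₂ * (τ * R) + τ * R :=
        (norm_sub_le _ _).trans (add_le_add
          ((S.le_opNorm _).trans (by have := ha i; gcongr)) (ha i))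
      have := hSa i
      nlinarith
    rw [norm_smul, Real.norm_of_nonneg hR.le, mul_comm] at h1
    exact le_of_mul_le_mul_right h1 hR
  have h2 : S x - x = (S - ContinuousLinearMap.id ℝ E) x := by simp
  rw [h2]
  exact (ContinuousLinearMap.le_opNorm _ _).trans (by gcongr)

end Det

section Mes

variable {S : Type u} [MeasurableSpace S] {μ : Measure S}
  {S' : Type v} [MeasurableSpace S'] {μ' : Measure S'}

/-- A subset of small measure has small preimage. -/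
theorem meas_preimage_le {F : S → S'} {c₁ : ℝ≥0∞} (hc₁ : c₁ ≠ ∞)
    (hF : ∀ B : Set S', μ (F ⁻¹' B) ≤ c₁ * μ' B) {B : Set S'} (hB : μ' B ≠ ∞) :
    μ.real (F ⁻¹' B) ≤ c₁.toReal * μ'.real B ∧ μ (F ⁻¹' B) ≠ ∞ := by
  have h1 : c₁ * μ' B ≠ ∞ := ENNReal.mul_ne_top hc₁ hB
  refine ⟨?_, ne_top_of_le_ne_top h1 (hF B)⟩
  unfold Measure.real
  rw [← ENNReal.toReal_mul]
  exact ENNReal.toReal_mono h1 (hF B)

/-- Most points of `D` are mapped to the good set of `D'`. -/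
theorem meas_bad_image_le {F : S → S'} {c₁ : ℝ≥0∞} (hc₁ : c₁ ≠ ∞)
    (hF : ∀ B : Set S', μ (F ⁻¹' B) ≤ c₁ * μ' B) {D : Set S} {D' G' : Set S'}
    (hDf : μ D ≠ ∞) (hD'f : μ' D' ≠ ∞) (hDD' : ∀ x ∈ D, F x ∈ D') {c₂ ε : ℝ}
    (hε : 0 ≤ ε)
    (h2 : μ'.real D' ≤ c₂ * μ.real D) (h : μ'.real (D' \ G') ≤ ε * μ'.real D') :
    μ.real {x ∈ D | F x ∉ G'} ≤ c₁.toReal * (ε * (c₂ * μ.real D)) := by
  have hf : μ' (D' \ G') ≠ ∞ := ne_top_of_le_ne_top hD'f (measure_mono Set.sdiff_subset)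
  obtain ⟨h3, h4⟩ := meas_preimage_le hc₁ hF hf
  refine (measureReal_mono (fun x hx => ?_) h4).trans (h3.trans ?_)
  · exact ⟨hDD' x hx.1, hx.2⟩
  · have : 0 ≤ c₁.toReal := ENNReal.toReal_nonneg
    gcongr
    exact h.trans (by gcongr)

end Mes

end Vale.Agent.P188.H530
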