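import Vale.Agent.P188.H530.TransferP

/-! P188, block PSI: most points of `D` are good (measure version). -/

universe u v w w'

open Finset MeasureTheory
open scoped ENNReal

namespace Vale.Agent.P188.H530

variable {G : Type u} {X : Type v} [MeasurableSpace X] {μ : Measure X}

open Classical in
theorem badSumP_mono {good good' : G → Prop} (h : ∀ g, good g → good' g) (π : G → ℕ → G)
    (U : Finset G) (m : ℕ) : badSumP good' π U m ≤ badSumP good π U m := by
  unfold badSumP
  refine Finset.sum_le_sum fun u _ => Finset.card_le_card ?_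
  intro i hi
  rw [Finset.mem_filter] at hi ⊢
  exact ⟨hi.1, fun h' => hi.2 (h _ h')⟩

theorem meas_bad_le₁ (act : X → G → X) {D D₁ : Set X} (hD : MeasurableSet D)
    (hD₁ : MeasurableSet D₁) (hDf : μ D ≠ ∞) (π : G → ℕ → G)
    (U : Finset G) (m q : ℕ) {ε : ℝ}
    (hmp : ∀ u ∈ U, ∀ i ≤ m, MeasurePreserving (fun x => act x (π u i)) μ μ)
    (h1 : μ.real (D \ D₁) ≤ ε * μ.real D)
    (h2 : ∀ u ∈ U, ∀ i ≤ m, μ.real {x ∈ D | act x (π u i) ∉ D} ≤ ε * μ.real D)
    (hU : U.Nonempty) :
    μ.real {x ∈ D | (q + 1) * U.card < 2 * badSumP (fun g => act x g ∈ D₁) π U m} ≤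
      4 * ε * (m + 1) / (q + 1) * μ.real D := by
  classical
  have hU' : (0 : ℝ) < U.card := by exact_mod_cast hU.card_pos
  have hpair : ∀ u ∈ U, ∀ i ≤ m, μ.real {x ∈ D | act x (π u i) ∉ D₁} ≤ 2 * ε * μ.real D := by
    intro u hu i hi
    have hsub : {x ∈ D | act x (π u i) ∉ D₁} ⊆
        {x ∈ D | act x (π u i) ∉ D} ∪ (fun x => act x (π u i)) ⁻¹' (D \ D₁) := by
      rintro x ⟨hx, hx'⟩
      by_cases h : act x (π u i) ∈ D
      · exact Or.inr ⟨h, hx'⟩
      · exact Or.inl ⟨hx, h⟩
    have hm := hmp u hu i hi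
    have hDD : MeasurableSet (D \ D₁) := hD.diff hD₁
    have e1 : μ ((fun x => act x (π u i)) ⁻¹' (D \ D₁)) = μ (D \ D₁) :=
      hm.measure_preimage hDD.nullMeasurableSet
    have hf1 : μ (D \ D₁) ≠ ∞ := ne_top_of_le_ne_top hDf (measure_mono Set.sdiff_subset)
    have e2 : μ.real ((fun x => act x (π u i)) ⁻¹' (D \ D₁)) = μ.real (D \ D₁) := by
      unfold Measure.real; rw [e1]
    have hf2 : μ ({x ∈ D | act x (π u i) ∉ D} ∪ (fun x => act x (π u i)) ⁻¹' (D \ D₁)) ≠ ∞ := by
      refine ne_top_of_le_ne_top ?_ (measure_union_le _ _)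
      rw [e1]
      exact ENNReal.add_ne_top.mpr
        ⟨ne_top_of_le_ne_top hDf (measure_mono (Set.sep_subset _ _)), hf1⟩
    calc μ.real {x ∈ D | act x (π u i) ∉ D₁} ≤ _ := measureReal_mono hsub hf2
      _ ≤ _ := measureReal_union_le _ _
      _ ≤ ε * μ.real D + ε * μ.real D := add_le_add (h2 u hu i hi) (e2.trans_le h1)
      _ = _ := by ring
  let g : X → ℝ := fun x => ∑ u ∈ U, ∑ i ∈ range (m + 1),
    Set.indicator {x | act x (π u i) ∉ D₁} (fun _ => (1 : ℝ)) x
  have hg : ∀ x, g x = badSumP (fun g => act x g ∈ D₁) π U m := by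
    intro x
    simp only [g, badSumP]
    push_cast
    refine Finset.sum_congr rfl fun u _ => ?_
    rw [Finset.card_filter]
    push_cast
    refine Finset.sum_congr rfl fun i _ => ?_
    by_cases h : act x (π u i) ∈ D₁
    · simp [Set.indicator, h]
    · simp [Set.indicator, h]
  have hms : ∀ u ∈ U, ∀ i ∈ range (m + 1), MeasurableSet {x | act x (π u i) ∉ D₁} := by
    intro u hu i hi
    rw [Finset.mem_range] at hi
    exact (hmp u hu i (by omega)).measurable hD₁.compl
  have hgm : Measurable g := by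
    refine Finset.measurable_sum _ fun u hu => Finset.measurable_sum _ fun i hi => ?_
    exact measurable_const.indicator (hms u hu i hi)
  have hfin : IsFiniteMeasure (μ.restrict D) := ⟨by
    rw [Measure.restrict_apply_univ]; exact hDf.lt_top⟩
  have hint : ∀ u ∈ U, ∀ i ∈ range (m + 1),
      Integrable (Set.indicator {x | act x (π u i) ∉ D₁} (fun _ => (1 : ℝ))) (μ.restrict D) :=
    fun u hu i hi => (integrable_const _).indicator (hms u hu i hi)
  have hgi : Integrable g (μ.restrict D) := by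
    refine integrable_finsetSum _ fun u hu => integrable_finsetSum _ fun i hi => hint u hu i hi
  have hg0 : ∀ x, 0 ≤ g x := fun x => by rw [hg]; positivity
  have hsum : ∫ x in D, g x ∂μ ≤ U.card * ((m + 1) * (2 * ε * μ.real D)) := by
    have e : ∫ x in D, g x ∂μ =
        ∑ u ∈ U, ∑ i ∈ range (m + 1), μ.real {x ∈ D | act x (π u i) ∉ D₁} := by
      simp only [g]
      rw [integral_finsetSum _ fun u hu => integrable_finsetSum _ fun i hi => hint u hu i hi]
      refine Finset.sum_congr rfl fun u hu => ?_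
      rw [integral_finsetSum _ fun i hi => hint u hu i hi]
      refine Finset.sum_congr rfl fun i hi => ?_
      rw [integral_indicator (hms u hu i hi)]
      rw [setIntegral_const, smul_eq_mul, mul_one]
      unfold Measure.real
      rw [Measure.restrict_apply (hms u hu i hi)]
      congr 2
      ext x
      simp [and_comm]
    rw [e]
    calc ∑ u ∈ U, ∑ i ∈ range (m + 1), μ.real {x ∈ D | act x (π u i) ∉ D₁}
        ≤ ∑ u ∈ U, ∑ i ∈ range (m + 1), 2 * ε * μ.real D := by
          refine Finset.sum_le_sum fun u hu => Finset.sum_le_sum fun i hi => ?_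
          exact hpair u hu i (by rw [Finset.mem_range] at hi; omega)
      _ = U.card * ((m + 1) * (2 * ε * μ.real D)) := by
          simp only [Finset.sum_const, Finset.card_range, nsmul_eq_mul]
          push_cast
          ring
  set Z := {x ∈ D | (q + 1) * U.card < 2 * badSumP (fun g => act x g ∈ D₁) π U m} with hZ
  have hc : (0 : ℝ) < (q + 1) * U.card / 2 := by positivity
  have hmk := mul_meas_ge_le_integral_of_nonneg (μ := μ.restrict D)
    (Filter.Eventually.of_forall hg0) hgi ((q + 1) * U.card / 2)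
  have hZm : MeasurableSet {x | (q + 1) * U.card / 2 ≤ g x} :=
    measurableSet_le measurable_const hgm
  have hZle : μ.real Z ≤ (μ.restrict D).real {x | (q + 1) * U.card / 2 ≤ g x} := by
    unfold Measure.real
    refine ENNReal.toReal_mono ?_ ?_
    · exact measure_ne_top _ _
    · rw [Measure.restrict_apply hZm]
      refine measure_mono ?_
      rintro x ⟨hx, hx'⟩
      refine ⟨?_, hx⟩
      simp only [Set.mem_setOf_eq]
      rw [hg]
      have : (((q + 1) * U.card : ℕ) : ℝ) < ((2 * badSumP (fun g => act x g ∈ D₁) π U m : ℕ) : ℝ) := by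
        exact_mod_cast hx'
      push_cast at this
      linarith
  have h6 : μ.real Z * ((q + 1) * U.card / 2) ≤ U.card * ((m + 1) * (2 * ε * μ.real D)) := by
    calc μ.real Z * ((q + 1) * U.card / 2)
        ≤ (μ.restrict D).real {x | (q + 1) * U.card / 2 ≤ g x} * ((q + 1) * U.card / 2) := by
          gcongr
      _ = ((q + 1) * U.card / 2) * (μ.restrict D).real {x | (q + 1) * U.card / 2 ≤ g x} := by ring
      _ ≤ ∫ x in D, g x ∂μ := hmk
      _ ≤ _ := hsum
  have hq : (0 : ℝ) < q + 1 := by positivity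
  rw [div_mul_eq_mul_div, le_div_iff₀ hq]
  have h8 : (μ.real Z * (q + 1)) * U.card ≤ (4 * ε * (m + 1) * μ.real D) * U.card := by
    linarith
  exact le_of_mul_le_mul_right h8 hU'

theorem exists_measurable_sub {D D₀ : Set X} (hD : MeasurableSet D) (hDf : μ D ≠ ∞) :
    ∃ D₁ ⊆ D₀, MeasurableSet D₁ ∧ D₁ ⊆ D ∧ μ.real (D \ D₁) ≤ μ.real (D \ D₀) := by
  refine ⟨D \ toMeasurable μ (D \ D₀), ?_, hD.diff (measurableSet_toMeasurable _ _),
    Set.sdiff_subset, ?_⟩
  · rintro x ⟨hx, hx'⟩
    by_contra h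
    exact hx' (subset_toMeasurable μ _ ⟨hx, h⟩)
  · have hf : μ (D \ D₀) ≠ ∞ := ne_top_of_le_ne_top hDf (measure_mono Set.sdiff_subset)
    have : D \ (D \ toMeasurable μ (D \ D₀)) ⊆ toMeasurable μ (D \ D₀) := by
      rintro x ⟨hx, hx'⟩
      by_contra h
      exact hx' ⟨hx, h⟩
    refine (measureReal_mono this (by rw [measure_toMeasurable]; exact hf)).trans ?_
    unfold Measure.real
    rw [measure_toMeasurable]

/-- Most points are good: measure version, the good set being arbitrary. -/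
theorem meas_bad_le (act : X → G → X) {D D₀ : Set X} (hD : MeasurableSet D)
    (hDf : μ D ≠ ∞) (π : G → ℕ → G)
    (U : Finset G) (m q : ℕ) {ε : ℝ}
    (hmp : ∀ u ∈ U, ∀ i ≤ m, MeasurePreserving (fun x => act x (π u i)) μ μ)
    (h1 : μ.real (D \ D₀) ≤ ε * μ.real D)
    (h2 : ∀ u ∈ U, ∀ i ≤ m, μ.real {x ∈ D | act x (π u i) ∉ D} ≤ ε * μ.real D)
    (hU : U.Nonempty) :
    μ.real {x ∈ D | (q + 1) * U.card < 2 * badSumP (fun g => act x g ∈ D₀) π U m} ≤
      4 * ε * (m + 1) / (q + 1) * μ.real D := by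
  obtain ⟨D₁, hsub, hm1, hD₁D, hle⟩ := exists_measurable_sub (D₀ := D₀) hD hDf
  refine le_trans ?_ (meas_bad_le₁ act hD hm1 hDf π U m q hmp (hle.trans h1) h2 hU)
  refine measureReal_mono ?_ (ne_top_of_le_ne_top hDf (measure_mono (Set.sep_subset _ _)))
  rintro x ⟨hx, hx'⟩
  refine ⟨hx, lt_of_lt_of_le hx' ?_⟩
  exact Nat.mul_le_mul_left _ (badSumP_mono (fun g hg => hsub hg) π U m)

end Vale.Agent.P188.H530
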