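import Vale.Agent.P188.H530.Psi3

/-! P188, block PSI: most points transfer end points. -/

universe u v w w' x

open Finset MeasureTheory
open scoped ENNReal

namespace Vale.Agent.P188.H530

open Vale.Agent.P188.H789 (Bl PathTo Bl_mono mul_mem_Bl mem_Bl_one one_mem_Bl)

theorem exists_net (E : Type*) [NormedAddCommGroup E] [NormedSpace ℝ E] [FiniteDimensional ℝ E]
    (W : ℝ) {η : ℝ} (hη : 0 < η) :
    ∃ N : Finset E, ∀ w : E, ‖w‖ ≤ W → ∃ w' ∈ N, ‖w - w'‖ ≤ η := by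
  have : ProperSpace E := FiniteDimensional.proper ℝ E
  obtain ⟨t, -, ht, hc⟩ := (isCompact_closedBall (0 : E) W).finite_cover_balls hη
  refine ⟨ht.toFinset, fun w hw => ?_⟩
  have h1 : w ∈ Metric.closedBall (0 : E) W := by simpa using hw
  have h2 := hc h1
  rw [Set.mem_iUnion₂] at h2
  obtain ⟨w', hw', h3⟩ := h2
  refine ⟨w', ht.mem_toFinset.mpr hw', ?_⟩
  rw [Metric.mem_ball, dist_eq_norm] at h3
  exact h3.le

theorem exists_net_smul (E : Type*) [NormedAddCommGroup E] [NormedSpace ℝ E]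
    [FiniteDimensional ℝ E] (W : ℝ) {η : ℝ} (hη : 0 < η) :
    ∃ k : ℕ, ∀ n : ℕ, 1 ≤ n → ∃ N : Finset E, N.card ≤ k ∧
      ∀ w : E, ‖w‖ ≤ W * n → ∃ w' ∈ N, ‖w - w'‖ ≤ η * n := by
  classical
  obtain ⟨N, hN⟩ := exists_net E W hη
  refine ⟨N.card, fun n hn => ⟨N.image fun x => (n : ℝ) • x, Finset.card_image_le, fun w hw => ?_⟩⟩
  have hn0 : (0 : ℝ) < n := by exact_mod_cast hn
  obtain ⟨w', hw', h⟩ := hN ((n : ℝ)⁻¹ • w) (by
    rw [norm_smul, norm_inv, Real.norm_of_nonneg hn0.le, inv_mul_le_iff₀ hn0, mul_comm]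
    exact hw)
  refine ⟨(n : ℝ) • w', Finset.mem_image_of_mem _ hw', ?_⟩
  have e : w - (n : ℝ) • w' = (n : ℝ) • ((n : ℝ)⁻¹ • w - w') := by
    rw [smul_sub, smul_smul, mul_inv_cancel₀ hn0.ne', one_smul]
  rw [e, norm_smul, Real.norm_of_nonneg hn0.le, mul_comm]
  gcongr

variable {G : Type u} [Group G] {G' : Type v} [Group G']
  {E : Type w} [NormedAddCommGroup E] [NormedSpace ℝ E]
  {E' : Type w'} [NormedAddCommGroup E'] [NormedSpace ℝ E']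
  {X : Type x} [MeasurableSpace X] {μ : Measure X}

open Classical in
/-- Transfer at a point which is good for all vectors of a net. -/
theorem transfer_net {θ : G → E} {A : Set G} (M : Mod θ A) {θ' : G' → E'} {A' : Set G'}
    (M' : Mod θ' A') {c₀ K : ℕ} {L : ℝ} {Φ : G → G'}
    (hΦ : ∀ g, ∀ a ∈ A, (Φ g)⁻¹ * Φ (g * a) ∈ Bl A' K)
    (hc : ∀ y, {x | Φ x = y}.Finite ∧ {x | Φ x = y}.ncard ≤ c₀)
    (good : G → Prop) (T : E →L[ℝ] E') (hT : ‖T‖ ≤ L) {δ η : ℝ} {m q : ℕ} {r r'' : ℝ}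
    (hlin : ∀ g, good g → g ∈ Bl A m → ‖θ' (Φ g) - θ' (Φ 1) - T (θ g)‖ ≤ δ)
    (hr : 0 ≤ r) (hη : 0 ≤ η) (hq : q ≤ m)
    (π : E → G → ℕ → G)
    (hπ : ∀ w, ∀ u ∈ Ends θ A m w (r + η), π w u 0 = 1 ∧ π w u m = u ∧
      (∀ i ≤ m, π w u i ∈ Near θ w (r + η)) ∧ ∀ i < m, (π w u i)⁻¹ * π w u (i + 1) ∈ A)
    {w w' : E} (hww : ‖w - w'‖ ≤ η)
    (hgood : 2 * badSumP good (π w') (M.Ends_finite m w' (r + η)).toFinset m ≤
      (q + 1) * (M.Ends_finite m w' (r + η)).toFinset.card)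
    (hr'' : δ + (K * M'.ℓ + L * M.ℓ) * q + L * (r + η) + K * M'.ℓ + L * η ≤ r'') :
    (Ends θ A m w r).ncard ≤ 2 * c₀ * (Ends θ' A' (K * m) (T w) r'').ncard := by
  have hKℓ : 0 ≤ (K : ℝ) * M'.ℓ := mul_nonneg (Nat.cast_nonneg _) M'.ℓ0
  have hℓ' : ∀ a ∈ Bl A' K, ‖θ' a‖ ≤ K * M'.ℓ := fun a ha =>
    norm_add_Bl M'.add M'.ℓ0 M'.hℓ ha
  have hsub : Ends θ' (Bl A' K) m (T w')
      (δ + (K * M'.ℓ + ‖T‖ * M.ℓ) * q + ‖T‖ * (r + η)) ⊆ Ends θ' A' (K * m) (T w) r'' := by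
    refine (Ends_refine M'.add M'.ℓ0 M'.hℓ M'.one M'.inv K m _ _).trans ?_
    rw [mul_comm m K]
    refine Ends_mono subset_rfl ?_
    have h1 : ‖T w' - T w‖ ≤ L * η := by
      rw [← map_sub]
      refine (T.le_opNorm _).trans ?_
      rw [norm_sub_rev]
      have := norm_nonneg (w - w')
      have hL : 0 ≤ L := (norm_nonneg _).trans hT
      gcongr
    refine (Near_change h1).trans (Near_mono (le_trans ?_ hr''))
    have h2 : ‖T‖ * M.ℓ * q ≤ L * M.ℓ * q := by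
      have := M.ℓ0
      gcongr
    have h3 : ‖T‖ * (r + η) ≤ L * (r + η) := by gcongr
    linarith
  have hfin' := (M'.Ends_finite (K * m) (T w) r'').subset hsub
  have h1 := transferP M.add M'.add M.ℓ0 hKℓ M.hℓ hℓ' hΦ hc good T hlin
    (M.Ends_finite m w' (r + η)) hfin' (π w') (hπ w') hq hgood
  calc (Ends θ A m w r).ncard ≤ (Ends θ A m w' (r + η)).ncard :=
        M.ncard_change le_rfl hww le_rfl
    _ ≤ _ := h1
    _ ≤ _ := Nat.mul_le_mul_left _ (Set.ncard_le_ncard hsub (M'.Ends_finite _ _ _))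

theorem exists_paths (θ : G → E) (A : Set G) (m : ℕ) (r : ℝ) :
    ∃ π : E → G → ℕ → G, ∀ w, ∀ u ∈ Ends θ A m w r, π w u 0 = 1 ∧ π w u m = u ∧
      (∀ i ≤ m, π w u i ∈ Near θ w r) ∧ ∀ i < m, (π w u i)⁻¹ * π w u (i + 1) ∈ A := by
  classical
  have h : ∀ (w : E) (u : G), ∃ p : ℕ → G, u ∈ Ends θ A m w r → (p 0 = 1 ∧ p m = u ∧
      (∀ i ≤ m, p i ∈ Near θ w r) ∧ ∀ i < m, (p i)⁻¹ * p (i + 1) ∈ A) := by
    intro w u
    by_cases hu : u ∈ Ends θ A m w r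
    · obtain ⟨p, hp⟩ := hu
      exact ⟨p, fun _ => hp⟩
    · exact ⟨fun _ => 1, fun h => absurd h hu⟩
  choose π hπ using h
  exact ⟨π, fun w u hu => hπ w u hu⟩

open Classical in
/-- One pair (length, distance): most points transfer end points. -/
theorem occ_one {θ : G → E} {A : Set G} (M : Mod θ A) {θ' : G' → E'} {A' : Set G'}
    (M' : Mod θ' A') {c₀ K : ℕ} {L : ℝ} (act : X → G → X) (hact1 : ∀ x, act x 1 = x)
    (hactm : ∀ x g h, act x (g * h) = act (act x g) h)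
    (hmp : ∀ g, MeasurePreserving (fun x => act x g) μ μ) (F : X → G')
    (hF : ∀ x, ∀ a ∈ A, (F x)⁻¹ * F (act x a) ∈ Bl A' K)
    (hc : ∀ x y, {g | F (act x g) = y}.Finite ∧ {g | F (act x g) = y}.ncard ≤ c₀)
    (T : X → E →L[ℝ] E') {D D₀ : Set X} (hT : ∀ x ∈ D₀, ‖T x‖ ≤ L) (hD : MeasurableSet D)
    (hDf : μ D ≠ ∞) {ε₁ δ η : ℝ} {m q : ℕ} {r r'' : ℝ}
    (h1 : μ.real (D \ D₀) ≤ ε₁ * μ.real D)
    (h2 : ∀ g ∈ Bl A m, μ.real {x ∈ D | act x g ∉ D} ≤ ε₁ * μ.real D)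
    (hlin : ∀ x ∈ D₀, ∀ g ∈ Bl A m, act x g ∈ D₀ →
      ‖θ' (F (act x g)) - θ' (F x) - T x (θ g)‖ ≤ δ)
    (hr : 0 ≤ r) (hη : 0 ≤ η) (hq : q ≤ m) {R : ℝ} (N : Finset E)
    (hN : ∀ w : E, ‖w‖ ≤ R → ∃ w' ∈ N, ‖w - w'‖ ≤ η)
    (hr'' : δ + (K * M'.ℓ + L * M.ℓ) * q + L * (r + η) + K * M'.ℓ + L * η ≤ r'') :
    μ.real {x ∈ D | x ∈ D₀ ∧ ¬ ∀ w, ‖w‖ ≤ R →
      (Ends θ A m w r).ncard ≤ 2 * c₀ * (Ends θ' A' (K * m) (T x w) r'').ncard} ≤
      N.card * (4 * ε₁ * (m + 1) / (q + 1) * μ.real D) := by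
  obtain ⟨π, hπ⟩ := exists_paths θ A m (r + η)
  let Z : E → Set X := fun w' => {x ∈ D |
    (q + 1) * (M.Ends_finite m w' (r + η)).toFinset.card <
      2 * badSumP (fun g => act x g ∈ D₀) (π w') (M.Ends_finite m w' (r + η)).toFinset m}
  have hZ : ∀ w', μ.real (Z w') ≤ 4 * ε₁ * (m + 1) / (q + 1) * μ.real D := by
    intro w'
    refine meas_bad_le act hD hDf (π w') _ m q (fun u _ i _ => hmp _) h1 ?_ ?_
    · intro u hu i hi
      rw [Set.Finite.mem_toFinset] at hu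
      obtain ⟨p0, -, -, p3⟩ := hπ w' u hu
      exact h2 _ (path_mem_Bl p0 p3 i hi)
    · refine ⟨1, ?_⟩
      rw [Set.Finite.mem_toFinset]
      exact M.one_mem_Ends m w' (by positivity)
  have hsub : {x ∈ D | x ∈ D₀ ∧ ¬ ∀ w, ‖w‖ ≤ R →
      (Ends θ A m w r).ncard ≤ 2 * c₀ * (Ends θ' A' (K * m) (T x w) r'').ncard} ⊆
      ⋃ w' ∈ N, Z w' := by
    rintro x ⟨hx, hx0, hbad⟩
    by_contra hcon
    rw [Set.mem_iUnion₂] at hcon
    push Not at hcon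
    refine hbad fun w hw => ?_
    obtain ⟨w', hw', hww⟩ := hN w hw
    have hnz := hcon w' hw'
    refine transfer_net M M' (Φ := fun g => F (act x g)) (fun g a ha => ?_) (hc x)
      (fun g => act x g ∈ D₀) (T x) (hT x hx0) (δ := δ) (η := η) (q := q) (fun g hg hgB => ?_)
      hr hη hq π hπ hww ?_ hr''
    · rw [hactm]
      exact hF _ a ha
    · rw [hact1]
      exact hlin x hx0 g hgB hg
    · by_contra hlt
      push Not at hlt
      exact hnz ⟨hx, hlt⟩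
  have hfin : μ (⋃ w' ∈ N, Z w') ≠ ∞ := by
    refine ne_top_of_le_ne_top hDf (measure_mono ?_)
    intro x hx
    rw [Set.mem_iUnion₂] at hx
    obtain ⟨w', -, h⟩ := hx
    exact h.1
  refine (measureReal_mono hsub hfin).trans ?_
  refine (measureReal_biUnion_finset_le N Z).trans ?_
  refine (Finset.sum_le_sum fun w' _ => hZ w').trans ?_
  rw [Finset.sum_const, nsmul_eq_mul]

end Vale.Agent.P188.H530
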