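import Vale.Agent.P188.H530.Occ

/-! P188, block PSI: most points transfer end points (asymptotic form). -/

universe u v w w' x

open Finset MeasureTheory
open scoped ENNReal

namespace Vale.Agent.P188.H530

open Vale.Agent.P188.H789 (Bl PathTo Bl_mono mul_mem_Bl mem_Bl_one one_mem_Bl)

variable {G : Type u} [Group G] {G' : Type v} [Group G']
  {E : Type w} [NormedAddCommGroup E] [NormedSpace ℝ E]
  {E' : Type w'} [NormedAddCommGroup E'] [NormedSpace ℝ E']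
  {X : Type x} [MeasurableSpace X]

/-- A right `G`-space with an invariant measure, and a map `F` to `G'` which is Lipschitz along
the orbits and at most `c₀`-to-one on them. -/
structure OrbMap (A : Set G) (A' : Set G') (c₀ K : ℕ) (μ : Measure X) (act : X → G → X)
    (F : X → G') : Prop where
  act_one : ∀ x, act x 1 = x
  act_mul : ∀ x g h, act x (g * h) = act (act x g) h
  mp : ∀ g, MeasurePreserving (fun x => act x g) μ μ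
  step : ∀ x, ∀ a ∈ A, (F x)⁻¹ * F (act x a) ∈ Bl A' K
  fib : ∀ x y, {g | F (act x g) = y}.Finite ∧ {g | F (act x g) = y}.ncard ≤ c₀

/-- `F` is affine with linear part `T x` up to `δ`, at distance at most `R`, on the subset `D₀`
of `D`, which has almost full measure; `D` is almost invariant. -/
structure LinAt (θ : G → E) (A : Set G) (θ' : G' → E') (L : ℝ) (μ : Measure X)
    (act : X → G → X) (F : X → G') (T : X → E →L[ℝ] E') (D D₀ : Set X) (R : ℕ) (δ ε₁ : ℝ) :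
    Prop where
  T_le : ∀ x ∈ D₀, ‖T x‖ ≤ L
  meas : MeasurableSet D
  fin : μ D ≠ ∞
  most : μ.real (D \ D₀) ≤ ε₁ * μ.real D
  inv : ∀ g ∈ Bl A R, μ.real {x ∈ D | act x g ∉ D} ≤ ε₁ * μ.real D
  lin : ∀ x ∈ D₀, ∀ g ∈ Bl A R, act x g ∈ D₀ →
    ‖θ' (F (act x g)) - θ' (F x) - T x (θ g)‖ ≤ δ

theorem num_occ {N k a n q : ℕ} {ε₁ κ κ₂ sP μD : ℝ} (hN : N ≤ k) (hn : 1 ≤ n) (hκ₂ : 0 < κ₂)
    (hε₁ : 0 ≤ ε₁) (hsP : 0 ≤ sP) (hμ : 0 ≤ μD) (hq : κ₂ * n < q + 1)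
    (h : ε₁ * (4 * ((k : ℝ) + 1) * (sP + 1)) ≤ κ * κ₂) :
    (N : ℝ) * (4 * ε₁ * (((a * n : ℕ) : ℝ) + 1) / ((q : ℝ) + 1) * μD) ≤
      (κ / (sP + 1)) * ((a : ℝ) + 1) * μD := by
  have hn1 : (1 : ℝ) ≤ n := by exact_mod_cast hn
  have h7 : (N : ℝ) ≤ k + 1 := by
    have : (N : ℝ) ≤ k := by exact_mod_cast hN
    linarith
  have h8 : 4 * ε₁ * (((a * n : ℕ) : ℝ) + 1) / ((q : ℝ) + 1) ≤ 4 * ε₁ * ((a : ℝ) + 1) / κ₂ := by
    rw [div_le_div_iff₀ (by positivity) hκ₂]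
    push_cast
    have h9 : (a : ℝ) * n + 1 ≤ ((a : ℝ) + 1) * n := by nlinarith
    calc 4 * ε₁ * ((a : ℝ) * n + 1) * κ₂ ≤ 4 * ε₁ * (((a : ℝ) + 1) * n) * κ₂ := by gcongr
      _ = 4 * ε₁ * ((a : ℝ) + 1) * (κ₂ * n) := by ring
      _ ≤ 4 * ε₁ * ((a : ℝ) + 1) * ((q : ℝ) + 1) := by gcongr
  calc (N : ℝ) * (4 * ε₁ * (((a * n : ℕ) : ℝ) + 1) / ((q : ℝ) + 1) * μD)
      ≤ (k + 1) * (4 * ε₁ * ((a : ℝ) + 1) / κ₂ * μD) := by gcongr
    _ = (ε₁ * (4 * ((k : ℝ) + 1) * (sP + 1))) * (((a : ℝ) + 1) / (κ₂ * (sP + 1))) * μD := by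
        field_simp
    _ ≤ (κ * κ₂) * (((a : ℝ) + 1) / (κ₂ * (sP + 1))) * μD := by gcongr
    _ = _ := by field_simp

theorem occ {θ : G → E} {A : Set G} (M : Mod θ A) {θ' : G' → E'} {A' : Set G'}
    (M' : Mod θ' A') [FiniteDimensional ℝ E] {c₀ K : ℕ} {L W C ε κ : ℝ} (hL : 0 ≤ L)
    (hC1 : 1 ≤ C) (hCL : L ≤ C) (hε : 0 < ε) (hκ : 0 < κ) (P : Finset (ℕ × ℝ))
    (hP : ∀ p ∈ P, 1 ≤ p.1 ∧ 1 ≤ p.2) :
    ∃ (ε₁ : ℝ) (Λ n₀ : ℕ), 0 < ε₁ ∧ ∀ n : ℕ, n₀ ≤ n →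
      ∀ (X : Type x) [MeasurableSpace X] (μ : Measure X) (act : X → G → X) (F : X → G')
        (T : X → E →L[ℝ] E') (D D₀ : Set X), OrbMap A A' c₀ K μ act F →
        LinAt θ A θ' L μ act F T D D₀ (Λ * n) (ε₁ * n) ε₁ →
        μ.real {x ∈ D | x ∈ D₀ ∧ ¬ TrP θ A θ' A' (2 * c₀) K C W ε n P (T x)} ≤
          κ * μ.real D := by
  classical
  obtain ⟨k, hk⟩ := exists_net_smul E W (η := ε / (8 * (L + 1))) (by positivity)
  have hKℓ : 0 ≤ (K : ℝ) * M'.ℓ := mul_nonneg (Nat.cast_nonneg _) M'.ℓ0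
  have hLℓ : 0 ≤ L * M.ℓ := mul_nonneg hL M.ℓ0
  set κ₂ := min 1 (ε / (4 * (K * M'.ℓ + L * M.ℓ + 1))) with hκ₂
  have hκ₂0 : 0 < κ₂ := lt_min one_pos (by positivity)
  have hκ₂1 : κ₂ ≤ 1 := min_le_left _ _
  have hκ₂2 : (K * M'.ℓ + L * M.ℓ) * κ₂ ≤ ε / 4 := by
    have h1 : κ₂ ≤ ε / (4 * (K * M'.ℓ + L * M.ℓ + 1)) := min_le_right _ _
    rw [le_div_iff₀ (by positivity)] at h1
    nlinarith
  set sP : ℝ := ∑ p ∈ P, ((p.1 : ℝ) + 1) with hsP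
  have hsP0 : 0 ≤ sP := Finset.sum_nonneg fun p _ => by positivity
  set ε₁ := min (ε / 4) (κ * κ₂ / (4 * ((k : ℝ) + 1) * (sP + 1))) with hε₁
  have hε₁0 : 0 < ε₁ := lt_min (by positivity) (by positivity)
  have hε₁1 : ε₁ ≤ ε / 4 := min_le_left _ _
  have hε₁2 : ε₁ * (4 * ((k : ℝ) + 1) * (sP + 1)) ≤ κ * κ₂ := by
    have h1 : ε₁ ≤ κ * κ₂ / (4 * ((k : ℝ) + 1) * (sP + 1)) := min_le_right _ _
    rwa [le_div_iff₀ (by positivity)] at h1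
  obtain ⟨n₁, hn₁⟩ := exists_nat_ge (4 * (K * M'.ℓ) / ε)
  refine ⟨ε₁, P.sup Prod.fst, max n₁ 1, hε₁0, fun n hn X _ μ act F T D D₀ hO hLin => ?_⟩
  obtain ⟨hnn1, hnn2⟩ := max_le_iff.mp hn
  have hn1 : (1 : ℝ) ≤ n := by exact_mod_cast hnn2
  have hn0 : (0 : ℝ) < n := by linarith
  have hKn : K * M'.ℓ ≤ ε / 4 * n := by
    have h3 : (n₁ : ℝ) ≤ n := by exact_mod_cast hnn1
    have := hn₁.trans h3
    rw [div_le_iff₀ hε] at this
    linarith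
  obtain ⟨N, hNk, hN⟩ := hk n hnn2
  have hΛ : ∀ p ∈ P, p.1 * n ≤ P.sup Prod.fst * n := fun p hp =>
    Nat.mul_le_mul_right _ (Finset.le_sup (f := Prod.fst) hp)
  -- one pair
  have hone : ∀ p ∈ P, μ.real {x ∈ D | x ∈ D₀ ∧
      ¬ Tr θ A θ' A' (2 * c₀) K C W ε n (p.1 * n) (p.2 * ε * n) (T x)} ≤
      (κ / (sP + 1)) * ((p.1 : ℝ) + 1) * μ.real D := by
    intro p hp
    obtain ⟨hp1, hp2⟩ := hP p hp
    have hp20 : 0 ≤ p.2 := by linarith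
    have hq1 : (⌊κ₂ * n⌋₊ : ℝ) ≤ κ₂ * n := Nat.floor_le (by positivity)
    have hq2 : κ₂ * n < ⌊κ₂ * n⌋₊ + 1 := Nat.lt_floor_add_one _
    have hqm : ⌊κ₂ * n⌋₊ ≤ p.1 * n := by
      have h3 : (⌊κ₂ * n⌋₊ : ℝ) ≤ n := by nlinarith
      have h4 : ⌊κ₂ * n⌋₊ ≤ n := by exact_mod_cast h3
      exact h4.trans (Nat.le_mul_of_pos_left _ hp1)
    have hη : 0 ≤ ε / (8 * (L + 1)) * n := by positivity
    have hLη : L * (ε / (8 * (L + 1)) * n) ≤ ε / 8 * n := by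
      have : L * (ε / (8 * (L + 1))) ≤ ε / 8 := by
        rw [mul_div_assoc', div_le_div_iff₀ (by positivity) (by positivity)]
        nlinarith
      nlinarith
    have h := occ_one M M' act hO.act_one hO.act_mul hO.mp F hO.step hO.fib T hLin.T_le
      hLin.meas hLin.fin (m := p.1 * n) (q := ⌊κ₂ * n⌋₊) (r := p.2 * ε * n)
      (r'' := C * (p.2 * ε * n + ε * n)) hLin.most
      (fun g hg => hLin.inv g (Bl_mono (hΛ p hp) hg))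
      (fun x hx g hg hxg => hLin.lin x hx g (Bl_mono (hΛ p hp) hg) hxg)
      (by positivity) hη hqm N hN (by
        have h3 : (K * M'.ℓ + L * M.ℓ) * (⌊κ₂ * n⌋₊ : ℝ) ≤ ε / 4 * n := by
          calc (K * M'.ℓ + L * M.ℓ) * (⌊κ₂ * n⌋₊ : ℝ) ≤ (K * M'.ℓ + L * M.ℓ) * (κ₂ * n) := by
                gcongr
            _ = ((K * M'.ℓ + L * M.ℓ) * κ₂) * n := by ring
            _ ≤ ε / 4 * n := by gcongr
        have h4 : ε₁ * n ≤ ε / 4 * n := by gcongr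
        have h5 : L * (p.2 * ε * n) ≤ C * (p.2 * ε * n) := by gcongr
        have h6 : 1 * (ε * n) ≤ C * (ε * n) := by gcongr
        linarith)
    refine h.trans ?_
    exact num_occ hNk hnn2 hκ₂0 hε₁0.le hsP0 measureReal_nonneg hq2 hε₁2
  have hsub : {x ∈ D | x ∈ D₀ ∧ ¬ TrP θ A θ' A' (2 * c₀) K C W ε n P (T x)} ⊆
      ⋃ p ∈ P, {x ∈ D | x ∈ D₀ ∧
        ¬ Tr θ A θ' A' (2 * c₀) K C W ε n (p.1 * n) (p.2 * ε * n) (T x)} := by
    rintro x ⟨hx, hx0, hbad⟩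
    unfold TrP at hbad
    push Not at hbad
    obtain ⟨p, hp, hbad⟩ := hbad
    rw [Set.mem_iUnion₂]
    exact ⟨p, hp, hx, hx0, hbad⟩
  refine (measureReal_mono hsub ?_).trans ?_
  · refine ne_top_of_le_ne_top hLin.fin (measure_mono ?_)
    intro x hx
    rw [Set.mem_iUnion₂] at hx
    obtain ⟨p, -, h⟩ := hx
    exact h.1
  · refine (measureReal_biUnion_finset_le P _).trans ((Finset.sum_le_sum hone).trans ?_)
    rw [← Finset.sum_mul, ← Finset.mul_sum, ← hsP]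
    have hμ : 0 ≤ μ.real D := measureReal_nonneg
    have h9 : κ / (sP + 1) * sP ≤ κ := by
      rw [div_mul_eq_mul_div, div_le_iff₀ (by positivity)]
      nlinarith
    gcongr

end Vale.Agent.P188.H530
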