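import Vale.Agent.P188.H530.Refine

/-! P188, block PSI: the scalars are `1`. -/

universe u v w w'

open Finset

namespace Vale.Agent.P188.H530

open Vale.Agent.P188.H789 (Bl PathTo Bl_mono mul_mem_Bl mem_Bl_one one_mem_Bl)

variable {G : Type u} [Group G] {G' : Type v} [Group G']
  {E : Type w} [NormedAddCommGroup E] [NormedSpace ℝ E]
  {E' : Type w'} [NormedAddCommGroup E'] [NormedSpace ℝ E']

/-- `T` transfers end points at scale `n`, for paths of `m` steps at distance `r`. -/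
def Tr (θ : G → E) (A : Set G) (θ' : G' → E') (A' : Set G') (c K : ℕ) (C W ε : ℝ) (n m : ℕ)
    (r : ℝ) (T : E →L[ℝ] E') : Prop :=
  ∀ w : E, ‖w‖ ≤ W * n →
    (Ends θ A m w r).ncard ≤ c * (Ends θ' A' (K * m) (T w) (C * (r + ε * n))).ncard

theorem exists_exp_gt (A : ℝ) (k : ℕ) {s : ℝ} (hs : 0 < s) :
    ∃ n₀ : ℕ, ∀ n : ℕ, n₀ ≤ n → A * ((n : ℝ) + 1) ^ k < Real.exp (s * n) := by
  have h1 : Filter.Tendsto (fun x : ℝ => x ^ k * Real.exp (-x)) Filter.atTop (nhds 0) :=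
    Real.tendsto_pow_mul_exp_neg_atTop_nhds_zero k
  have h2 : Filter.Tendsto (fun n : ℕ => s * ((n : ℝ) + 1)) Filter.atTop Filter.atTop :=
    Filter.Tendsto.const_mul_atTop hs
      (Filter.tendsto_atTop_add_const_right _ _ tendsto_natCast_atTop_atTop)
  have h3 := h1.comp h2
  have hpos : (0 : ℝ) < s ^ k * Real.exp (-s) / (|A| + 1) := by positivity
  have h4 := (h3.eventually (gt_mem_nhds hpos)).exists_forall_of_atTop
  obtain ⟨n₀, hn₀⟩ := h4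
  refine ⟨n₀, fun n hn => ?_⟩
  have h5 := hn₀ n hn
  simp only [Function.comp] at h5
  rw [lt_div_iff₀ (by positivity), mul_pow] at h5
  have e1 : Real.exp (-(s * ((n : ℝ) + 1))) = Real.exp (-s) * Real.exp (-(s * n)) := by
    rw [← Real.exp_add]; ring_nf
  rw [e1] at h5
  have h6 : (s ^ k * Real.exp (-s)) * (((n : ℝ) + 1) ^ k * Real.exp (-(s * n)) * (|A| + 1)) <
      (s ^ k * Real.exp (-s)) * 1 := by
    calc _ = s ^ k * ((n : ℝ) + 1) ^ k * (Real.exp (-s) * Real.exp (-(s * n))) * (|A| + 1) := by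
          ring
      _ < _ := by rw [mul_one]; exact h5
  have h7 : ((n : ℝ) + 1) ^ k * Real.exp (-(s * n)) * (|A| + 1) < 1 :=
    lt_of_mul_lt_mul_left h6 (by positivity)
  have h8 : A * ((n : ℝ) + 1) ^ k ≤ (|A| + 1) * ((n : ℝ) + 1) ^ k := by
    gcongr
    have := le_abs_self A
    linarith
  have h9 : Real.exp (-(s * n)) * Real.exp (s * n) = 1 := by
    rw [← Real.exp_add]; simp
  have h10 : (|A| + 1) * ((n : ℝ) + 1) ^ k < Real.exp (s * n) := by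
    have := mul_lt_mul_of_pos_right h7 (Real.exp_pos (s * n))
    calc (|A| + 1) * ((n : ℝ) + 1) ^ k
        = ((n : ℝ) + 1) ^ k * (Real.exp (-(s * n)) * Real.exp (s * n)) * (|A| + 1) := by
          rw [h9]; ring
      _ = ((n : ℝ) + 1) ^ k * Real.exp (-(s * n)) * (|A| + 1) * Real.exp (s * n) := by ring
      _ < _ := by rwa [one_mul] at this
  exact h8.trans_lt h10

/-- One step of the growth argument. -/
theorem psi_step {θ : G → E} {A : Set G} (M : Mod θ A) {b : E →L[ℝ] ℝ} (c' : Crossed θ b)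
    (hu : c'.u ∈ A) {D₁ : ℝ} (hD₁0 : 0 ≤ D₁) (hD₁ : ∀ a ∈ A, ‖c'.D a‖ ≤ D₁)
    {θ' : G' → E'} {A' : Set G'} {c K : ℕ} {C W ε : ℝ} (hC : 1 ≤ C) (hε : 0 < ε)
    {n m : ℕ} {r : ℝ} (hr : 0 ≤ r) {w : E} (hwW : ‖w‖ ≤ W)
    {T₂ : E →L[ℝ] E'} {T₁' : E' →L[ℝ] E} (hT₂ : ‖T₂ w‖ ≤ W)
    (h2 : Tr θ A θ' A' c K C W ε n m r T₂)
    (h1 : Tr θ' A' θ A c K C W ε n (K * m) (C * (r + ε * n)) T₁')
    {d : ℝ} (hd0 : 0 ≤ d) (hd1 : d ≤ 1) (hd : ‖T₁' (T₂ w) - d • w‖ ≤ ε)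
    (hbw : 0 ≤ b w) {N : ℕ}
    (hN : 2 * ‖(n : ℝ) • w‖ + (C * (C * (r + ε * n) + ε * n) + ε * n) ≤ N) {c₀ : ℝ}
    (hc₀ : 0 < c₀)
    (hK : 4 * ((K * (K * m) + N : ℕ) : ℝ) * D₁ *
      Real.exp (‖b‖ * ((C * (C * (r + ε * n) + ε * n) + ε * n) + 2 * M.r₀)) <
      ‖c'.D c'.u‖ * Real.exp c₀)
    {Q : ℕ} (hQ : c₀ + Q * (‖b‖ * M.ℓ + 2) ≤ (1 - d) * b ((n : ℝ) • w) - ‖b‖ * M.r₀)
    {R : ℕ} (hR : ‖(n : ℝ) • w‖ + (C * (C * (r + ε * n) + ε * n) + ε * n) ≤ R)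
    {m' : ℕ} {r' : ℝ} (hm' : K * (K * m) + N + 2 * (N + 1) ≤ m')
    (hr' : (C * (C * (r + ε * n) + ε * n) + ε * n) + 2 * M.r₀ ≤ r') :
    (Ends θ A m ((n : ℝ) • w) r).ncard * 2 ^ (Q + 1) ≤
      c * c * (M.Cs * (R + 1) ^ M.Ds) * (Ends θ A m' ((n : ℝ) • w) r').ncard := by
  have hn0 : (0 : ℝ) ≤ n := Nat.cast_nonneg _
  have hnw : ‖(n : ℝ) • w‖ ≤ W * n := by
    rw [norm_smul, Real.norm_of_nonneg hn0, mul_comm]
    gcongr
  have hnTw : ‖T₂ ((n : ℝ) • w)‖ ≤ W * n := by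
    rw [map_smul, norm_smul, Real.norm_of_nonneg hn0, mul_comm]
    gcongr
  set r₂ := C * (C * (r + ε * n) + ε * n) + ε * n with hr₂
  have a1 := h2 _ hnw
  have a2 := h1 _ hnTw
  have a3 : (Ends θ A (K * (K * m)) (T₁' (T₂ ((n : ℝ) • w))) (C * (C * (r + ε * n) + ε * n))).ncard
      ≤ (Ends θ A (K * (K * m)) (d • ((n : ℝ) • w)) r₂).ncard := by
    refine M.ncard_change le_rfl (δ := ε * n) ?_ le_rfl
    rw [map_smul, map_smul, smul_comm d, ← smul_sub, norm_smul, Real.norm_of_nonneg hn0, mul_comm]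
    gcongr
  have hr₂0 : 0 ≤ r₂ := by positivity
  have hbW : 0 ≤ b ((n : ℝ) • w) := by rw [map_smul, smul_eq_mul]; positivity
  have a4 := growth c' M.add M.hr₀ M.seg M.one hu M.ℓ0 M.hℓ hD₁0 hD₁ hd0 hd1 hr₂0 hbW hN hc₀ hK hQ
    (M.Ends_finite _ _ _) (M.Ends_finite _ _ _) (P := M.Cs * (R + 1) ^ M.Ds)
    (M.image_ncard_le (by
      refine le_trans (add_le_add ?_ le_rfl) hR
      rw [norm_smul d, Real.norm_of_nonneg hd0]
      calc d * ‖(n : ℝ) • w‖ ≤ 1 * ‖(n : ℝ) • w‖ := by gcongr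
        _ = _ := one_mul _))
  have a5 : (Ends θ A (K * (K * m) + N + 2 * (N + 1)) ((n : ℝ) • w) (r₂ + 2 * M.r₀)).ncard ≤
      (Ends θ A m' ((n : ℝ) • w) r').ncard :=
    M.ncard_mono hm' (Near_mono hr')
  calc (Ends θ A m ((n : ℝ) • w) r).ncard * 2 ^ (Q + 1)
      ≤ (c * (c * (Ends θ A (K * (K * m)) (d • ((n : ℝ) • w)) r₂).ncard)) * 2 ^ (Q + 1) := by
        gcongr
        exact a1.trans (Nat.mul_le_mul_left _ (a2.trans (Nat.mul_le_mul_left _ a3)))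
    _ = c * c * ((Ends θ A (K * (K * m)) (d • ((n : ℝ) • w)) r₂).ncard * 2 ^ (Q + 1)) := by ring
    _ ≤ c * c * (M.Cs * (R + 1) ^ M.Ds *
        (Ends θ A (K * (K * m) + N + 2 * (N + 1)) ((n : ℝ) • w) (r₂ + 2 * M.r₀)).ncard) := by
        gcongr
    _ ≤ c * c * (M.Cs * (R + 1) ^ M.Ds * (Ends θ A m' ((n : ℝ) • w) r').ncard) := by
        gcongr
    _ = _ := by ring

end Vale.Agent.P188.H530
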