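import Vale.Agent.P188.H530.Psi

/-! P188, block PSI: the scalars are `1` (asymptotic form). -/

universe u v w w'

open Finset

namespace Vale.Agent.P188.H530

open Vale.Agent.P188.H789 (Bl PathTo Bl_mono mul_mem_Bl mem_Bl_one one_mem_Bl)

/-- lengths of the paths -/
def aseq (K N₀ : ℕ) : ℕ → ℕ
  | 0 => 1
  | j + 1 => K * K * aseq K N₀ j + (3 * N₀ + 2)

/-- distances of the paths to the segment -/
noncomputable def Sseq (C : ℝ) : ℕ → ℝ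
  | 0 => 1
  | j + 1 => C * (C * (Sseq C j + 1) + 1) + 2

theorem one_le_Sseq {C : ℝ} (hC : 1 ≤ C) (j : ℕ) : 1 ≤ Sseq C j := by
  induction j with
  | zero => exact le_rfl
  | succ j ih =>
    rw [Sseq]
    have : 0 ≤ C * (C * (Sseq C j + 1) + 1) := by positivity
    linarith

theorem Sseq_mono {C : ℝ} (hC : 1 ≤ C) {i j : ℕ} (h : i ≤ j) : Sseq C i ≤ Sseq C j := by
  induction j, h using Nat.le_induction with
  | base => exact le_rfl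
  | succ j _ ih =>
    refine ih.trans ?_
    rw [Sseq]
    have := one_le_Sseq hC j
    have h1 : Sseq C j + 1 ≤ C * (Sseq C j + 1) := by nlinarith
    have h2 : C * (Sseq C j + 1) + 1 ≤ C * (C * (Sseq C j + 1) + 1) := by nlinarith
    linarith

theorem aseq_mono {K N₀ : ℕ} (hK : 1 ≤ K) {i j : ℕ} (h : i ≤ j) : aseq K N₀ i ≤ aseq K N₀ j := by
  induction j, h using Nat.le_induction with
  | base => exact le_rfl
  | succ j _ ih =>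
    refine ih.trans ?_
    rw [aseq]
    have : 1 * aseq K N₀ j ≤ K * K * aseq K N₀ j := Nat.mul_le_mul_right _ (by nlinarith)
    omega

variable {G : Type u} [Group G] {G' : Type v} [Group G']
  {E : Type w} [NormedAddCommGroup E] [NormedSpace ℝ E]
  {E' : Type w'} [NormedAddCommGroup E'] [NormedSpace ℝ E']

/-- numerical hypotheses of one step, first inequality -/
theorem num_K {β κ σ nb r₀ D₁ Du : ℝ} {K N₀ n a a' aJ : ℕ} {S ε : ℝ} (hnb : 0 ≤ nb) (hκ : 0 < κ)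
    (hD₁0 : 0 ≤ D₁) (hDu : 0 < Du) (hσ0 : 0 ≤ σ)
    (hσ2 : σ ≤ κ * β / (16 * (nb + 1))) (hS : S * ε * n ≤ σ * n)
    (hbr₀ : 32 * (nb * r₀) ≤ κ * β * n)
    (ha : K * (K * (a * n)) + N₀ * n ≤ a' * n) (haJ : a' ≤ aJ)
    (h6 : 4 * (aJ : ℝ) * D₁ / Du * ((n : ℝ) + 1) ^ 1 < Real.exp (κ * β / 8 * n)) :
    4 * ((K * (K * (a * n)) + N₀ * n : ℕ) : ℝ) * D₁ *
      Real.exp (nb * (S * ε * n + 2 * r₀)) < Du * Real.exp (κ * β * n / 4) := by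
  have hn0 : (0 : ℝ) ≤ n := Nat.cast_nonneg _
  have h3 : nb * (S * ε * n + 2 * r₀) ≤ κ * β * n / 8 := by
    have h4 : nb * (S * ε * n) ≤ κ * β * n / 16 := by
      have h5 : (nb + 1) * σ ≤ κ * β / 16 := by
        rw [le_div_iff₀ (by positivity)] at hσ2
        rw [le_div_iff₀ (by norm_num)]
        linarith
      calc nb * (S * ε * n) ≤ nb * (σ * n) := by gcongr
        _ ≤ (nb + 1) * (σ * n) := by gcongr; linarith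
        _ = ((nb + 1) * σ) * n := by ring
        _ ≤ (κ * β / 16) * n := by gcongr
        _ = _ := by ring
    linarith
  have h7 : ((K * (K * (a * n)) + N₀ * n : ℕ) : ℝ) ≤ (aJ : ℝ) * (n + 1) := by
    have h9 : a' * n ≤ aJ * (n + 1) := Nat.mul_le_mul haJ (Nat.le_succ n)
    exact_mod_cast ha.trans h9
  calc 4 * ((K * (K * (a * n)) + N₀ * n : ℕ) : ℝ) * D₁ * Real.exp (nb * (S * ε * n + 2 * r₀))
      ≤ 4 * ((aJ : ℝ) * (n + 1)) * D₁ * Real.exp (κ * β * n / 8) := by gcongr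
    _ = Du * ((4 * (aJ : ℝ) * D₁ / Du) * ((n : ℝ) + 1) ^ 1) * Real.exp (κ * β * n / 8) := by
        field_simp
    _ < Du * Real.exp (κ * β / 8 * n) * Real.exp (κ * β * n / 8) := by gcongr
    _ = Du * Real.exp (κ * β * n / 4) := by
        rw [mul_assoc, ← Real.exp_add]
        ring_nf

/-- One step at scale `n`. -/
theorem psi_one {θ : G → E} {A : Set G} (M : Mod θ A) {b : E →L[ℝ] ℝ} (c' : Crossed θ b)
    (hu : c'.u ∈ A) {θ' : G' → E'} {A' : Set G'} {c K : ℕ} {C W : ℝ}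
    (hC : 1 ≤ C) {w : E} (hwW : ‖w‖ ≤ W) (hbw : 0 < b w) {κ : ℝ} (hκ : 0 < κ) {D₁ : ℝ}
    (hD₁0 : 0 ≤ D₁) (hD₁ : ∀ a ∈ A, ‖c'.D a‖ ≤ D₁) {ε σ : ℝ} (hε : 0 < ε) (hσ0 : 0 < σ)
    (hσ1 : σ ≤ 1) (hσ2 : σ ≤ κ * b w / (16 * (‖b‖ + 1))) {n N₀ R₀ aJ : ℕ}
    (hN₀ : 2 * ‖w‖ + 1 ≤ N₀) (hR₀ : ‖w‖ + 1 ≤ R₀) (hn : 1 ≤ n)
    (hr₀n : 2 * M.r₀ ≤ ε * n) (hbr₀ : 32 * (‖b‖ * M.r₀) ≤ κ * b w * n)
    (h6 : 4 * (aJ : ℝ) * D₁ / ‖c'.D c'.u‖ * ((n : ℝ) + 1) ^ 1 < Real.exp (κ * b w / 8 * n))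
    {Q : ℕ} (hQ : Q * (‖b‖ * M.ℓ + 2) ≤ κ * b w * n / 2) {a : ℕ} (haJ : K * K * a +
      (3 * N₀ + 2) ≤ aJ) {S : ℝ} (hS0 : 0 ≤ S)
    (hS : (C * (C * (S + 1) + 1) + 2) * ε ≤ σ)
    {T₂ : E →L[ℝ] E'} {T₁' : E' →L[ℝ] E} (hT₂ : ‖T₂ w‖ ≤ W)
    (h2 : Tr θ A θ' A' c K C W ε n (a * n) (S * ε * n) T₂)
    (h1 : Tr θ' A' θ A c K C W ε n (K * (a * n)) (C * (S * ε * n + ε * n)) T₁')
    {d : ℝ} (hd0 : 0 ≤ d) (hd1 : d ≤ 1) (hdκ : d ≤ 1 - κ) (hd : ‖T₁' (T₂ w) - d • w‖ ≤ ε) :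
    (Ends θ A (a * n) ((n : ℝ) • w) (S * ε * n)).ncard * 2 ^ (Q + 1) ≤
      c * c * (M.Cs * (R₀ * n + 1) ^ M.Ds) *
        (Ends θ A ((K * K * a + (3 * N₀ + 2)) * n) ((n : ℝ) • w)
          ((C * (C * (S + 1) + 1) + 2) * ε * n)).ncard := by
  have hnpos : (1 : ℝ) ≤ n := by exact_mod_cast hn
  have hn0 : (0 : ℝ) < n := by linarith
  have hr2 : C * (C * (S * ε * n + ε * n) + ε * n) + ε * n =
      (C * (C * (S + 1) + 1) + 1) * ε * n := by ring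
  have hr2' : (C * (C * (S + 1) + 1) + 1) * ε * n ≤ σ * n := by
    have : (C * (C * (S + 1) + 1) + 1) * ε ≤ σ := by linarith
    gcongr
  have hnw : ‖(n : ℝ) • w‖ = n * ‖w‖ := by rw [norm_smul, Real.norm_of_nonneg hn0.le]
  have hσn : σ * n ≤ 1 * n := by gcongr
  have hKa : K * (K * (a * n)) + N₀ * n + 2 * (N₀ * n + 1) ≤ (K * K * a + (3 * N₀ + 2)) * n := by
    have e : (K * K * a + (3 * N₀ + 2)) * n = K * (K * (a * n)) + N₀ * n + 2 * (N₀ * n) + 2 * n := by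
      ring
    omega
  refine psi_step M c' hu hD₁0 hD₁ hC hε (r := S * ε * n) (by positivity) hwW hT₂
    h2 h1 hd0 hd1 hd hbw.le (N := N₀ * n) ?_ (c₀ := κ * b w * n / 4)
    (by positivity) ?_ (Q := Q) ?_ (R := R₀ * n) ?_ hKa ?_
  · rw [hr2, hnw]
    push_cast
    have : (2 * ‖w‖ + 1) * n ≤ N₀ * n := by gcongr
    linarith
  · rw [hr2]
    exact num_K (norm_nonneg _) hκ hD₁0 (norm_pos_iff.mpr c'.D_u) hσ0.le hσ2 hr2' hbr₀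
      (a' := K * K * a + (3 * N₀ + 2)) (by omega) haJ h6
  · rw [map_smul, smul_eq_mul]
    have h4 : κ * (n * b w) ≤ (1 - d) * (n * b w) := by
      gcongr
      linarith
    have h5 : 0 ≤ κ * b w * n := by positivity
    linarith
  · rw [hr2, hnw]
    push_cast
    have : (‖w‖ + 1) * n ≤ R₀ * n := by gcongr
    linarith
  · rw [hr2]
    linarith

/-- numerical contradiction at the end of the iteration -/
theorem num_final {Cs R₀ n aJ Ds J Q cc : ℕ} {γ : ℝ} (hCs : 1 ≤ Cs) (hγn : γ * n ≤ Q + 1)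
    (hγ : 0 ≤ γ)
    (h5 : (2 ^ (Q + 1)) ^ J ≤
      (cc * (Cs * (R₀ * n + 1) ^ Ds)) ^ J * (Cs ^ (R₀ * n + 1) * (aJ * n + 1) ^ Ds))
    (h10 : ((cc * (Cs * (R₀ + 1) ^ Ds) : ℕ) : ℝ) ^ J * (Cs * ((aJ : ℝ) + 1) ^ Ds) *
      ((n : ℝ) + 1) ^ (Ds * J + Ds) <
        Real.exp ((J * (γ * Real.log 2) - R₀ * Real.log Cs) * n)) : False := by
  have hlog2 : 0 < Real.log 2 := Real.log_pos (by norm_num)
  have h6 : (((2 ^ (Q + 1)) ^ J : ℕ) : ℝ) ≤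
      (((cc * (Cs * (R₀ * n + 1) ^ Ds)) ^ J * (Cs ^ (R₀ * n + 1) * (aJ * n + 1) ^ Ds) : ℕ) : ℝ) := by
    exact_mod_cast h5
  have hCs' : (1 : ℝ) ≤ Cs := by exact_mod_cast hCs
  have hlow : Real.exp (J * (γ * Real.log 2) * n) ≤ (((2 ^ (Q + 1)) ^ J : ℕ) : ℝ) := by
    have e2 : (((2 ^ (Q + 1)) ^ J : ℕ) : ℝ) = Real.exp (((Q : ℝ) + 1) * J * Real.log 2) := by
      rw [← pow_mul]
      push_cast
      rw [mul_comm _ (Real.log 2), Real.exp_mul, Real.exp_log (by norm_num)]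
      rw [← Real.rpow_natCast]
      push_cast
      rfl
    rw [e2]
    refine Real.exp_le_exp.mpr ?_
    have h7 : (γ * n) * (J * Real.log 2) ≤ ((Q : ℝ) + 1) * (J * Real.log 2) := by
      gcongr
    linarith
  have hup : (((cc * (Cs * (R₀ * n + 1) ^ Ds)) ^ J * (Cs ^ (R₀ * n + 1) * (aJ * n + 1) ^ Ds) : ℕ) : ℝ)
      ≤ (((cc * (Cs * (R₀ + 1) ^ Ds) : ℕ) : ℝ) ^ J * (Cs * ((aJ : ℝ) + 1) ^ Ds) *
      ((n : ℝ) + 1) ^ (Ds * J + Ds)) * Real.exp (R₀ * Real.log Cs * n) := by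
    have e3 : ((Cs : ℝ)) ^ (R₀ * n) = Real.exp (R₀ * Real.log Cs * n) := by
      have : (R₀ : ℝ) * Real.log Cs * n = Real.log Cs * ((R₀ * n : ℕ) : ℝ) := by
        push_cast; ring
      rw [this, Real.exp_mul, Real.exp_log (by linarith), Real.rpow_natCast]
    have h8 : (Cs : ℝ) * ((R₀ : ℝ) * n + 1) ^ Ds ≤
        (Cs * ((R₀ : ℝ) + 1) ^ Ds) * ((n : ℝ) + 1) ^ Ds := by
      rw [mul_assoc, ← mul_pow]
      gcongr
      nlinarith [(Nat.cast_nonneg R₀ : (0 : ℝ) ≤ R₀), (Nat.cast_nonneg n : (0 : ℝ) ≤ n)]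
    have h9 : ((aJ : ℝ) * n + 1) ^ Ds ≤ ((aJ : ℝ) + 1) ^ Ds * ((n : ℝ) + 1) ^ Ds := by
      rw [← mul_pow]
      gcongr
      nlinarith [(Nat.cast_nonneg aJ : (0 : ℝ) ≤ aJ), (Nat.cast_nonneg n : (0 : ℝ) ≤ n)]
    push_cast
    calc ((cc : ℝ) * ((Cs : ℝ) * ((R₀ : ℝ) * n + 1) ^ Ds)) ^ J *
          ((Cs : ℝ) ^ (R₀ * n + 1) * ((aJ : ℝ) * n + 1) ^ Ds)
        ≤ ((cc : ℝ) * ((Cs * ((R₀ : ℝ) + 1) ^ Ds) * ((n : ℝ) + 1) ^ Ds)) ^ J *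
          ((Cs : ℝ) ^ (R₀ * n + 1) *
            (((aJ : ℝ) + 1) ^ Ds * ((n : ℝ) + 1) ^ Ds)) := by
          gcongr
      _ = ((cc : ℝ) * (Cs * ((R₀ : ℝ) + 1) ^ Ds)) ^ J *
            (Cs * ((aJ : ℝ) + 1) ^ Ds) *
            ((n : ℝ) + 1) ^ (Ds * J + Ds) * (Cs : ℝ) ^ (R₀ * n) := by
          rw [pow_add, pow_add, pow_mul, pow_one]
          ring
      _ = _ := by rw [e3]
  have h11 : Real.exp (J * (γ * Real.log 2) * n) <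
      Real.exp ((J * (γ * Real.log 2) - R₀ * Real.log Cs) * n) *
        Real.exp (R₀ * Real.log Cs * n) := by
    refine (hlow.trans (h6.trans hup)).trans_lt ?_
    gcongr
  rw [← Real.exp_add] at h11
  have h12 := Real.exp_lt_exp.mp h11
  linarith

/-- The scalars are at least `1 - κ`. -/
theorem psi_lower {θ : G → E} {A : Set G} (M : Mod θ A) {b : E →L[ℝ] ℝ} (c' : Crossed θ b)
    (hu : c'.u ∈ A) {θ' : G' → E'} {A' : Set G'} {c K : ℕ} {C W : ℝ} (hK1 : 1 ≤ K)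
    (hC : 1 ≤ C) {w : E} (hwW : ‖w‖ ≤ W) (hbw : 0 < b w) {κ : ℝ} (hκ : 0 < κ) :
    ∃ (J N₀ : ℕ) (ε₀ : ℝ), 0 < ε₀ ∧ ∀ ε : ℝ, 0 < ε → ε ≤ ε₀ → ∃ n₀ : ℕ, ∀ n : ℕ, n₀ ≤ n →
      ∀ (T₂ : E →L[ℝ] E') (T₁' : E' →L[ℝ] E) (d : ℝ), 0 ≤ d → ‖T₂ w‖ ≤ W →
        (∀ j < J, Tr θ A θ' A' c K C W ε n (aseq K N₀ j * n) (Sseq C j * ε * n) T₂) →
        (∀ j < J, Tr θ' A' θ A c K C W ε n (K * (aseq K N₀ j * n))
          (C * (Sseq C j * ε * n + ε * n)) T₁') →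
        ‖T₁' (T₂ w) - d • w‖ ≤ ε → 1 - κ ≤ d := by
  -- constants
  obtain ⟨D₁, hD₁⟩ : ∃ D₁ : ℝ, ∀ a ∈ A, ‖c'.D a‖ ≤ D₁ := by
    obtain ⟨D₁, hD₁⟩ := (M.fin.image fun a => ‖c'.D a‖).bddAbove
    exact ⟨D₁, fun a ha => hD₁ ⟨a, ha, rfl⟩⟩
  have hD₁0 : 0 ≤ D₁ := (norm_nonneg _).trans (hD₁ 1 M.one)
  have hq : 0 < ‖b‖ * M.ℓ + 2 := by
    have := mul_nonneg (norm_nonneg b) M.ℓ0
    linarith
  set γ := κ * b w / (2 * (‖b‖ * M.ℓ + 2)) with hγ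
  have hγ0 : 0 < γ := by positivity
  obtain ⟨N₀, hN₀⟩ := exists_nat_ge (2 * ‖w‖ + 1)
  obtain ⟨R₀, hR₀⟩ := exists_nat_ge (‖w‖ + 1)
  have hlog2 : 0 < Real.log 2 := Real.log_pos (by norm_num)
  obtain ⟨J, hJ⟩ := exists_nat_gt ((R₀ * Real.log M.Cs) / (γ * Real.log 2))
  rw [div_lt_iff₀ (by positivity)] at hJ
  have hs0 : 0 < J * (γ * Real.log 2) - R₀ * Real.log M.Cs := by linarith
  obtain ⟨σ, hσ0, hσ1, hσ2⟩ : ∃ σ : ℝ, 0 < σ ∧ σ ≤ 1 ∧ σ ≤ κ * b w / (16 * (‖b‖ + 1)) :=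
    ⟨min 1 (κ * b w / (16 * (‖b‖ + 1))), lt_min one_pos (by positivity), min_le_left _ _,
      min_le_right _ _⟩
  have hSJ : 1 ≤ Sseq C J := one_le_Sseq hC J
  refine ⟨J, N₀, σ / Sseq C J, by positivity, fun ε hε hεε => ?_⟩
  have hSε : Sseq C J * ε ≤ σ := by
    rw [le_div_iff₀ (by linarith)] at hεε
    linarith
  -- largeness
  obtain ⟨n₁, hn₁⟩ := exists_exp_gt (((c * c * (M.Cs * (R₀ + 1) ^ M.Ds) : ℕ) : ℝ) ^ J *
    (M.Cs * ((aseq K N₀ J : ℝ) + 1) ^ M.Ds)) (M.Ds * J + M.Ds) hs0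
  obtain ⟨n₂, hn₂⟩ := exists_exp_gt (4 * (aseq K N₀ J : ℝ) * D₁ / ‖c'.D c'.u‖) 1
    (s := κ * b w / 8) (by positivity)
  obtain ⟨n₃, hn₃⟩ := exists_nat_ge (2 * M.r₀ / ε)
  obtain ⟨n₄, hn₄⟩ := exists_nat_ge (32 * (‖b‖ * M.r₀) / (κ * b w))
  refine ⟨max (max n₁ n₂) (max (max n₃ n₄) 1), fun n hn T₂ T₁' d hd0 hT₂ h2 h1 hd => ?_⟩
  simp only [max_le_iff] at hn
  obtain ⟨⟨hnn1, hnn2⟩, ⟨hnn3, hnn4⟩, hnn5⟩ := hn
  have hnpos : (1 : ℝ) ≤ n := by exact_mod_cast hnn5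
  have hn0 : (0 : ℝ) < n := by linarith
  have hr₀n : 2 * M.r₀ ≤ ε * n := by
    have h3 : (n₃ : ℝ) ≤ n := by exact_mod_cast hnn3
    have := hn₃.trans h3
    rw [div_le_iff₀ hε] at this
    linarith
  have hbr₀ : 32 * (‖b‖ * M.r₀) ≤ κ * b w * n := by
    have h3 : (n₄ : ℝ) ≤ n := by exact_mod_cast hnn4
    have := hn₄.trans h3
    rw [div_le_iff₀ (by positivity)] at this
    linarith
  by_contra hcon
  push Not at hcon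
  have hd1 : d ≤ 1 := by linarith
  have hQ1 : (⌊γ * n⌋₊ : ℝ) ≤ γ * n := Nat.floor_le (by positivity)
  have hQ2 : γ * n < ⌊γ * n⌋₊ + 1 := Nat.lt_floor_add_one _
  have hQ3 : (⌊γ * n⌋₊ : ℝ) * (‖b‖ * M.ℓ + 2) ≤ κ * b w * n / 2 := by
    calc (⌊γ * n⌋₊ : ℝ) * (‖b‖ * M.ℓ + 2) ≤ (γ * n) * (‖b‖ * M.ℓ + 2) := by gcongr
      _ = _ := by rw [hγ]; field_simp
  -- one step
  have step : ∀ j < J,
      (Ends θ A (aseq K N₀ j * n) ((n : ℝ) • w) (Sseq C j * ε * n)).ncard *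
          2 ^ (⌊γ * n⌋₊ + 1) ≤
        c * c * (M.Cs * (R₀ * n + 1) ^ M.Ds) *
          (Ends θ A (aseq K N₀ (j + 1) * n) ((n : ℝ) • w) (Sseq C (j + 1) * ε * n)).ncard := by
    intro j hj
    have hSj0 : 0 ≤ Sseq C j := by have := one_le_Sseq hC j; linarith
    have hSj1 : Sseq C (j + 1) * ε ≤ σ := by
      refine le_trans ?_ hSε
      have := Sseq_mono hC (show j + 1 ≤ J from hj)
      gcongr
    have haJ : aseq K N₀ (j + 1) ≤ aseq K N₀ J := aseq_mono hK1 hj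
    rw [Sseq] at hSj1 ⊢
    rw [aseq] at haJ ⊢
    exact psi_one M c' hu hC hwW hbw hκ hD₁0 hD₁ hε hσ0 hσ1 hσ2 hN₀ hR₀ hnn5 hr₀n hbr₀
      (hn₂ n hnn2) hQ3 haJ hSj0 hSj1 hT₂ (h2 j hj) (h1 j hj) hd0 hd1 hcon.le hd
  -- iteration
  have iter : ∀ j ≤ J,
      (Ends θ A (aseq K N₀ 0 * n) ((n : ℝ) • w) (Sseq C 0 * ε * n)).ncard *
        (2 ^ (⌊γ * n⌋₊ + 1)) ^ j ≤
        (c * c * (M.Cs * (R₀ * n + 1) ^ M.Ds)) ^ j *
          (Ends θ A (aseq K N₀ j * n) ((n : ℝ) • w) (Sseq C j * ε * n)).ncard := by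
    intro j
    induction j with
    | zero => intro _; simp
    | succ j ih =>
      intro hj
      have h3 := ih (by omega)
      have h4 := step j (by omega)
      rw [pow_succ (2 ^ (⌊γ * n⌋₊ + 1)) j, pow_succ (c * c * (M.Cs * (R₀ * n + 1) ^ M.Ds)) j,
        ← mul_assoc, mul_assoc _ (c * c * (M.Cs * (R₀ * n + 1) ^ M.Ds))]
      refine (Nat.mul_le_mul_right _ h3).trans ?_
      rw [mul_assoc]
      exact Nat.mul_le_mul_left _ h4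
  have hpos := M.ncard_pos (aseq K N₀ 0 * n) ((n : ℝ) • w) (r := Sseq C 0 * ε * n) (by
    have := one_le_Sseq hC 0
    positivity)
  have hupper := M.Ends_ncard_le (m := aseq K N₀ J * n) (w := (n : ℝ) • w)
    (r := Sseq C J * ε * n) (R := R₀ * n) (by
      rw [norm_smul, Real.norm_of_nonneg hn0.le]
      push_cast
      have h3 : Sseq C J * ε * n ≤ 1 * n := by
        gcongr
        linarith
      have : (‖w‖ + 1) * n ≤ R₀ * n := by gcongr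
      linarith)
  have h5 : (2 ^ (⌊γ * n⌋₊ + 1)) ^ J ≤
      (c * c * (M.Cs * (R₀ * n + 1) ^ M.Ds)) ^ J *
        (M.Cs ^ (R₀ * n + 1) * (aseq K N₀ J * n + 1) ^ M.Ds) := by
    calc (2 ^ (⌊γ * n⌋₊ + 1)) ^ J = 1 * (2 ^ (⌊γ * n⌋₊ + 1)) ^ J := (one_mul _).symm
      _ ≤ _ := Nat.mul_le_mul_right _ hpos
      _ ≤ _ := iter J le_rfl
      _ ≤ _ := Nat.mul_le_mul_left _ hupper
  exact num_final M.hCs hQ2.le hγ0.le h5 (hn₁ n hnn1)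

end Vale.Agent.P188.H530
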