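import Vale.Agent.P188.H530.Psi2

/-! P188, block PSI: two linear parts with the same ray structure are close. -/

universe u v w w'

open Finset Module

namespace Vale.Agent.P188.H530

open Vale.Agent.P188.H789 (Bl PathTo Bl_mono mul_mem_Bl mem_Bl_one one_mem_Bl)

variable {G : Type u} [Group G] {G' : Type v} [Group G']
  {E : Type w} [NormedAddCommGroup E] [NormedSpace ℝ E]
  {E' : Type w'} [NormedAddCommGroup E'] [NormedSpace ℝ E']

theorem Tr.mono {θ : G → E} {A : Set G} {θ' : G' → E'} {A' : Set G'} (M' : Mod θ' A') {c K : ℕ}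
    {C W ε ε' : ℝ} (hC : 0 ≤ C) (hε : ε ≤ ε') {n m : ℕ} {r : ℝ} {T : E →L[ℝ] E'}
    (h : Tr θ A θ' A' c K C W ε n m r T) : Tr θ A θ' A' c K C W ε' n m r T := by
  intro w hw
  refine (h w hw).trans (Nat.mul_le_mul_left _ ?_)
  exact M'.ncard_mono le_rfl (Near_mono (by gcongr))

/-- `T` transfers end points for all pairs (length, distance) in a finite list. -/
def TrP (θ : G → E) (A : Set G) (θ' : G' → E') (A' : Set G') (c K : ℕ) (C W ε : ℝ) (n : ℕ)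
    (P : Finset (ℕ × ℝ)) (T : E →L[ℝ] E') : Prop :=
  ∀ p ∈ P, Tr θ A θ' A' c K C W ε n (p.1 * n) (p.2 * ε * n) T

theorem TrP.mono {θ : G → E} {A : Set G} {θ' : G' → E'} {A' : Set G'} {c K : ℕ}
    {C W ε : ℝ} {n : ℕ} {P P' : Finset (ℕ × ℝ)} (hP : P' ⊆ P) {T : E →L[ℝ] E'}
    (h : TrP θ A θ' A' c K C W ε n P T) : TrP θ A θ' A' c K C W ε n P' T :=
  fun p hp => h p (hP hp)

/-- The list of pairs (length, distance) used by `psi_lower`. -/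
noncomputable def plist (K : ℕ) (C C₂ : ℝ) (J N₀ : ℕ) : Finset (ℕ × ℝ) :=
  (range J).image (fun j => (aseq K N₀ j, Sseq C j * C₂)) ∪
    (range J).image (fun j => (K * aseq K N₀ j, C * (Sseq C j + 1) * C₂))

theorem psi_lower' {θ : G → E} {A : Set G} (M : Mod θ A) {b : E →L[ℝ] ℝ} (c' : Crossed θ b)
    (hu : c'.u ∈ A) {θ' : G' → E'} {A' : Set G'} (M' : Mod θ' A') {c K : ℕ} {C W : ℝ}
    (hK1 : 1 ≤ K) (hC : 1 ≤ C) {w : E} (hwW : ‖w‖ ≤ W) (hbw : 0 < b w) {κ C₂ : ℝ} (hκ : 0 < κ)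
    (hC₂ : 1 ≤ C₂) :
    ∃ (P : Finset (ℕ × ℝ)) (ε₀ : ℝ), 0 < ε₀ ∧ (∀ p ∈ P, 1 ≤ p.1 ∧ 1 ≤ p.2) ∧
      ∀ ε : ℝ, 0 < ε → ε ≤ ε₀ → ∃ n₀ : ℕ, ∀ n : ℕ, n₀ ≤ n →
      ∀ (T₂ : E →L[ℝ] E') (T₁' : E' →L[ℝ] E) (d : ℝ), 0 ≤ d → ‖T₂ w‖ ≤ W →
        TrP θ A θ' A' c K C W ε n P T₂ → TrP θ' A' θ A c K C W ε n P T₁' →
        ‖T₁' (T₂ w) - d • w‖ ≤ C₂ * ε → 1 - κ ≤ d := by
  obtain ⟨J, N₀, ε₀, hε₀, H⟩ := psi_lower M c' hu (θ' := θ') (A' := A') (c := c) hK1 hC hwW hbw hκ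
  have hC₂0 : 0 < C₂ := by linarith
  have hC0 : 0 < C := by linarith
  refine ⟨plist K C C₂ J N₀, ε₀ / C₂, by positivity, ?_, fun ε hε hεε => ?_⟩
  · intro p hp
    rw [plist, Finset.mem_union, Finset.mem_image, Finset.mem_image] at hp
    rcases hp with ⟨j, -, rfl⟩ | ⟨j, -, rfl⟩
    · have := one_le_Sseq hC j
      have h3 : 1 ≤ aseq K N₀ j := aseq_mono hK1 (Nat.zero_le j)
      refine ⟨h3, ?_⟩
      simp only
      nlinarith
    · have h1 := one_le_Sseq hC j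
      have h3 : 1 ≤ aseq K N₀ j := aseq_mono hK1 (Nat.zero_le j)
      refine ⟨Nat.mul_pos hK1 h3, ?_⟩
      simp only
      have h2 : 1 ≤ C * (Sseq C j + 1) := by nlinarith
      nlinarith
  have hεε' : C₂ * ε ≤ ε₀ := by
    rw [le_div_iff₀ hC₂0] at hεε
    linarith
  obtain ⟨n₀, hn₀⟩ := H (C₂ * ε) (by positivity) hεε'
  refine ⟨n₀, fun n hn T₂ T₁' d hd0 hT₂ h2 h1 hd => hn₀ n hn T₂ T₁' d hd0 hT₂ ?_ ?_ hd⟩
  · intro j hj
    have := h2 (aseq K N₀ j, Sseq C j * C₂) (by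
      rw [plist, Finset.mem_union]
      left
      exact Finset.mem_image.mpr ⟨j, Finset.mem_range.mpr hj, rfl⟩)
    simp only at this
    rw [mul_assoc (Sseq C j)] at this
    exact this.mono M' hC0.le (by nlinarith)
  · intro j hj
    have := h1 (K * aseq K N₀ j, C * (Sseq C j + 1) * C₂) (by
      rw [plist, Finset.mem_union]
      right
      exact Finset.mem_image.mpr ⟨j, Finset.mem_range.mpr hj, rfl⟩)
    simp only at this
    have e : C * (Sseq C j + 1) * C₂ * ε * n =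
        C * (Sseq C j * (C₂ * ε) * n + (C₂ * ε) * n) := by ring
    rw [e, mul_assoc K] at this
    exact this.mono M hC0.le (by nlinarith)

/-- Two linear parts with the same ray structure are close. -/
theorem psi_final {θ : G → E} {A : Set G} (M : Mod θ A) {ι : Type*} [Fintype ι]
    (v : Basis ι ℝ E) (b : ι → E →L[ℝ] ℝ) (hb : ∀ i, 0 < b i (v i))
    (c' : ∀ i, Crossed θ (b i)) (hu : ∀ i, (c' i).u ∈ A) {θ' : G' → E'} {A' : Set G'}
    (M' : Mod θ' A') {c K : ℕ} {C L W : ℝ} (hK1 : 1 ≤ K) (hC : 1 ≤ C) (hL : 1 ≤ L)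
    (hW : ∀ i, L * ‖v i‖ ≤ W) {κ : ℝ} (hκ : 0 < κ) :
    ∃ (P : Finset (ℕ × ℝ)) (ε₀ : ℝ), 0 < ε₀ ∧ (∀ p ∈ P, 1 ≤ p.1 ∧ 1 ≤ p.2) ∧
      ∀ ε : ℝ, 0 < ε → ε ≤ ε₀ → ∃ n₀ : ℕ, ∀ n : ℕ, n₀ ≤ n →
      ∀ (T₁ T₂ : E →L[ℝ] E') (T₁' T₂' : E' →L[ℝ] E),
        ‖T₁‖ ≤ L → ‖T₂‖ ≤ L → ‖T₁'‖ ≤ L → ‖T₂'‖ ≤ L →
        TrP θ A θ' A' c K C W ε n P T₁ → TrP θ A θ' A' c K C W ε n P T₂ →
        TrP θ' A' θ A c K C W ε n P T₁' → TrP θ' A' θ A c K C W ε n P T₂' →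
        (∀ y, ‖T₁ (T₁' y) - y‖ ≤ ε * ‖y‖) → (∀ x, ‖T₂' (T₂ x) - x‖ ≤ ε * ‖x‖) →
        (∀ i, ∃ d : ℝ, 0 ≤ d ∧ ‖T₁' (T₂ (v i)) - d • v i‖ ≤ ε) → ‖T₂ - T₁‖ ≤ κ := by
  classical
  obtain ⟨Cv, hCv, hCv'⟩ := v.exists_opNorm_le (F := E)
  obtain ⟨V, hV0, hV⟩ : ∃ V : ℝ, 0 ≤ V ∧ ∀ i, ‖v i‖ ≤ V := by
    obtain ⟨V, hV⟩ := (Set.finite_range fun i => ‖v i‖).bddAbove
    exact ⟨max V 0, le_max_right _ _, fun i => (hV ⟨i, rfl⟩).trans (le_max_left _ _)⟩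
  have hL0 : 0 < L := by linarith
  have hvW : ∀ i, ‖v i‖ ≤ W := fun i => by
    refine le_trans ?_ (hW i)
    have := norm_nonneg (v i)
    nlinarith
  -- the precision for the scalars
  set κ₁ := min (1 / 2) (κ / (8 * (L * Cv * V + 1))) with hκ₁
  have hκ₁0 : 0 < κ₁ := lt_min (by norm_num) (by positivity)
  set C₂ := 2 * (V + L * L * V + L * L) + 1 with hC₂
  have hC₂1 : 1 ≤ C₂ := by
    have : 0 ≤ V + L * L * V + L * L := by positivity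
    linarith
  have H := fun i => psi_lower' M (c' i) (hu i) M' (c := c) (K := K) (C := C) (W := W) hK1 hC
    (hvW i) (hb i) hκ₁0 hC₂1
  choose P ε₀ hε₀ hP hH using H
  obtain ⟨ε₁, hε₁, hε₁'⟩ : ∃ ε₁ : ℝ, 0 < ε₁ ∧ ∀ i, ε₁ ≤ ε₀ i := by
    rcases isEmpty_or_nonempty ι with hι | hι
    · exact ⟨1, one_pos, fun i => isEmptyElim i⟩
    · refine ⟨Finset.univ.inf' Finset.univ_nonempty ε₀, ?_, fun i => Finset.inf'_le _ (by simp)⟩
      rw [Finset.lt_inf'_iff]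
      exact fun i _ => hε₀ i
  refine ⟨Finset.univ.biUnion P, min ε₁ (κ / (4 * (L * Cv + L + 1))),
    lt_min hε₁ (by positivity), ?_, fun ε hε hεε => ?_⟩
  · intro p hp
    rw [Finset.mem_biUnion] at hp
    obtain ⟨i, -, hi⟩ := hp
    exact hP i p hi
  have hε1 : ε ≤ ε₁ := hεε.trans (min_le_left _ _)
  have hε2 : ε ≤ κ / (4 * (L * Cv + L + 1)) := hεε.trans (min_le_right _ _)
  choose n₀ hn₀ using fun i => hH i ε hε (hε1.trans (hε₁' i))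
  obtain ⟨n₁, hn₁⟩ := (Set.finite_range n₀).bddAbove
  refine ⟨n₁, fun n hn T₁ T₂ T₁' T₂' b1 b2 b1' b2' t1 t2 t1' t2' i1 i2 hd => ?_⟩
  have hnn : ∀ i, n₀ i ≤ n := fun i => (hn₁ ⟨i, rfl⟩).trans hn
  have hsub : ∀ i, P i ⊆ Finset.univ.biUnion P := fun i =>
    Finset.subset_biUnion_of_mem P (Finset.mem_univ i)
  have hTv : ∀ (T : E →L[ℝ] E'), ‖T‖ ≤ L → ∀ i, ‖T (v i)‖ ≤ W := by
    intro T hT i
    refine (T.le_opNorm _).trans (le_trans ?_ (hW i))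
    gcongr
  -- the scalars
  have hscal : ∀ i, ‖T₁' (T₂ (v i)) - v i‖ ≤ ε + 2 * κ₁ * V := by
    intro i
    obtain ⟨d, hd0, hdi⟩ := hd i
    have hlow : 1 - κ₁ ≤ d := by
      refine hn₀ i n (hnn i) T₂ T₁' d hd0 (hTv _ b2 i) (t2.mono (hsub i)) (t1'.mono (hsub i)) ?_
      refine hdi.trans ?_
      nlinarith
    have hκ2 : κ₁ ≤ 1 / 2 := min_le_left _ _
    have hdhalf : 1 / 2 ≤ d := by linarith
    have hdpos : 0 < d := by linarith
    have hdi2 : d⁻¹ ≤ 2 := by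
      rw [inv_le_comm₀ hdpos (by norm_num)]
      linarith
    -- the inverse
    have hinv : ‖T₂' (T₁ (v i)) - d⁻¹ • v i‖ ≤ C₂ * ε := by
      have e : T₂' (T₁ (v i)) - d⁻¹ • v i =
          d⁻¹ • ((T₂' (T₂ (v i)) - v i) + T₂' (T₁ (T₁' (T₂ (v i))) - T₂ (v i))
            - T₂' (T₁ (T₁' (T₂ (v i)) - d • v i))) := by
        simp only [map_sub, map_smul, smul_add, smul_sub]
        rw [smul_smul, inv_mul_cancel₀ hdpos.ne', one_smul]
        abel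
      have n1 : ‖T₂' (T₂ (v i)) - v i‖ ≤ ε * V := (i2 _).trans (by gcongr; exact hV i)
      have n2 : ‖T₂' (T₁ (T₁' (T₂ (v i))) - T₂ (v i))‖ ≤ L * (ε * (L * V)) := by
        refine (T₂'.le_opNorm _).trans ?_
        have := i1 (T₂ (v i))
        have h3 : ‖T₂ (v i)‖ ≤ L * V := (T₂.le_opNorm _).trans (by gcongr; exact hV i)
        have h4 : ‖T₁ (T₁' (T₂ (v i))) - T₂ (v i)‖ ≤ ε * (L * V) := this.trans (by gcongr)
        gcongr
      have n3 : ‖T₂' (T₁ (T₁' (T₂ (v i)) - d • v i))‖ ≤ L * (L * ε) := by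
        refine (T₂'.le_opNorm _).trans ?_
        have h4 : ‖T₁ (T₁' (T₂ (v i)) - d • v i)‖ ≤ L * ε :=
          (T₁.le_opNorm _).trans (by gcongr)
        gcongr
      rw [e, norm_smul, Real.norm_of_nonneg (inv_nonneg.mpr hd0)]
      have n4 : ‖(T₂' (T₂ (v i)) - v i) + T₂' (T₁ (T₁' (T₂ (v i))) - T₂ (v i))
            - T₂' (T₁ (T₁' (T₂ (v i)) - d • v i))‖ ≤
          ε * V + L * (ε * (L * V)) + L * (L * ε) :=
        (norm_sub_le _ _).trans (add_le_add ((norm_add_le _ _).trans (add_le_add n1 n2)) n3)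
      calc d⁻¹ * _ ≤ 2 * (ε * V + L * (ε * (L * V)) + L * (L * ε)) := by gcongr
        _ ≤ C₂ * ε := by rw [hC₂]; nlinarith
    have hup : 1 - κ₁ ≤ d⁻¹ :=
      hn₀ i n (hnn i) T₁ T₂' d⁻¹ (inv_nonneg.mpr hd0) (hTv _ b1 i) (t1.mono (hsub i))
        (t2'.mono (hsub i)) hinv
    have hdle : d ≤ 1 + 2 * κ₁ := by
      have h5 : (1 - κ₁) * d ≤ 1 := by
        calc (1 - κ₁) * d ≤ d⁻¹ * d := by gcongr
          _ = 1 := inv_mul_cancel₀ hdpos.ne'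
      nlinarith
    have habs : |d - 1| ≤ 2 * κ₁ := by
      rw [abs_le]
      constructor <;> linarith
    have e : T₁' (T₂ (v i)) - v i = (T₁' (T₂ (v i)) - d • v i) + (d - 1) • v i := by
      rw [sub_smul, one_smul]; abel
    rw [e]
    refine (norm_add_le _ _).trans (add_le_add hdi ?_)
    rw [norm_smul, Real.norm_eq_abs]
    have := hV i
    gcongr
  -- conclusion
  have hS : ‖T₁'.comp T₂ - ContinuousLinearMap.id ℝ E‖ ≤ Cv * (ε + 2 * κ₁ * V) := by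
    refine hCv' (by positivity) fun i => ?_
    simpa using hscal i
  have hfin : ‖T₂ - T₁‖ ≤ ε * L + L * (Cv * (ε + 2 * κ₁ * V)) := by
    have e : T₂ - T₁ = (T₂ - (T₁.comp T₁').comp T₂) +
        T₁.comp (T₁'.comp T₂ - ContinuousLinearMap.id ℝ E) := by
      rw [ContinuousLinearMap.comp_sub, ContinuousLinearMap.comp_assoc,
        ContinuousLinearMap.comp_id]
      abel
    rw [e]
    refine (norm_add_le _ _).trans (add_le_add ?_ ?_)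
    · refine ContinuousLinearMap.opNorm_le_bound _ (by positivity) fun x => ?_
      have h1 : (T₂ - (T₁.comp T₁').comp T₂) x = -(T₁ (T₁' (T₂ x)) - T₂ x) := by
        simp
      rw [h1, norm_neg]
      refine (i1 _).trans ?_
      calc ε * ‖T₂ x‖ ≤ ε * (L * ‖x‖) := by
            gcongr
            exact (T₂.le_opNorm _).trans (by gcongr)
        _ = ε * L * ‖x‖ := by ring
    · refine (ContinuousLinearMap.opNorm_comp_le _ _).trans ?_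
      gcongr
  refine hfin.trans ?_
  have hκ3 : κ₁ ≤ κ / (8 * (L * Cv * V + 1)) := min_le_right _ _
  rw [le_div_iff₀ (by positivity)] at hκ3 hε2
  have h1 : 0 ≤ L * Cv * ε := by positivity
  have h2 : 0 ≤ κ₁ * (L * Cv * V) := by positivity
  nlinarith

end Vale.Agent.P188.H530
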