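import Vale.Agent.P188.H530.Meas
import Vale.Agent.P188.H530.Grow

/-! P188, block PSI: paths with steps in a ball, and the standing data on the model group. -/

universe u v w w'

open Finset

namespace Vale.Agent.P188.H530

open Vale.Agent.P188.H789 (Bl PathTo Bl_mono mul_mem_Bl mem_Bl_one one_mem_Bl)

variable {G : Type u} [Group G] {E : Type v} [NormedAddCommGroup E] [NormedSpace ℝ E]

theorem Near_mul {θ : G → E} (hθ : ∀ x y, θ (x * y) = θ x + θ y) {w : E} {r s : ℝ} {y z : G}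
    (hy : y ∈ Near θ w r) (hz : ‖θ z‖ ≤ s) : y * z ∈ Near θ w (r + s) := by
  obtain ⟨t, h0, h1, h2⟩ := hy
  refine ⟨t, h0, h1, ?_⟩
  rw [hθ]
  have e : θ y + θ z - t • w = (θ y - t • w) + θ z := by abel
  rw [e]
  exact (norm_add_le _ _).trans (add_le_add h2 hz)

theorem norm_prod_le {θ : G → E} (hθ : ∀ x y, θ (x * y) = θ x + θ y) {A : Set G} {ℓ : ℝ}
    (hℓ : ∀ a ∈ A, ‖θ a‖ ≤ ℓ) (l : List G) (hl : ∀ a ∈ l, a ∈ A) :
    ‖θ l.prod‖ ≤ l.length * ℓ := by
  induction l with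
  | nil => simp [add_one hθ]
  | cons a l ih =>
    have h1 := ih fun b hb => hl b (List.mem_cons_of_mem _ hb)
    have h2 := hℓ a (hl a List.mem_cons_self)
    rw [List.prod_cons, hθ, List.length_cons]
    push_cast
    calc ‖θ a + θ l.prod‖ ≤ ‖θ a‖ + ‖θ l.prod‖ := norm_add_le _ _
      _ ≤ (l.length + 1) * ℓ := by linarith

/-- Replace steps in a ball by unit steps. -/
theorem Ends_refine {θ : G → E} (hθ : ∀ x y, θ (x * y) = θ x + θ y) {A : Set G} {ℓ : ℝ}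
    (hℓ0 : 0 ≤ ℓ) (hℓ : ∀ a ∈ A, ‖θ a‖ ≤ ℓ) (hA1 : (1 : G) ∈ A) (hAi : ∀ a ∈ A, a⁻¹ ∈ A)
    (K m : ℕ) (w : E) (r : ℝ) :
    Ends θ (Bl A K) m w r ⊆ Ends θ A (m * K) w (r + K * ℓ) := by
  intro x hx
  obtain ⟨p, h0, h1, h2, h3⟩ := hx
  have hKℓ : 0 ≤ K * ℓ := by positivity
  have key : ∀ i ≤ m, PathTo (Near θ w (r + K * ℓ)) A (i * K) 1 (p i) := by
    intro i
    induction i with
    | zero =>
      intro _
      rw [Nat.zero_mul, ← h0]
      exact PathTo.refl (Near_mono (by linarith) (h2 0 (by omega)))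
    | succ i ih =>
      intro hi
      obtain ⟨l, hl1, hl2, hl3⟩ := h3 i (by omega)
      have hl2' : ∀ a ∈ l, a ∈ A := by
        intro a ha
        rcases hl2 a ha with h | h
        · exact h
        · have := hAi _ h
          rwa [inv_inv] at this
      have h4 : PathTo (Near θ w (r + K * ℓ)) A l.length (p i) (p i * l.prod) := by
        refine PathTo.of_list l (p i) hl2' fun j hj => ?_
        refine Near_mul hθ (h2 i (by omega)) ?_
        refine (norm_prod_le hθ hℓ _ fun a ha => hl2' a (List.mem_of_mem_take ha)).trans ?_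
        gcongr
        rw [List.length_take]
        omega
      have h5 := (ih (by omega)).trans (h4.extend hA1 hl1)
      rw [hl3, mul_inv_cancel_left] at h5
      have e : (i + 1) * K = i * K + K := by ring
      rwa [e]
  have := key m le_rfl
  rwa [h1] at this

/-- The standing data: an additive height function, a finite symmetric set of steps which can
follow segments, exponential counting bounds in slabs, and polynomially many heights. -/
structure Mod (θ : G → E) (A : Set G) : Type (max u v) where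
  add : ∀ x y, θ (x * y) = θ x + θ y
  fin : A.Finite
  one : (1 : G) ∈ A
  inv : ∀ a ∈ A, a⁻¹ ∈ A
  /-- bound of the heights of the steps -/
  ℓ : ℝ
  ℓ0 : 0 ≤ ℓ
  hℓ : ∀ a ∈ A, ‖θ a‖ ≤ ℓ
  /-- the error for following segments -/
  r₀ : ℝ
  hr₀ : 0 ≤ r₀
  seg : SegStep θ A r₀
  /-- base of the exponential bound -/
  Cs : ℕ
  hCs : 1 ≤ Cs
  /-- degree of the polynomial bound -/
  Ds : ℕ
  slab : ∀ R m : ℕ, {x | PathTo {g | ‖θ g‖ ≤ R} A m 1 x}.Finite ∧
    {x | PathTo {g | ‖θ g‖ ≤ R} A m 1 x}.ncard ≤ Cs ^ (R + 1) * (m + 1) ^ Ds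
  img : ∀ R : ℕ, (θ '' {g | ‖θ g‖ ≤ R}).Finite ∧
    (θ '' {g | ‖θ g‖ ≤ R}).ncard ≤ Cs * (R + 1) ^ Ds

namespace Mod

variable {θ : G → E} {A : Set G} (M : Mod θ A)

include M

theorem Ends_sub_slab {m : ℕ} {w : E} {r : ℝ} {R : ℕ} (hR : ‖w‖ + r ≤ R) :
    Ends θ A m w r ⊆ {x | PathTo {g | ‖θ g‖ ≤ R} A m 1 x} := by
  intro x hx
  exact PathTo.mono (fun g hg => (norm_of_Near hg).trans hR) subset_rfl hx

theorem Ends_finite (m : ℕ) (w : E) (r : ℝ) : (Ends θ A m w r).Finite := by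
  obtain ⟨R, hR⟩ := exists_nat_ge (‖w‖ + r)
  exact (M.slab R m).1.subset (M.Ends_sub_slab hR)

theorem Ends_ncard_le {m : ℕ} {w : E} {r : ℝ} {R : ℕ} (hR : ‖w‖ + r ≤ R) :
    (Ends θ A m w r).ncard ≤ M.Cs ^ (R + 1) * (m + 1) ^ M.Ds :=
  (Set.ncard_le_ncard (M.Ends_sub_slab hR) (M.slab R m).1).trans (M.slab R m).2

theorem image_ncard_le {m : ℕ} {w : E} {r : ℝ} {R : ℕ} (hR : ‖w‖ + r ≤ R) :
    (θ '' Ends θ A m w r).ncard ≤ M.Cs * (R + 1) ^ M.Ds := by
  refine (Set.ncard_le_ncard (Set.image_mono fun x hx => ?_) (M.img R).1).trans (M.img R).2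
  exact (norm_of_Near (Ends_near hx)).trans hR

theorem one_mem_Ends (m : ℕ) (w : E) {r : ℝ} (hr : 0 ≤ r) : (1 : G) ∈ Ends θ A m w r := by
  refine ⟨fun _ => 1, rfl, rfl, fun i _ => ⟨0, le_rfl, zero_le_one, ?_⟩, fun i _ => ?_⟩
  · rw [add_one M.add]
    simpa using hr
  · simpa using M.one

theorem ncard_pos (m : ℕ) (w : E) {r : ℝ} (hr : 0 ≤ r) : 1 ≤ (Ends θ A m w r).ncard :=
  (Set.ncard_pos (M.Ends_finite m w r)).mpr ⟨1, M.one_mem_Ends m w hr⟩

theorem ncard_mono {m m' : ℕ} {w w' : E} {r r' : ℝ} (hm : m ≤ m')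
    (h : Near θ w r ⊆ Near θ w' r') :
    (Ends θ A m w r).ncard ≤ (Ends θ A m' w' r').ncard :=
  Set.ncard_le_ncard ((Ends_mono_m M.one hm).trans (Ends_mono subset_rfl h))
    (M.Ends_finite _ _ _)

theorem ncard_change {m m' : ℕ} {w w' : E} {r r' δ : ℝ} (hm : m ≤ m') (h : ‖w - w'‖ ≤ δ)
    (hr : r + δ ≤ r') : (Ends θ A m w r).ncard ≤ (Ends θ A m' w' r').ncard :=
  M.ncard_mono hm ((Near_change h).trans (Near_mono hr))

end Mod

end Vale.Agent.P188.H530
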