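import Vale.Agent.P188.H530.Ends

/-! P188, block PSI: transfer of the number of end points by a map which is affine on most
points. -/

universe u v w w'

open Finset

namespace Vale.Agent.P188.H530

open Vale.Agent.P188.H789 (Bl PathTo Bl_mono mul_mem_Bl mem_Bl_one one_mem_Bl)

theorem path_mem_Bl {G : Type u} [Group G] {B : Set G} {p : ℕ → G} {m : ℕ} (h0 : p 0 = 1)
    (hp : ∀ i < m, (p i)⁻¹ * p (i + 1) ∈ B) (i : ℕ) (hi : i ≤ m) : p i ∈ Bl B m := by
  have key : ∀ i ≤ m, p i ∈ Bl B i := by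
    intro i
    induction i with
    | zero => intro _; rw [h0]; exact one_mem_Bl _ _
    | succ i ih =>
      intro hi
      have h1 := mul_mem_Bl (ih (by omega)) (mem_Bl_one (hp i (by omega)))
      rwa [mul_inv_cancel_left] at h1
  exact Bl_mono hi (key i hi)

variable {G : Type u} [Group G] {G' : Type v} [Group G']
  {E : Type w} [NormedAddCommGroup E] [NormedSpace ℝ E]
  {E' : Type w'} [NormedAddCommGroup E'] [NormedSpace ℝ E']

open Classical in
/-- Transfer of end points at a good point. -/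
theorem transfer {θ : G → E} {θ' : G' → E'} (hθ : ∀ x y, θ (x * y) = θ x + θ y)
    (hθ' : ∀ x y, θ' (x * y) = θ' x + θ' y) {B : Set G} {B' : Set G'} {ℓ ℓ' : ℝ}
    (hℓ0 : 0 ≤ ℓ) (hℓ0' : 0 ≤ ℓ') (hℓ : ∀ a ∈ B, ‖θ a‖ ≤ ℓ) (hℓ' : ∀ a ∈ B', ‖θ' a‖ ≤ ℓ')
    {F : G → G'} (hF : ∀ x, ∀ b ∈ B, (F x)⁻¹ * F (x * b) ∈ B') {c : ℕ}
    (hc : ∀ y, {x | F x = y}.Finite ∧ {x | F x = y}.ncard ≤ c)
    (D₀ : Finset G) (T : E →L[ℝ] E') {δ : ℝ} {m q : ℕ} {w : E} {r : ℝ} (x : G)
    (hlin : ∀ x' ∈ D₀, x⁻¹ * x' ∈ Bl B m →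
      ‖θ' (F x') - θ' (F x) - T (θ (x⁻¹ * x'))‖ ≤ δ)
    (hfin : (Ends θ B m w r).Finite)
    (hfin' : (Ends θ' B' m (T w) (δ + (ℓ' + ‖T‖ * ℓ) * q + ‖T‖ * r)).Finite)
    (π : G → ℕ → G)
    (hπ : ∀ u ∈ Ends θ B m w r, π u 0 = 1 ∧ π u m = u ∧ (∀ i ≤ m, π u i ∈ Near θ w r) ∧
      ∀ i < m, (π u i)⁻¹ * π u (i + 1) ∈ B)
    (hq : q ≤ m)
    (hgood : 2 * badSum D₀ π hfin.toFinset m x ≤ (q + 1) * hfin.toFinset.card) :
    (Ends θ B m w r).ncard ≤
      2 * c * (Ends θ' B' m (T w) (δ + (ℓ' + ‖T‖ * ℓ) * q + ‖T‖ * r)).ncard := by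
  set U := hfin.toFinset with hU
  have h1 := card_good_ends D₀ π U m q x hgood
  set W := U.filter fun u => ((range (m + 1)).filter fun i => x * π u i ∉ D₀).card ≤ q with hW
  have hmaps : ∀ u ∈ W, (F x)⁻¹ * F (x * u) ∈ hfin'.toFinset := by
    intro u hu
    rw [hW, Finset.mem_filter, hU, Set.Finite.mem_toFinset] at hu
    obtain ⟨huE, hubad⟩ := hu
    obtain ⟨k0, k1, k2, k3⟩ := hπ u huE
    rw [Set.Finite.mem_toFinset]
    have hstep : ∀ i < m, (F (x * π u i))⁻¹ * F (x * π u (i + 1)) ∈ B' := by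
      intro i hi
      have h2 := hF (x * π u i) _ (k3 i hi)
      rwa [mul_assoc x, mul_inv_cancel_left] at h2
    refine ⟨fun j => (F x)⁻¹ * F (x * π u j), ?_, ?_, ?_, ?_⟩
    · simp only [k0, mul_one]
      exact inv_mul_cancel _
    · simp only [k1]
    · intro j hj
      obtain ⟨i, hi, hgd, hij, hji⟩ := exists_good (fun i => x * π u i ∉ D₀) hq hubad j hj
      have hgd' : x * π u i ∈ D₀ := by
        by_contra hcon
        exact hgd hcon
      have h3 := hlin _ hgd' (by
        rw [inv_mul_cancel_left]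
        exact path_mem_Bl k0 k3 i hi)
      rw [inv_mul_cancel_left] at h3
      obtain ⟨s, hs0, hs1, hs⟩ := k2 j hj
      refine ⟨s, hs0, hs1, ?_⟩
      simp only
      rw [hθ', add_inv hθ']
      have hpathF : ‖θ' (F (x * π u j)) - θ' (F (x * π u i))‖ ≤ q * ℓ' := by
        rcases le_total i j with h | h
        · refine (norm_path_le hθ' hℓ' (p := fun j => F (x * π u j)) hstep h hj).trans ?_
          have : ((j - i : ℕ) : ℝ) ≤ q := by exact_mod_cast (by omega : j - i ≤ q)
          gcongr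
        · rw [norm_sub_rev]
          refine (norm_path_le hθ' hℓ' (p := fun j => F (x * π u j)) hstep h hi).trans ?_
          have : ((i - j : ℕ) : ℝ) ≤ q := by exact_mod_cast (by omega : i - j ≤ q)
          gcongr
      have hpathθ : ‖θ (π u i) - θ (π u j)‖ ≤ q * ℓ := by
        rcases le_total i j with h | h
        · rw [norm_sub_rev]
          refine (norm_path_le hθ hℓ (p := π u) k3 h hj).trans ?_
          have : ((j - i : ℕ) : ℝ) ≤ q := by exact_mod_cast (by omega : j - i ≤ q)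
          gcongr
        · refine (norm_path_le hθ hℓ (p := π u) k3 h hi).trans ?_
          have : ((i - j : ℕ) : ℝ) ≤ q := by exact_mod_cast (by omega : i - j ≤ q)
          gcongr
      have e : -θ' (F x) + θ' (F (x * π u j)) - s • T w =
          (θ' (F (x * π u j)) - θ' (F (x * π u i))) +
          (θ' (F (x * π u i)) - θ' (F x) - T (θ (π u i))) +
          T (θ (π u i) - θ (π u j)) + T (θ (π u j) - s • w) := by
        rw [map_sub, map_sub, map_smul]
        abel
      rw [e]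
      have n1 : ‖T (θ (π u i) - θ (π u j))‖ ≤ ‖T‖ * (q * ℓ) :=
        (T.le_opNorm _).trans (by gcongr)
      have n2 : ‖T (θ (π u j) - s • w)‖ ≤ ‖T‖ * r :=
        (T.le_opNorm _).trans (by gcongr)
      refine (norm_add_le _ _).trans ?_
      refine (add_le_add (norm_add_le _ _) le_rfl).trans ?_
      refine (add_le_add (add_le_add (norm_add_le _ _) le_rfl) le_rfl).trans ?_
      nlinarith
    · intro i hi
      simp only
      have e : ((F x)⁻¹ * F (x * π u i))⁻¹ * ((F x)⁻¹ * F (x * π u (i + 1))) =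
          (F (x * π u i))⁻¹ * F (x * π u (i + 1)) := by group
      rw [e]
      exact hstep i hi
  have hcard : W.card ≤ c * hfin'.toFinset.card := by
    refine Finset.card_le_mul_card_image_of_maps_to hmaps c ?_
    intro y _
    have hy := hc (F x * y)
    rw [← Set.ncard_coe_finset]
    refine le_trans ?_ hy.2
    refine Set.ncard_le_ncard_of_injOn (fun u => x * u) ?_ ?_ hy.1
    · intro u hu
      rw [Finset.mem_coe, Finset.mem_filter] at hu
      simp only [Set.mem_setOf_eq]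
      rw [← hu.2, mul_inv_cancel_left]
    · intro u _ v _ h
      exact mul_left_cancel h
  rw [Set.ncard_eq_toFinset_card _ hfin, Set.ncard_eq_toFinset_card _ hfin']
  calc U.card ≤ 2 * W.card := h1
    _ ≤ 2 * (c * hfin'.toFinset.card) := Nat.mul_le_mul_left _ hcard
    _ = _ := by ring

end Vale.Agent.P188.H530
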