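import Vale.Agent.P188.H530.Transfer

/-! P188, block PSI: transfer of the number of end points, for an orbit map. -/

universe u v w w'

open Finset

namespace Vale.Agent.P188.H530

open Vale.Agent.P188.H789 (Bl PathTo Bl_mono mul_mem_Bl mem_Bl_one one_mem_Bl)

variable {G : Type u} [Group G] {G' : Type v} [Group G']
  {E : Type w} [NormedAddCommGroup E] [NormedSpace ℝ E]
  {E' : Type w'} [NormedAddCommGroup E'] [NormedSpace ℝ E']

open Classical in
/-- The number of bad times, summed over the end points. -/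
noncomputable def badSumP (good : G → Prop) (π : G → ℕ → G) (U : Finset G) (m : ℕ) : ℕ :=
  ∑ u ∈ U, ((range (m + 1)).filter fun i => ¬ good (π u i)).card

open Classical in
theorem card_good_endsP (good : G → Prop) (π : G → ℕ → G) (U : Finset G) (m q : ℕ)
    (h : 2 * badSumP good π U m ≤ (q + 1) * U.card) :
    U.card ≤ 2 * (U.filter fun u =>
      ((range (m + 1)).filter fun i => ¬ good (π u i)).card ≤ q).card := by
  set W := U.filter fun u => ((range (m + 1)).filter fun i => ¬ good (π u i)).card ≤ q with hW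
  set V := U.filter fun u => ¬ ((range (m + 1)).filter fun i => ¬ good (π u i)).card ≤ q with hV
  have h1 : W.card + V.card = U.card := Finset.card_filter_add_card_filter_not _
  have h2 : V.card * (q + 1) ≤ badSumP good π U m := by
    unfold badSumP
    calc V.card * (q + 1) = ∑ _u ∈ V, (q + 1) := by rw [Finset.sum_const, smul_eq_mul]
      _ ≤ ∑ u ∈ V, ((range (m + 1)).filter fun i => ¬ good (π u i)).card := by
          refine Finset.sum_le_sum fun u hu => ?_
          have := (Finset.mem_filter.mp hu).2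
          omega
      _ ≤ _ := Finset.sum_le_sum_of_subset (Finset.filter_subset _ _)
  have h3 : 2 * V.card * (q + 1) ≤ U.card * (q + 1) := by
    calc 2 * V.card * (q + 1) = 2 * (V.card * (q + 1)) := by ring
      _ ≤ 2 * badSumP good π U m := Nat.mul_le_mul_left _ h2
      _ ≤ (q + 1) * U.card := h
      _ = _ := by ring
  have h4 : 2 * V.card ≤ U.card := Nat.le_of_mul_le_mul_right h3 (by omega)
  omega

open Classical in
/-- Transfer of end points for an orbit map `Φ`. -/
theorem transferP {θ : G → E} {θ' : G' → E'} (hθ : ∀ x y, θ (x * y) = θ x + θ y)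
    (hθ' : ∀ x y, θ' (x * y) = θ' x + θ' y) {B : Set G} {B' : Set G'} {ℓ ℓ' : ℝ}
    (hℓ0 : 0 ≤ ℓ) (hℓ0' : 0 ≤ ℓ') (hℓ : ∀ a ∈ B, ‖θ a‖ ≤ ℓ) (hℓ' : ∀ a ∈ B', ‖θ' a‖ ≤ ℓ')
    {Φ : G → G'} (hΦ : ∀ g, ∀ b ∈ B, (Φ g)⁻¹ * Φ (g * b) ∈ B') {c : ℕ}
    (hc : ∀ y, {x | Φ x = y}.Finite ∧ {x | Φ x = y}.ncard ≤ c)
    (good : G → Prop) (T : E →L[ℝ] E') {δ : ℝ} {m q : ℕ} {w : E} {r : ℝ}
    (hlin : ∀ g, good g → g ∈ Bl B m → ‖θ' (Φ g) - θ' (Φ 1) - T (θ g)‖ ≤ δ)
    (hfin : (Ends θ B m w r).Finite)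
    (hfin' : (Ends θ' B' m (T w) (δ + (ℓ' + ‖T‖ * ℓ) * q + ‖T‖ * r)).Finite)
    (π : G → ℕ → G)
    (hπ : ∀ u ∈ Ends θ B m w r, π u 0 = 1 ∧ π u m = u ∧ (∀ i ≤ m, π u i ∈ Near θ w r) ∧
      ∀ i < m, (π u i)⁻¹ * π u (i + 1) ∈ B)
    (hq : q ≤ m)
    (hgood : 2 * badSumP good π hfin.toFinset m ≤ (q + 1) * hfin.toFinset.card) :
    (Ends θ B m w r).ncard ≤
      2 * c * (Ends θ' B' m (T w) (δ + (ℓ' + ‖T‖ * ℓ) * q + ‖T‖ * r)).ncard := by
  set U := hfin.toFinset with hU
  have h1 := card_good_endsP good π U m q hgood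
  set W := U.filter fun u => ((range (m + 1)).filter fun i => ¬ good (π u i)).card ≤ q with hW
  have hmaps : ∀ u ∈ W, (Φ 1)⁻¹ * Φ u ∈ hfin'.toFinset := by
    intro u hu
    rw [hW, Finset.mem_filter, hU, Set.Finite.mem_toFinset] at hu
    obtain ⟨huE, hubad⟩ := hu
    obtain ⟨k0, k1, k2, k3⟩ := hπ u huE
    rw [Set.Finite.mem_toFinset]
    have hstep : ∀ i < m, (Φ (π u i))⁻¹ * Φ (π u (i + 1)) ∈ B' := by
      intro i hi
      have h2 := hΦ (π u i) _ (k3 i hi)
      rwa [mul_inv_cancel_left] at h2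
    refine ⟨fun j => (Φ 1)⁻¹ * Φ (π u j), ?_, ?_, ?_, ?_⟩
    · simp only [k0]
      exact inv_mul_cancel _
    · simp only [k1]
    · intro j hj
      obtain ⟨i, hi, hgd, hij, hji⟩ := exists_good (fun i => ¬ good (π u i)) hq hubad j hj
      have hgd' : good (π u i) := by
        by_contra hcon
        exact hgd hcon
      have h3 := hlin _ hgd' (path_mem_Bl k0 k3 i hi)
      obtain ⟨s, hs0, hs1, hs⟩ := k2 j hj
      refine ⟨s, hs0, hs1, ?_⟩
      simp only
      rw [hθ', add_inv hθ']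
      have hpathF : ‖θ' (Φ (π u j)) - θ' (Φ (π u i))‖ ≤ q * ℓ' := by
        rcases le_total i j with h | h
        · refine (norm_path_le hθ' hℓ' (p := fun j => Φ (π u j)) hstep h hj).trans ?_
          have : ((j - i : ℕ) : ℝ) ≤ q := by exact_mod_cast (by omega : j - i ≤ q)
          gcongr
        · rw [norm_sub_rev]
          refine (norm_path_le hθ' hℓ' (p := fun j => Φ (π u j)) hstep h hi).trans ?_
          have : ((i - j : ℕ) : ℝ) ≤ q := by exact_mod_cast (by omega : i - j ≤ q)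
          gcongr
      have hpathθ : ‖θ (π u i) - θ (π u j)‖ ≤ q * ℓ := by
        rcases le_total i j with h | h
        · rw [norm_sub_rev]
          refine (norm_path_le hθ hℓ (p := π u) k3 h hj).trans ?_
          have : ((j - i : ℕ) : ℝ) ≤ q := by exact_mod_cast (by omega : j - i ≤ q)
          gcongr
        · refine (norm_path_le hθ hℓ (p := π u) k3 h hi).trans ?_
          have : ((i - j : ℕ) : ℝ) ≤ q := by exact_mod_cast (by omega : i - j ≤ q)
          gcongr
      have e : -θ' (Φ 1) + θ' (Φ (π u j)) - s • T w =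
          (θ' (Φ (π u j)) - θ' (Φ (π u i))) +
          (θ' (Φ (π u i)) - θ' (Φ 1) - T (θ (π u i))) +
          T (θ (π u i) - θ (π u j)) + T (θ (π u j) - s • w) := by
        rw [map_sub, map_sub, map_smul]
        abel
      rw [e]
      have n1 : ‖T (θ (π u i) - θ (π u j))‖ ≤ ‖T‖ * (q * ℓ) :=
        (T.le_opNorm _).trans (by gcongr)
      have n2 : ‖T (θ (π u j) - s • w)‖ ≤ ‖T‖ * r :=
        (T.le_opNorm _).trans (by gcongr)
      refine (norm_add_le _ _).trans ?_
      refine (add_le_add (norm_add_le _ _) le_rfl).trans ?_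
      refine (add_le_add (add_le_add (norm_add_le _ _) le_rfl) le_rfl).trans ?_
      nlinarith
    · intro i hi
      simp only
      have e : ((Φ 1)⁻¹ * Φ (π u i))⁻¹ * ((Φ 1)⁻¹ * Φ (π u (i + 1))) =
          (Φ (π u i))⁻¹ * Φ (π u (i + 1)) := by group
      rw [e]
      exact hstep i hi
  have hcard : W.card ≤ c * hfin'.toFinset.card := by
    refine Finset.card_le_mul_card_image_of_maps_to hmaps c ?_
    intro y _
    have hy := hc (Φ 1 * y)
    rw [← Set.ncard_coe_finset]
    refine le_trans ?_ hy.2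
    refine Set.ncard_le_ncard_of_injOn (fun u => u) ?_ ?_ hy.1
    · intro u hu
      rw [Finset.mem_coe, Finset.mem_filter] at hu
      simp only [Set.mem_setOf_eq]
      rw [← hu.2, mul_inv_cancel_left]
    · intro u _ v _ h
      exact h
  rw [Set.ncard_eq_toFinset_card _ hfin, Set.ncard_eq_toFinset_card _ hfin']
  calc U.card ≤ 2 * W.card := h1
    _ ≤ 2 * (c * hfin'.toFinset.card) := Nat.mul_le_mul_left _ hcard
    _ = _ := by ring

end Vale.Agent.P188.H530
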